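import Vale.Agent.P146.H586.NeS
import Vale.Agent.P146.H272.NePt
import Vale.Agent.P146.H643.KLow
import Vale.Agent.P146.H281.NeR

set_option linter.all false

/-!
The near end at one typical point: the numbers `NeP` of `H272.NePt` and the inequality `ne_sk`
give an upper bound of the pair number.
-/

open MeasureTheory ProbabilityTheory Filter Topology

namespace Vale.Agent.P146.H586

open Vale.Agent.P157.Lv hiding Dep
open Vale.Agent.P146.H425 Vale.Agent.P146.H646 Vale.Agent.P146.H615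
open Vale.Agent.P146.H325 hiding cb cf
open Vale.Agent.P146.H196 Vale.Agent.P146.H347 Vale.Agent.P146.H475 Vale.Agent.P146.H418
  Vale.Agent.P146.H412 Vale.Agent.P146.H320 Vale.Agent.P146.H463 Vale.Agent.P146.H355
  Vale.Agent.P146.H272

/-- the square root of the mean square of `b² (t Q + w)` -/
noncomputable def HY (L : Law) (m : ℕ) (t u : ℝ) : ℝ :=
  L.b ^ 4 * L.ex' t u (fun z => (t * L.Q (Sn L.n m) t u z + u * L.vp / L.b ^ 2) ^ 2)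

lemma Qn (L : Law) (S : Finset (Fin L.n)) (t u : ℝ) (z : Co L.n Bool Bool → ℝ) :
    0 ≤ L.Q S t u z := by
  unfold Law.Q
  exact div_nonneg (Finset.sum_nonneg fun _ _ => sq_nonneg _) (Nat.cast_nonneg _)

lemma HY_ge {L : Law} (hA : Adm L) {m : ℕ} {t u : ℝ} (ht : 0 ≤ t) (hu : 0 ≤ u) :
    L.b ^ 4 * (t ^ 2 * L.qq (Sn L.n m) t u) ≤ HY L m t u := by
  have hl := hA.lam0
  have hη := hA.η0
  have hw := wtL (L := L) hl hη t u
  have hvp := hA.vp0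
  have bQ := bm_Q hl hη (Sn L.n m) t u
  have hQ0 : ∀ z, 0 ≤ L.Q (Sn L.n m) t u z := Qn L (Sn L.n m) t u
  have hwf0 : 0 ≤ u * L.vp / L.b ^ 2 := by positivity
  have bu : BM fun z => t * L.Q (Sn L.n m) t u z + u * L.vp / L.b ^ 2 :=
    (bcm t bQ).add (BM.const _)
  unfold HY
  refine mul_le_mul_of_nonneg_left ?_ (by positivity)
  have e1 : t ^ 2 * L.qq (Sn L.n m) t u =
      L.ex' t u (fun z => t ^ 2 * L.Q (Sn L.n m) t u z ^ 2) := by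
    unfold Law.qq Law.ex'
    rw [← ex_cmul]
  rw [e1]
  refine ex_mono hw (bcm _ (bsq bQ)) (bsq bu) fun z => ?_
  have h3 : 0 ≤ t * L.Q (Sn L.n m) t u z := mul_nonneg ht (hQ0 z)
  nlinarith

lemma HY_q1 {L : Law} (hA : Adm L) {m : ℕ} {t u : ℝ} (ht : 0 ≤ t) (hu : 0 ≤ u) :
    L.b ^ 2 * t * L.ex' t u (L.Q (Sn L.n m) t u) ≤ √(HY L m t u) := by
  have hl := hA.lam0
  have hη := hA.η0
  have hw := wtL (L := L) hl hη t u
  have bQ := bm_Q hl hη (Sn L.n m) t u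
  refine Real.le_sqrt_of_sq_le (le_trans ?_ (HY_ge hA ht hu))
  have h3 : L.ex' t u (L.Q (Sn L.n m) t u) ^ 2 ≤ L.qq (Sn L.n m) t u := Wt.ex_sq_le hw bQ
  have h4 := mul_le_mul_of_nonneg_left h3 (show 0 ≤ L.b ^ 4 * t ^ 2 by positivity)
  calc (L.b ^ 2 * t * L.ex' t u (L.Q (Sn L.n m) t u)) ^ 2 =
      L.b ^ 4 * t ^ 2 * L.ex' t u (L.Q (Sn L.n m) t u) ^ 2 := by ring
    _ ≤ _ := h4
    _ = _ := by ring

/-- the lower bound of the mean square -/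
lemma HY_low {L : Law} (hA : Adm L) (hη1 : L.η ≤ 1 / 2) {m : ℕ} {t u : ℝ} (ht : 1 / 2 ≤ t)
    (hu : 0 ≤ u) {U κ h0 ε rk : ℝ} (hh0 : 0 < h0) (hκ : 1 ≤ κ)
    (hCC : L.ex' t u (CC L (Sn L.n m) t u) ≤ U ^ 2) (hUk : U ^ 2 ≤ κ * h0) (hε : 0 < ε)
    (hε1 : ε ≤ 1 / 20) (hηκ : L.η * κ ≤ ε) (hrk : L.rk (Sn L.n m) t u ≤ rk)
    (hrk2 : κ ^ 2 * rk ≤ ε ^ 2 * h0) (hrk0 : 0 ≤ rk)
    (hrr : (22 / L.b ^ 4 + 4) * h0 < L.rr (Sn L.n m) t u) : h0 ≤ HY L m t u := by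
  have hl := hA.lam0
  have hη := hA.η0
  have hb := hA.b0
  have h3 := H643.rr_le_qq (L := L) (S := Sn L.n m) (t := t) (u := u) hl hη hA.n0 one_pos
  have h4 : H643.CC L (Sn L.n m) t u ≤ κ * h0 := (show H643.CC L (Sn L.n m) t u ≤ U ^ 2 from
    hCC).trans hUk
  have h5 : (L.η * (2 + L.η)) ^ 2 ≤ 25 / 4 * L.η ^ 2 := by
    have h6 : L.η * (2 + L.η) ≤ L.η * (5 / 2) := mul_le_mul_of_nonneg_left (by linarith) hη
    have h7 := pow_le_pow_left₀ (by positivity) h6 2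
    calc _ ≤ _ := h7
      _ = _ := by ring
  have h40 : 0 ≤ H643.CC L (Sn L.n m) t u := by
    rw [H643.CC_eq_rr (L := L) (S := Sn L.n m) (t := t) (u := u) hl hη hA.n0]
    have := H643.rr_nonneg (L := L) (S := Sn L.n m) (t := t) (u := u) hl hη
    positivity
  have h6 : (L.η * (2 + L.η)) ^ 2 * H643.CC L (Sn L.n m) t u ≤ 25 / 8 * (1 / 20) * h0 := by
    calc (L.η * (2 + L.η)) ^ 2 * H643.CC L (Sn L.n m) t u ≤
        25 / 4 * L.η ^ 2 * (κ * h0) := mul_le_mul h5 h4 h40 (by positivity)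
      _ = 25 / 4 * L.η * (L.η * κ) * h0 := by ring
      _ ≤ 25 / 4 * (1 / 2) * (1 / 20) * h0 := by
          have h8 : 25 / 4 * L.η * (L.η * κ) ≤ 25 / 4 * (1 / 2) * (1 / 20) :=
            mul_le_mul (by linarith) (hηκ.trans hε1) (by positivity) (by positivity)
          exact mul_le_mul_of_nonneg_right h8 hh0.le
      _ = _ := by ring
  have h7 : rk ≤ 1 / 400 * h0 := by
    have e1 : 1 * rk ≤ κ ^ 2 * rk :=
      mul_le_mul_of_nonneg_right (one_le_pow₀ hκ) hrk0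
    have e2 : ε ^ 2 * h0 ≤ (1 / 20) ^ 2 * h0 :=
      mul_le_mul_of_nonneg_right (pow_le_pow_left₀ hε.le hε1 2) hh0.le
    linarith
  have e0 : 0 ≤ 1 / L.b ^ 4 * h0 := by positivity
  have e1 : 22 / L.b ^ 4 * h0 = 22 * (1 / L.b ^ 4 * h0) := by ring
  have h8 : 4 * (1 / L.b ^ 4 * h0) ≤ L.qq (Sn L.n m) t u := by
    rw [add_mul, e1] at hrr
    norm_num at h3
    have h9 := hrk.trans h7
    linarith
  have h9 : 1 / 4 ≤ t ^ 2 := by nlinarith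
  calc h0 = L.b ^ 4 * (1 / 4 * (4 * (1 / L.b ^ 4 * h0))) := by field_simp
    _ ≤ L.b ^ 4 * (t ^ 2 * L.qq (Sn L.n m) t u) := by
        refine mul_le_mul_of_nonneg_left ?_ (by positivity)
        exact mul_le_mul h9 h8 (by positivity) (by positivity)
    _ ≤ _ := HY_ge hA (by linarith) hu

/-- the rank one number at the typical point -/
lemma rk_le {L : Law} (hA : Adm L) (hx0 : 0 < L.x) {b2 U T wn t u : ℝ} {m : ℕ}
    (hP : NeP L b2 U T wn m t u) (hwn : 0 < wn) :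
    L.rk (Sn L.n m) t u ≤ 12 * U / (L.x ^ 2 * wn * L.n) := by
  have hn0 : (0 : ℝ) < L.n := by exact_mod_cast hA.n0
  have h3 := hP.rk
  rw [le_div_iff₀ (by positivity)]
  have h4 : L.x ^ 2 * (wn / 2) * (L.n ^ 2 * L.rk (Sn L.n m) t u) =
      L.n / 2 * (L.rk (Sn L.n m) t u * (L.x ^ 2 * wn * L.n)) := by ring
  rw [h4] at h3
  have h5 : L.n / 2 * (L.rk (Sn L.n m) t u * (L.x ^ 2 * wn * L.n)) ≤
      L.n / 2 * (12 * U) := by linarith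
  exact le_of_mul_le_mul_left h5 (by positivity)

/-- the inequality of the near end at the typical point -/
lemma ne_typ {L : Law} {b2 : ℝ} (hb2 : 0 < b2) (hA : Adm L) (hη1 : L.η ≤ 1 / 2) (hs : L.s ≠ 0)
    (hx0 : 0 < L.x) (hx1 : L.x < 1) {r0 : ℝ} (hc : L.c = L.s ^ 2 * L.n * (1 - (1 - L.x) * r0))
    (hk : 0 < 1 - (1 - L.x) * r0) (hxb : 8 * (L.x ^ 2 * L.b ^ 2) ≤ 1)
    (hxb0 : L.x * √b2 ≤ 1 / 4) (hbb : L.b ^ 2 + L.vp ≤ b2) {T wn U t u : ℝ} {m : ℕ}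
    (hP : NeP L b2 U T wn m t u) (hU0 : 0 < U) (hU1 : U ≤ 1) (hT0 : 0 < T) (hT1 : T ≤ 1)
    (hwn : 0 < wn) (hwU : u * L.vp / L.b ^ 2 ≤ U) {i0 : Fin L.n} (hi0 : i0.1 + m = L.n) {A' : ℝ}
    (hA'0 : 0 ≤ A')
    (hA'le : A' ≤ HY L m t u - 11 * (5 * L.b ^ 4 * U ^ 2) * √(32 / cK b2 * (1 / √(m : ℝ) +
      (1 / √(L.n * (wn / 2)) + L.η * |L.s| / √(wn / 2))))) :
    cK b2 ^ 2 / 4 * (A' * √A') ≤
      160 * ((L.n / (L.n - m) - (L.b * (1 - (1 - L.x) * r0)) ^ 2 * t) *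
          L.ex' t u (L.Q (Sn L.n m) t u) -
        (L.b * (1 - (1 - L.x) * r0)) ^ 2 * (u * L.vp / L.b ^ 2) +
        27 * (L.n * U) / m / (L.n - m) +
        L.x * L.b * (L.b * (1 - (1 - L.x) * r0)) ^ 3 * (HY L m t u / L.b ^ 4) +
        E1c L.b L.x (1 - (1 - L.x) * r0) L.η U (u * L.vp / L.b ^ 2)
          (5 / √m + 2 * |L.lam / ((1 - L.x) * (L.s ^ 2 * L.n))| +
            3 * ((|r0| + 1) * √(PstL L t u)) / √U) (12 * U / (L.x ^ 2 * wn * L.n))) +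
      784 * 155446 * ((3 / 2 * (L.b ^ 2 * t * √(12 * U / (L.x ^ 2 * wn * L.n))) + 4 * L.η ^ 2 *
        √(HY L m t u)) * (5 * L.b ^ 4 * U ^ 2)) +
      (44 * (48 * L.η + 28 * L.x) ^ 2 +
        1696 * ((1 - (1 - L.x) * r0) ^ 2 * (L.x * (48 * √b2 ^ 2 + 6)) ^ 2)) *
        (√(HY L m t u) * (5 * L.b ^ 4 * U ^ 2)) := by
  have hb := hA.b0
  have hvp := hA.vp0
  have ht12 : 1 / 2 ≤ t := by have := hP.t0; linarith
  have ht1 : t ≤ 1 := by have := hP.t1; linarith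
  have hu1 := hP.u1.le
  have hu0 := hP.u0
  have e3 : L.b ^ 2 * (u * L.vp / L.b ^ 2) = u * L.vp := by field_simp
  have e4H : L.ex' t u (fun z => (t * L.Q (Sn L.n m) t u z + u * L.vp / L.b ^ 2) ^ 2) =
      HY L m t u / L.b ^ 4 := by
    unfold HY
    rw [mul_div_cancel_left₀ _ (pow_pos hb 4).ne']
  have key := ne_sk (L := L) hA hη1 hs hx1 hc hk hP.m1 hP.mn (by linarith : 0 ≤ t) ht1 hu0 hi0
    (b0 := √b2) (Real.sqrt_nonneg _) hxb0 (by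
      rw [Real.sq_sqrt hb2.le]
      have e1 : L.b ^ 2 * t ≤ L.b ^ 2 * 1 := mul_le_mul_of_nonneg_left ht1 (by positivity)
      have e2 : u * L.vp ≤ 1 * L.vp := mul_le_mul_of_nonneg_right hu1 hvp.le
      linarith) (c0 := cK b2)
    (pb := 32 / cK b2 * (1 / √(m : ℝ) +
      (1 / √(L.n * (wn / 2)) + L.η * |L.s| / √(wn / 2)))) (G := 5 * L.b ^ 4 * U ^ 2)
    (rk := 12 * U / (L.x ^ 2 * wn * L.n)) (g4 := (3 * U ^ 2) ^ 2) (A := A') (U := U)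
    (θ := 5 / √m + 2 * |L.lam / ((1 - L.x) * (L.s ^ 2 * L.n))| +
      3 * ((|r0| + 1) * √(PstL L t u)) / √U) (I := 27 * (L.n * U) / m) (cK_pos hb2).le
    (hP.k3 i0 hi0) (by positivity) (hP.q4 _) (by
      have e1 : (L.b ^ 2 * t) ^ 4 ≤ (L.b ^ 2) ^ 4 :=
        pow_le_pow_left₀ (by positivity) (mul_le_of_le_one_right (by positivity) ht1) 4
      have e2 : (u * L.vp) ^ 4 ≤ (L.b ^ 2 * U) ^ 4 := by
        refine pow_le_pow_left₀ (by positivity) ?_ 4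
        have e5 := mul_le_mul_of_nonneg_left hwU (show 0 ≤ L.b ^ 2 by positivity)
        rwa [e3] at e5
      have e5 := mul_le_mul_of_nonneg_right e1 (show 0 ≤ (3 * U ^ 2) ^ 2 by positivity)
      have e6 : 0 ≤ L.b ^ 8 * U ^ 4 := by positivity
      have e7 : (L.b ^ 2) ^ 4 * (3 * U ^ 2) ^ 2 = 9 * (L.b ^ 8 * U ^ 4) := by ring
      have e8 : (L.b ^ 2 * U) ^ 4 = L.b ^ 8 * U ^ 4 := by ring
      have e9 : (5 * L.b ^ 4 * U ^ 2) ^ 2 = 25 * (L.b ^ 8 * U ^ 4) := by ring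
      rw [e7] at e5
      rw [e8] at e2
      rw [e9]
      linarith) hwU hU0 hU1 hxb (hP.cc1 _) (hP.cc2 _) (rk_le hA hx0 hP hwn) le_rfl
    (hP.inc i0 hi0) hA'0 hA'le
  rw [e4H] at key
  have e5 : L.b ^ 4 * (HY L m t u / L.b ^ 4) = HY L m t u :=
    mul_div_cancel₀ _ (pow_pos hb 4).ne'
  rw [e5] at key
  exact key

/-- **One typical point of the near end.** -/
theorem ne_bad {b b2 : ℝ} (hb : 0 < b) (hb2 : 0 < b2) : ∃ ε : ℝ, 0 < ε ∧ ε ≤ 1 ∧ ∀ (L : Law),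
    L.b = b → Adm L → L.η ≤ 1 / 2 → L.s ≠ 0 → 0 < L.x → L.x < 1 →
    ∀ r0 : ℝ, L.c = L.s ^ 2 * L.n * (1 - (1 - L.x) * r0) → 0 < 1 - (1 - L.x) * r0 →
    b * (1 - (1 - L.x) * r0) ≤ 2 → 8 * (L.x ^ 2 * L.b ^ 2) ≤ 1 → L.x * √b2 ≤ 1 / 4 →
    L.b ^ 2 + L.vp ≤ b2 →
    ∀ (T wn U t u : ℝ) (m : ℕ), NeP L b2 U T wn m t u → 0 < U → U ≤ 1 → 0 < T → T ≤ 1 →
    0 < wn → 2 * m ≤ L.n → L.vp / L.b ^ 2 ≤ U →
    ∀ h0 κ : ℝ, 0 < h0 → 1 ≤ κ → U ^ 2 ≤ κ * h0 → 1 / L.n ≤ h0 →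
    κ * (5 / √m + 2 * |L.lam / ((1 - L.x) * (L.s ^ 2 * L.n))| +
      3 * ((|r0| + 1) * √(PstL L t u)) / √U) ≤ ε * h0 →
    κ ^ 2 * (12 * U / (L.x ^ 2 * wn * L.n)) ≤ ε ^ 2 * h0 →
    κ ^ 2 * (32 / cK b2 * (1 / √(m : ℝ) + (1 / √(L.n * (wn / 2)) +
      L.η * |L.s| / √(wn / 2)))) ≤ ε →
    L.η * κ ≤ ε → L.x ≤ ε * √h0 → L.x * κ ≤ ε → T ≤ ε * h0 → m / L.n ≤ ε * h0 →
    1 - (b * (1 - (1 - L.x) * r0)) ^ 2 ≤ ε * h0 →
    L.vp / L.b ^ 2 ≤ ε * (h0 * √h0) → 54 * U / m ≤ ε * (h0 * √h0) →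
    L.rr (Sn L.n m) t u ≤ (22 / b ^ 4 + 4) * h0 := by
  have hc0 : 0 < cK b2 := cK_pos hb2
  obtain ⟨ε0, hε0, hε01, hR⟩ := H281.Ne.neR_false hb hc0 (√b2)
  refine ⟨min ε0 (1 / 20), lt_min hε0 (by norm_num), (min_le_left _ _).trans hε01, ?_⟩
  intro L hLb hA hη1 hs hx0 hx1 r0 hc hk hA2 hxb hxb0 hbb T wn U t u m hP hU0 hU1 hT0 hT1 hwn
    hm2 hvU h0 κ hh0 hκ hUk _ hκθ hrk hpb hηκ hx hxκ hT hmn hA1 hwf hinc
  obtain ⟨ε, hεd⟩ : ∃ ε, ε = min ε0 (1 / 20) := ⟨_, rfl⟩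
  rw [← hεd] at hκθ hrk hpb hηκ hx hxκ hT hmn hA1 hwf hinc
  have hε : 0 < ε := by rw [hεd]; exact lt_min hε0 (by norm_num)
  have hεε : ε ≤ ε0 := by rw [hεd]; exact min_le_left _ _
  have hε20 : ε ≤ 1 / 20 := by rw [hεd]; exact min_le_right _ _
  clear hεd
  have hl := hA.lam0
  have hη := hA.η0
  have hvp := hA.vp0
  have hn0 : (0 : ℝ) < L.n := by exact_mod_cast hA.n0
  have hw := wtL (L := L) hl hη t u
  have hm0 : 1 ≤ m := hP.m1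
  have hm : m < L.n := hP.mn
  have hmR : (0 : ℝ) < m := by exact_mod_cast (show 0 < m by omega)
  have hm2R : (m : ℝ) ≤ L.n / 2 := by
    have : (2 * m : ℝ) ≤ L.n := by exact_mod_cast hm2
    linarith
  have ht12 : 1 / 2 ≤ t := by have := hP.t0; linarith
  have ht1 : t ≤ 1 := by have := hP.t1; linarith
  have ht0 : 0 ≤ t := by linarith
  have hu0 := hP.u0
  have hu1 := hP.u1.le
  obtain ⟨i0, hi0⟩ : ∃ i0 : Fin L.n, i0.1 + m = L.n := ⟨⟨L.n - m, by omega⟩, by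
    show L.n - m + m = L.n
    omega⟩
  obtain ⟨kp, hkp⟩ : ∃ kp, kp = 1 - (1 - L.x) * r0 := ⟨_, rfl⟩
  have hwf0 : 0 ≤ u * L.vp / L.b ^ 2 := by positivity
  have hwfle : u * L.vp / L.b ^ 2 ≤ L.vp / L.b ^ 2 :=
    div_le_div_of_nonneg_right (mul_le_of_le_one_left hvp.le hu1) (by positivity)
  have hwU : u * L.vp / L.b ^ 2 ≤ U := hwfle.trans hvU
  by_contra hcon
  push Not at hcon
  have hrk0 : 0 ≤ 12 * U / (L.x ^ 2 * wn * L.n) := by positivity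
  have hH := HY_low hA hη1 (m := m) (t := t) (u := u) ht12 hu0 hh0 hκ (hP.cc1 _) hUk hε hε20 hηκ
    (rk_le hA hx0 hP hwn) hrk hrk0 (by rw [hLb]; exact hcon)
  have hq1 := HY_q1 hA (m := m) ht0 hu0
  have key := fun (A' : ℝ) (hA'0 : 0 ≤ A') hA'le =>
    ne_typ hb2 hA hη1 hs hx0 hx1 hc hk hxb hxb0 hbb hP hU0 hU1 hT0 hT1 hwn hwU hi0
    (A' := A') hA'0 hA'le
  rw [← hkp] at hk hA2 hA1 key
  rw [hLb] at key hwfle hq1
  obtain ⟨H, hHd⟩ : ∃ H, H = HY L m t u := ⟨_, rfl⟩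
  rw [← hHd] at hH hq1
  simp only [← hHd] at key
  have hH0 : 0 < H := hh0.trans_le hH
  have hsH : √h0 ≤ √H := Real.sqrt_le_sqrt hH
  have hhsH : h0 * √h0 ≤ H * √H := mul_le_mul hH hsH (Real.sqrt_nonneg _) hH0.le
  have m1 : ∀ {X : ℝ}, X ≤ ε * h0 → X ≤ ε0 * H := fun hX =>
    hX.trans (mul_le_mul hεε hH hh0.le hε0.le)
  have m3 : ∀ {X : ℝ}, X ≤ ε * (h0 * √h0) → X ≤ ε0 * (H * √H) := fun hX =>
    hX.trans (mul_le_mul hεε hhsH (by positivity) hε0.le)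
  have hκ0 : 0 < κ := by linarith
  have hQ1 : 0 ≤ L.ex' t u (L.Q (Sn L.n m) t u) := H615.ex_nonneg hw (Qn L (Sn L.n m) t u)
  have hθ0 : 0 ≤ 5 / √(m : ℝ) + 2 * |L.lam / ((1 - L.x) * (L.s ^ 2 * L.n))| +
      3 * ((|r0| + 1) * √(PstL L t u)) / √U := by positivity
  have hrk2 : κ ^ 2 * (12 * U / (L.x ^ 2 * wn * L.n)) ≤ ε0 ^ 2 * H :=
    hrk.trans (mul_le_mul (pow_le_pow_left₀ hε.le hεε 2) hH hh0.le (by positivity))
  have hx2 : L.x ≤ ε0 * √H := hx.trans (mul_le_mul hεε hsH (Real.sqrt_nonneg _) hε0.le)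
  have hlin : L.n / (L.n - m) - (b * kp) ^ 2 * t ≤ 8 * ε0 * H := by
    have h3 := H281.Ne.lin_le (n := L.n) (m := m) (A := b * kp) (t := t) (e := ε * h0) hn0
      hmR.le hm2R hmn hA1 (by have := hP.t0; linarith) (by positivity) hA2
    have h4 : ε * h0 ≤ ε0 * H := mul_le_mul hεε hH hh0.le hε0.le
    have h5 : 0 ≤ ε0 * H := by positivity
    linarith
  have hinc2 : 27 * (L.n * U) / m / (L.n - m) ≤ ε0 * (H * √H) := by
    refine m3 (le_trans ?_ hinc)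
    have h3 : (L.n : ℝ) / 2 ≤ L.n - m := by linarith
    have h4 : 0 ≤ 27 * (L.n * U) / m := by positivity
    calc 27 * (L.n * U) / m / (L.n - m) ≤ 27 * (L.n * U) / m / (L.n / 2) :=
          div_le_div_of_nonneg_left h4 (by positivity) h3
      _ = 54 * U / m := by field_simp; ring
  have hwf2 : u * L.vp / L.b ^ 2 ≤ ε0 * (H * √H) := by
    rw [hLb]
    exact m3 (hwfle.trans (by rw [← hLb]; exact hwf))
  have hC3 : (L.n / (L.n - m) - (b * kp) ^ 2 * t) * L.ex' t u (L.Q (Sn L.n m) t u) -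
        (b * kp) ^ 2 * (u * L.vp / b ^ 2) + 27 * (L.n * U) / m / (L.n - m) +
        L.x * b * (b * kp) ^ 3 * (H / b ^ 4) +
        E1c b L.x kp L.η U (u * L.vp / b ^ 2) (5 / √(m : ℝ) +
          2 * |L.lam / ((1 - L.x) * (L.s ^ 2 * L.n))| +
          3 * ((|r0| + 1) * √(PstL L t u)) / √U) (12 * U / (L.x ^ 2 * wn * L.n)) ≤
      (L.n / (L.n - m) - (b * kp) ^ 2 * t) * L.ex' t u (L.Q (Sn L.n m) t u) +
        27 * (L.n * U) / m / (L.n - m) + L.x * b * (b * kp) ^ 3 * (H / b ^ 4) +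
        E1c b L.x kp L.η U (u * L.vp / b ^ 2) (5 / √(m : ℝ) +
          2 * |L.lam / ((1 - L.x) * (L.s ^ 2 * L.n))| +
          3 * ((|r0| + 1) * √(PstL L t u)) / √U) (12 * U / (L.x ^ 2 * wn * L.n)) := by
    have h3 : 0 ≤ (b * kp) ^ 2 * (u * L.vp / b ^ 2) := by positivity
    linarith
  rw [hLb] at hwf2 hwf0
  exact hR H κ U _ _ _ L.η L.x t (b * kp) kp (u * L.vp / b ^ 2) _ _ _ _ hH0 hκ hU0.le hU1
    (hUk.trans (mul_le_mul_of_nonneg_left hH hκ0.le)) hθ0 (m1 hκθ) hrk2 (hpb.trans hεε) hη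
    (hηκ.trans hεε) hx0.le hx2 (hxκ.trans hεε) ht12 ht1 rfl (by positivity) hA2 hwf0
    hwf2 hQ1 hq1 hlin hinc2 hC3 key

end Vale.Agent.P146.H586
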