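import Vale.Agent.P146.H586.NeN
import Vale.Agent.P146.H355.K3Can
import Vale.Agent.P146.H615.ErSk

set_option linter.all false

/-!
The near end on the names of `H418.Skel`: `S = Sn n m`, two levels of shares `t`, `u`.
-/

open MeasureTheory ProbabilityTheory Filter Topology

namespace Vale.Agent.P146.H586

open Vale.Agent.P157.Lv hiding Dep
open Vale.Agent.P146.H425 Vale.Agent.P146.H646 Vale.Agent.P146.H615
open Vale.Agent.P146.H325 hiding cb cf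
open Vale.Agent.P146.H196 Vale.Agent.P146.H347 Vale.Agent.P146.H475 Vale.Agent.P146.H418
  Vale.Agent.P146.H412 Vale.Agent.P146.H320 Vale.Agent.P146.H463 Vale.Agent.P146.H355

/-- the overlap in the two notations -/
lemma Qv_Q (L : Law) (S : Finset (Fin L.n)) (t u : ℝ) :
    Qv L.n L.b (H418.cb t) (H418.cf L.vp u) L.s L.η L.lam L.c L.x S {true} {true} =
      L.Q S t u := rfl

/-- **The near end, one frozen set, on the names of Skel.** -/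
theorem ne_sk {L : Law} (hA : Adm L) (hη1 : L.η ≤ 1 / 2) (hs : L.s ≠ 0) (hx1 : L.x < 1) {r0 : ℝ}
    (hc : L.c = L.s ^ 2 * L.n * (1 - (1 - L.x) * r0)) (hk : 0 < 1 - (1 - L.x) * r0) {m : ℕ}
    (hm0 : 1 ≤ m) (hm : m < L.n) {t u : ℝ} (ht : 0 ≤ t) (ht1 : t ≤ 1) (hu : 0 ≤ u)
    {i0 : Fin L.n} (hi : i0.1 + m = L.n) {b0 : ℝ} (hb0 : 0 ≤ b0) (hxb0 : L.x * b0 ≤ 1 / 4)
    (hbb : L.b ^ 2 * t + u * L.vp ≤ b0 ^ 2) {c0 pb G rk g4 A U θ I : ℝ} (hc0 : 0 ≤ c0)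
    (hpb : L.ex' t u (fun z => if -c0 / 2 < kapL L (Sn L.n m) t u i0 z then 1 else 0) ≤ pb)
    (hG0 : 0 ≤ G)
    (hQ4 : L.ex' t u (Q4g (muA (Xs L.n) L.lam L.η L.c) (Sm L.b (H418.cb t) (H418.cf L.vp u) L.s
      L.η) L.x (Kt L.n (Sn L.n m)) (fun (j : Fin L.n) w => sp w.2 j) (Sn L.n m)) ≤
        L.n ^ 4 * g4)
    (hG4 : 2 * (L.b ^ 2 * t) ^ 4 * g4 + 2 * (u * L.vp) ^ 4 ≤ G ^ 2)
    (hwU : u * L.vp / L.b ^ 2 ≤ U) (hU0 : 0 < U) (hU1 : U ≤ 1)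
    (hxb : 8 * (L.x ^ 2 * L.b ^ 2) ≤ 1)
    (hUu : L.ex' t u (CC L Finset.univ t u) ≤ U ^ 2)
    (hUS : L.ex' t u (fun z => CC L (Sn L.n m) t u z ^ 2) ≤ U ^ 4)
    (hrk : L.rk (Sn L.n m) t u ≤ rk)
    (hθ : 5 / √m + 2 * |L.lam / ((1 - L.x) * (L.s ^ 2 * L.n))| +
      3 * ((|r0| + 1) * √(PstL L t u)) / √U ≤ θ)
    (hI : incL L (H418.cb t) (H418.cf L.vp u) (Sn L.n m) (Kset (Sn L.n m) {true} {true})
      (Kset (insert i0 (Sn L.n m)) {true} {true}) ≤ I)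
    (hA0 : 0 ≤ A)
    (hAle : A ≤ L.b ^ 4 * L.ex' t u (fun z => (t * L.Q (Sn L.n m) t u z +
      u * L.vp / L.b ^ 2) ^ 2) - 11 * G * √pb) :
    c0 ^ 2 / 4 * (A * √A) ≤
      160 * ((L.n / (L.n - m) - (L.b * (1 - (1 - L.x) * r0)) ^ 2 * t) *
          L.ex' t u (L.Q (Sn L.n m) t u) -
        (L.b * (1 - (1 - L.x) * r0)) ^ 2 * (u * L.vp / L.b ^ 2) + I / (L.n - m) +
        L.x * L.b * (L.b * (1 - (1 - L.x) * r0)) ^ 3 *
          L.ex' t u (fun z => (t * L.Q (Sn L.n m) t u z + u * L.vp / L.b ^ 2) ^ 2) +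
        E1c L.b L.x (1 - (1 - L.x) * r0) L.η U (u * L.vp / L.b ^ 2) θ rk) +
      784 * 155446 * ((3 / 2 * (L.b ^ 2 * t * √rk) + 4 * L.η ^ 2 *
        √(L.b ^ 4 * L.ex' t u (fun z => (t * L.Q (Sn L.n m) t u z +
          u * L.vp / L.b ^ 2) ^ 2))) * G) +
      (44 * (48 * L.η + 28 * L.x) ^ 2 +
        1696 * ((1 - (1 - L.x) * r0) ^ 2 * (L.x * (48 * b0 ^ 2 + 6)) ^ 2)) *
        (√(L.b ^ 4 * L.ex' t u (fun z => (t * L.Q (Sn L.n m) t u z +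
          u * L.vp / L.b ^ 2) ^ 2)) * G) := by
  have hb := hA.b0
  have hvp := hA.vp0
  have hi1 : i0 ∉ Sn L.n m := Sn_not_mem hi
  have hSne : (Sn L.n m).Nonempty := by
    refine ⟨⟨0, hA.n0⟩, ?_⟩
    simp only [Sn, Finset.mem_filter, Finset.mem_univ, true_and]
    omega
  have hne : (Finset.univ \ Sn L.n m).Nonempty := ⟨i0, by simp [hi1]⟩
  have hwf0 : 0 ≤ u * L.vp / L.b ^ 2 := by positivity
  have hbw : L.b ^ 2 * (u * L.vp / L.b ^ 2) = u * L.vp := by field_simp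
  have e1 := er1_sk hA hη1 hk.le hm.le ht ht1 hu hwU hU0 hU1 hUu hUS hrk hθ
  have e2 := e2n_sk hA hη1 hm.le ht ht1 hu hwU hU1 hxb hUu zero_le_one le_rfl hi hI
    (P := 1) (Lr := 0)
  have key := ne_co (b := L.b) (s := L.s) (η := L.η) (lam := L.lam) (c := L.c) (x := L.x)
    (r0 := r0) (cB := H418.cb t) (cF := H418.cf L.vp u) (BL := {true}) (FL := {true})
    hA.lam0 hA.η0 hη1 hs hA.x0 hx1 hA.n0 hc hk.le hk hSne (Finset.subset_univ _) hi1 hne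
    (cb_true ht) (cf_true hvp.le hu hb.ne') hwf0 hb0 hxb0
    (by rw [hbw]; exact hbb) hc0 (pb := pb) (G := G) (rk := rk) (g4 := g4) (A := A)
    hpb hG0 hQ4 (by rw [hbw]; exact hG4) (by rw [RKv_rk]; exact hrk) hA0 hAle
  have hC : C3n L.n L.b (H418.cb t) (H418.cf L.vp u) L.s L.η L.lam L.c L.x r0 t
      (u * L.vp / L.b ^ 2) (Sn L.n m) Finset.univ {true} {true} i0 ≤
      (L.n / (L.n - m) - (L.b * (1 - (1 - L.x) * r0)) ^ 2 * t) *
          L.ex' t u (L.Q (Sn L.n m) t u) -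
        (L.b * (1 - (1 - L.x) * r0)) ^ 2 * (u * L.vp / L.b ^ 2) + I / (L.n - m) +
        L.x * L.b * (L.b * (1 - (1 - L.x) * r0)) ^ 3 *
          L.ex' t u (fun z => (t * L.Q (Sn L.n m) t u z + u * L.vp / L.b ^ 2) ^ 2) +
        E1c L.b L.x (1 - (1 - L.x) * r0) L.η U (u * L.vp / L.b ^ 2) θ rk := by
    unfold C3n
    rw [card_vis hm.le, Qv_Q]
    have h3 : (1 : ℝ) * I / (L.n - m) + 918 * L.b ^ 2 * 0 * U * √(I + 9 / 4 * U) / √L.n =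
        I / (L.n - m) := by
      rw [mul_zero, zero_mul, zero_mul, zero_div, add_zero, one_mul]
    rw [h3] at e2
    have h4 : exS L.n L.b (H418.cb t) (H418.cf L.vp u) L.s L.η L.lam L.c L.x
        (L.Q (Sn L.n m) t u) = L.ex' t u (L.Q (Sn L.n m) t u) := rfl
    have h5 : exS L.n L.b (H418.cb t) (H418.cf L.vp u) L.s L.η L.lam L.c L.x
        (fun z => (t * L.Q (Sn L.n m) t u z + u * L.vp / L.b ^ 2) ^ 2) =
        L.ex' t u (fun z => (t * L.Q (Sn L.n m) t u z + u * L.vp / L.b ^ 2) ^ 2) := rfl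
    rw [h4, h5]
    linarith
  have k2 := mul_le_mul_of_nonneg_left hC (by norm_num : (0 : ℝ) ≤ 160)
  rw [Qv_Q] at key
  have h5 : exS L.n L.b (H418.cb t) (H418.cf L.vp u) L.s L.η L.lam L.c L.x
      (fun z => (t * L.Q (Sn L.n m) t u z + u * L.vp / L.b ^ 2) ^ 2) =
      L.ex' t u (fun z => (t * L.Q (Sn L.n m) t u z + u * L.vp / L.b ^ 2) ^ 2) := rfl
  rw [h5] at key
  linarith

end Vale.Agent.P146.H586
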