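import Vale.Agent.P146.H586.S3Ka
import Vale.Agent.P146.H272.S3Slope
import Vale.Agent.P146.H516.S3BrC
import Vale.Agent.P146.H463.S3Reg2
import Vale.Agent.P146.H89.S3NeFin

set_option linter.all false

/-!
# P146, S3: `KaCS`, the upper bound of the relative entropy with a constant, no hypothesis left
-/

open MeasureTheory ProbabilityTheory Filter Topology Set

namespace Vale.Agent.P146.S3

open Vale.Agent.P146.H418 Vale.Agent.P146.H122 Vale.Agent.P146.H586.S3

/-- **The upper bound of the relative entropy with a constant**, eventually in the size and the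
unit. -/
theorem kaCS {b : ℝ} (hb : 1 < b) :
    ∃ C : ℝ, 0 ≤ C ∧ ∀ b₁ A : ℝ, 0 < b₁ → 1 ≤ A → KaCS b₁ A b C := by
  have hb0 : 0 < b := by linarith
  obtain ⟨Ca, hCa, hsl⟩ := slope_upQ hb0
  obtain ⟨C1, hC1, hbr⟩ := brCS hb hCa
  exact kaCS_of hb0 hCa hC1 (fun b₁ A h1 h2 => hsl le_rfl h1 h2)
    (fun b₁ A h1 h2 => hbr h1 h2) (fun b₁ A h1 h2 => rowFarCS Ca hb.le h2 h1)
    (fun b₁ A h1 h2 => neFinS hb0 h2 h1)

end Vale.Agent.P146.S3
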