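import Vale.Agent.P146.H161.RowI1

set_option linter.all false

/-!
The Bessel lower bound in the direction of a linear form of the row, part 1: the powers of the
linear form `V = lc R c`, tested with functions of exponential growth (general weight), and
Cauchy-Schwarz.
-/

open MeasureTheory ProbabilityTheory Filter Topology

namespace Vale.Agent.P146.H586

open Vale.Agent.P157.Lv Vale.Agent.P146.H196 Vale.Agent.P146.H646 Vale.Agent.P146.H161

variable {ι : Type} [Fintype ι] [DecidableEq ι]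

lemma pd_lc {R : Finset ι} (c : ι → ℝ) {e : ι} (he : e ∈ R) :
    PD e (lc R c) (fun _ => c e) := by
  have h1 : PD e (fun z => ∑ f ∈ R, c f * z f)
      (fun z => ∑ f ∈ R, (c f * if f = e then 1 else 0)) :=
    PD.sum R fun f hf => (PD.coord f).const_mul (c f)
  refine h1.congr fun y => ?_
  simp only [mul_ite, mul_one, mul_zero]
  rw [Finset.sum_ite_eq' R e fun f => c f, if_pos he]

lemma pd_lc_pow {R : Finset ι} (c : ι → ℝ) {e : ι} (he : e ∈ R) (j : ℕ) :
    PD e (fun y => lc R c y ^ j) (fun y => (j : ℝ) * lc R c y ^ (j - 1) * c e) :=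
  (pd_lc c he).comp (g := fun t => t ^ j) (g' := fun t => (j : ℝ) * t ^ (j - 1))
    (fun x => hasDerivAt_pow j x)

section gen

variable {K R : Finset ι} {w Φ : (ι → ℝ) → ℝ} {L Φ1 : ι → (ι → ℝ) → ℝ}

lemma wn_pos_eg (ew : EG w) (hw0 : ∀ z, 0 < w z) (K : Finset ι) (z : ι → ℝ) :
    0 < wn (gg ι) K w z := (wt_of_eg ew hw0).wn_pos K z

/-- **one step**: `E[Φ V^(j+1)] = E[(∂Φ) V^j] + j |c|² E[Φ V^(j-1)]`. -/
theorem mom_gen (hKR : Disjoint K R) (c : ι → ℝ)
    (hw0 : ∀ z, 0 < w z) (hw : ∀ e ∈ R, PD e w fun z => w z * L e z) (ew : EG w)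
    (eL : ∀ e ∈ R, EG (L e)) (hΦ : ∀ e ∈ R, PD e Φ (Φ1 e)) (eΦ : EG Φ)
    (eΦ1 : ∀ e ∈ R, EG (Φ1 e)) (j : ℕ) (z : ι → ℝ) :
    cx (gg ι) K w (fun y => Φ y * lc R c y ^ (j + 1)) z
      = cx (gg ι) K w (fun y => (∑ e ∈ R, c e * (Φ1 e y + Φ y * L e y)) * lc R c y ^ j) z
        + j * (∑ e ∈ R, c e ^ 2) * cx (gg ι) K w (fun y => Φ y * lc R c y ^ (j - 1)) z := by
  have hN : ∀ e ∈ R, e ∉ K := fun e he => Finset.disjoint_right.1 hKR he
  have ewz : EG fun y => w (glue K z y) := eg_glue ew K z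
  have eΦz : EG fun y => Φ (glue K z y) := eg_glue eΦ K z
  have h1 := ibp1' (R := R) (G := fun y => w (glue K z y))
    (φ := fun y => Φ (glue K z y) * lc R c y ^ j)
    (φ1 := fun e y => Φ1 e (glue K z y) * lc R c y ^ j
      + Φ (glue K z y) * ((j : ℝ) * lc R c y ^ (j - 1) * c e))
    (L := fun e y => L e (glue K z y)) (u := fun e _ => c e)
    (fun e _ e' _ y r => rfl) (fun e _ => EG.const _)
    (fun e he => pd_glue (hN e he) (hw e he) z) ewz (fun e he => eg_glue (eL e he) K z)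
    (fun e he => (pd_glue (hN e he) (hΦ e he) z).mul (pd_lc_pow c he j))
    (eΦz.mul ((eg_lc R c).pow j))
    (fun e he => ((eg_glue (eΦ1 e he) K z).mul ((eg_lc R c).pow j)).add
      (eΦz.mul ((((eg_lc R c).pow (j - 1)).const_mul (j : ℝ)).mul (EG.const (c e)))))
  rw [cx_num, cx_num, cx_num]
  have e1 : ∀ y, Φ (glue K z y) * lc R c (glue K z y) ^ (j + 1) * w (glue K z y)
      = Φ (glue K z y) * lc R c y ^ j * lin R (fun e _ => c e) y * w (glue K z y) := by
    intro y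
    rw [lc_glue hKR, pow_succ]
    have : lin R (fun e _ => c e) y = lc R c y := rfl
    rw [this]; ring
  have e2 : ∀ y, resp R (fun e _ => c e) (fun e y => L e (glue K z y))
      (fun e y => Φ1 e (glue K z y) * lc R c y ^ j
        + Φ (glue K z y) * ((j : ℝ) * lc R c y ^ (j - 1) * c e))
      (fun y => Φ (glue K z y) * lc R c y ^ j) y * w (glue K z y)
      = (∑ e ∈ R, c e * (Φ1 e (glue K z y) + Φ (glue K z y) * L e (glue K z y)))
          * lc R c (glue K z y) ^ j * w (glue K z y)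
        + (j * (∑ e ∈ R, c e ^ 2)) * (Φ (glue K z y) * lc R c (glue K z y) ^ (j - 1)
          * w (glue K z y)) := by
    intro y
    rw [lc_glue hKR]
    unfold resp
    have : (∑ e ∈ R, c e * (Φ1 e (glue K z y) * lc R c y ^ j
        + Φ (glue K z y) * ((j : ℝ) * lc R c y ^ (j - 1) * c e)
        + Φ (glue K z y) * lc R c y ^ j * L e (glue K z y)))
        = (∑ e ∈ R, c e * (Φ1 e (glue K z y) + Φ (glue K z y) * L e (glue K z y)))
          * lc R c y ^ j
          + (∑ e ∈ R, c e ^ 2) * (Φ (glue K z y) * ((j : ℝ) * lc R c y ^ (j - 1))) := by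
      rw [Finset.sum_mul, Finset.sum_mul, ← Finset.sum_add_distrib]
      exact Finset.sum_congr rfl fun e _ => by ring
    rw [this]; ring
  simp only [e1, h1, e2]
  have i1 : Integrable (fun y => (∑ e ∈ R, c e * (Φ1 e (glue K z y)
      + Φ (glue K z y) * L e (glue K z y))) * lc R c (glue K z y) ^ j * w (glue K z y))
      (gI ι) := by
    have h2 : EG (fun y => (∑ e ∈ R, c e * (Φ1 e y + Φ y * L e y)) * lc R c y ^ j * w y) :=
      ((EG.sum R fun e he => ((eΦ1 e he).add (eΦ.mul (eL e he))).const_mul (c e)).mul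
        ((eg_lc R c).pow j)).mul ew
    exact (eg_glue h2 K z).integrable
  have i2 : Integrable (fun y => (j * (∑ e ∈ R, c e ^ 2)) * (Φ (glue K z y)
      * lc R c (glue K z y) ^ (j - 1) * w (glue K z y))) (gI ι) := by
    have h2 : EG (fun y => Φ y * lc R c y ^ (j - 1) * w y) :=
      (eΦ.mul ((eg_lc R c).pow (j - 1))).mul ew
    exact ((eg_glue h2 K z).const_mul _).integrable
  rw [integral_add i1 i2, integral_const_mul, add_div, mul_div_assoc]

/-- Cauchy-Schwarz for the conditional mean, functions of exponential growth. -/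
theorem cs_eg (ew : EG w) (hw0 : ∀ z, 0 < w z) {f g : (ι → ℝ) → ℝ} (hf : EG f) (hg : EG g)
    (z : ι → ℝ) : cx (gg ι) K w (fun y => f y * g y) z ^ 2
      ≤ cx (gg ι) K w (fun y => f y ^ 2) z * cx (gg ι) K w (fun y => g y ^ 2) z := by
  set A := cx (gg ι) K w (fun y => f y ^ 2) z with hA
  set B := cx (gg ι) K w (fun y => f y * g y) z with hB
  set D := cx (gg ι) K w (fun y => g y ^ 2) z with hD
  have nn : ∀ h : (ι → ℝ) → ℝ, (∀ y, 0 ≤ h y) → 0 ≤ cx (gg ι) K w h z := by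
    intro h hh
    unfold cx
    exact div_nonneg (integral_nonneg fun y => mul_nonneg (hw0 _).le (hh _))
      (wn_pos_eg ew hw0 K z).le
  have h1 : ∀ a b : ℝ, 0 ≤ a ^ 2 * A + 2 * (a * b) * B + b ^ 2 * D := by
    intro a b
    have h2 := nn (fun y => (a * f y + b * g y) ^ 2) fun y => sq_nonneg _
    have h3 : (fun y => (a * f y + b * g y) ^ 2)
        = fun y => a ^ 2 * f y ^ 2 + (2 * (a * b) * (f y * g y) + b ^ 2 * g y ^ 2) := by
      funext y; ring
    rw [h3, cx_add_eg ew ((hf.pow 2).const_mul _) (((hf.mul hg).const_mul _).add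
      ((hg.pow 2).const_mul _)), cx_add_eg ew ((hf.mul hg).const_mul _)
      ((hg.pow 2).const_mul _), cx_cmul, cx_cmul, cx_cmul] at h2
    linarith
  have hA0 : 0 ≤ A := nn _ fun y => sq_nonneg _
  have hD0 : 0 ≤ D := nn _ fun y => sq_nonneg _
  have h4 := h1 B (-A)
  have h5 := h1 D (-B)
  have h6 := h1 1 1
  have h7 := h1 1 (-1)
  by_cases h0 : A + D = 0
  · have hA' : A = 0 := by linarith
    have hD' : D = 0 := by linarith
    rw [hA', hD'] at h6 h7 ⊢
    have : B = 0 := by nlinarith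
    rw [this]; simp
  · have hpos : 0 < A + D := lt_of_le_of_ne (by linarith) (Ne.symm h0)
    nlinarith

/-- monotonicity, functions of exponential growth -/
lemma cx_mono_eg (ew : EG w) (hw0 : ∀ z, 0 < w z) {f g : (ι → ℝ) → ℝ} (hf : EG f) (hg : EG g)
    (h : ∀ y, f y ≤ g y) (z : ι → ℝ) : cx (gg ι) K w f z ≤ cx (gg ι) K w g z := by
  unfold cx
  refine div_le_div_of_nonneg_right ?_ (wn_pos_eg ew hw0 K z).le
  exact integral_mono (eg_glue (ew.mul hf) K z).integrable (eg_glue (ew.mul hg) K z).integrable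
    fun y => mul_le_mul_of_nonneg_left (h _) (hw0 _).le

lemma cx_nonneg_eg (ew : EG w) (hw0 : ∀ z, 0 < w z) {f : (ι → ℝ) → ℝ}
    (h : ∀ y, 0 ≤ f y) (z : ι → ℝ) : 0 ≤ cx (gg ι) K w f z := by
  unfold cx
  exact div_nonneg (integral_nonneg fun y => mul_nonneg (hw0 _).le (h _))
    (wn_pos_eg ew hw0 K z).le

lemma cx_one_eg (ew : EG w) (hw0 : ∀ z, 0 < w z) (z : ι → ℝ) :
    cx (gg ι) K w (fun _ => (1 : ℝ)) z = 1 := cx_one (wt_of_eg ew hw0) z

lemma abs_cx_le_eg (ew : EG w) (hw0 : ∀ z, 0 < w z) {f g : (ι → ℝ) → ℝ} (hf : EG f)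
    (hg : EG g) (h : ∀ y, |f y| ≤ g y) (z : ι → ℝ) : |cx (gg ι) K w f z| ≤ cx (gg ι) K w g z := by
  have h1 := cx_mono_eg (K := K) ew hw0 hf hg (fun y => (le_abs_self _).trans (h y)) z
  have h2 := cx_mono_eg (K := K) ew hw0 (hf.const_mul (-1)) hg
    (fun y => by have := neg_abs_le (f y); have := h y; linarith) z
  rw [cx_cmul] at h2
  exact abs_le.2 ⟨by linarith, h1⟩

/-- **The weight alone**: bounds of the moments of `V` for a weight with a small logarithmic
derivative in the direction `c`. -/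
theorem h3_sq_le (hKR : Disjoint K R) {c : ι → ℝ} (hc : ∑ e ∈ R, c e ^ 2 = 1)
    (hw0 : ∀ z, 0 < w z) (hw : ∀ e ∈ R, PD e w fun z => w z * L e z) (ew : EG w)
    (eL : ∀ e ∈ R, EG (L e)) (hl : ∀ y, |∑ e ∈ R, c e * L e y| ≤ 1 / 4) (z : ι → ℝ) :
    cx (gg ι) K w (fun y => (lc R c y ^ 3 - 3 * lc R c y) ^ 2) z ≤ 40 := by
  have eV : EG (lc R c) := eg_lc R c
  have key : ∀ j : ℕ, cx (gg ι) K w (fun y => lc R c y ^ (j + 1)) z
      = cx (gg ι) K w (fun y => (∑ e ∈ R, c e * L e y) * lc R c y ^ j) z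
        + j * cx (gg ι) K w (fun y => lc R c y ^ (j - 1)) z := by
    intro j
    have h1 := mom_gen (Φ := fun _ => (1 : ℝ)) (Φ1 := fun _ _ => 0) hKR c hw0 hw ew eL
      (fun e _ => PD.const 1) (EG.const 1) (fun e _ => EG.const 0) j z
    simp only [one_mul, zero_add, hc, mul_one] at h1
    exact h1
  have eg : EG fun y => ∑ e ∈ R, c e * L e y := EG.sum R fun e he => (eL e he).const_mul (c e)
  set M2 := cx (gg ι) K w (fun y => lc R c y ^ 2) z with hM2
  set M4 := cx (gg ι) K w (fun y => lc R c y ^ 4) z with hM4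
  set M6 := cx (gg ι) K w (fun y => lc R c y ^ 6) z with hM6
  have h0 : cx (gg ι) K w (fun y => lc R c y ^ 0) z = 1 := by
    simp only [pow_zero]
    exact cx_one_eg ew hw0 z
  have b1 : cx (gg ι) K w (fun y => (∑ e ∈ R, c e * L e y) * lc R c y ^ 1) z
      ≤ 1 / 8 * (1 + M2) := by
    have h1 := cx_mono_eg (K := K) ew hw0 (eg.mul (eV.pow 1))
      (((EG.const 1).add (eV.pow 2)).const_mul (1 / 8)) (fun y => by
        have h2 := hl y
        set a := ∑ e ∈ R, c e * L e y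
        set v := lc R c y
        have h3 : a * v ^ 1 ≤ |a| * |v| := by rw [pow_one, ← abs_mul]; exact le_abs_self _
        nlinarith [abs_nonneg a, abs_nonneg v, sq_nonneg (|v| - 1), sq_abs v]) z
    rw [cx_cmul, cx_add_eg ew (EG.const 1) (eV.pow 2), cx_one_eg ew hw0] at h1
    exact h1
  have b3 : cx (gg ι) K w (fun y => (∑ e ∈ R, c e * L e y) * lc R c y ^ 3) z
      ≤ 1 / 8 * (M2 + M4) := by
    have h1 := cx_mono_eg (K := K) ew hw0 (eg.mul (eV.pow 3))
      (((eV.pow 2).add (eV.pow 4)).const_mul (1 / 8)) (fun y => by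
        have h2 := hl y
        set a := ∑ e ∈ R, c e * L e y
        set v := lc R c y
        have h3 : a * v ^ 3 ≤ |a| * |v| ^ 3 := by
          rw [← abs_pow, ← abs_mul]; exact le_abs_self _
        have h4 : |v| ^ 2 = v ^ 2 := sq_abs v
        have h5 : |v| ^ 4 = v ^ 4 := by
          calc |v| ^ 4 = (|v| ^ 2) ^ 2 := by ring
            _ = (v ^ 2) ^ 2 := by rw [h4]
            _ = v ^ 4 := by ring
        have h6 : |a| * |v| ^ 3 ≤ 1 / 4 * |v| ^ 3 :=
          mul_le_mul_of_nonneg_right h2 (by positivity)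
        have h7 : |v| ^ 3 ≤ 1 / 2 * (|v| ^ 2 + |v| ^ 4) := by
          nlinarith [sq_nonneg (|v| * (|v| - 1)), abs_nonneg v]
        rw [← h4, ← h5]
        linarith) z
    rw [cx_cmul, cx_add_eg ew (eV.pow 2) (eV.pow 4)] at h1
    exact h1
  have b5 : cx (gg ι) K w (fun y => (∑ e ∈ R, c e * L e y) * lc R c y ^ 5) z
      ≤ 1 / 8 * (M4 + M6) := by
    have h1 := cx_mono_eg (K := K) ew hw0 (eg.mul (eV.pow 5))
      (((eV.pow 4).add (eV.pow 6)).const_mul (1 / 8)) (fun y => by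
        have h2 := hl y
        set a := ∑ e ∈ R, c e * L e y
        set v := lc R c y
        have h3 : a * v ^ 5 ≤ |a| * |v| ^ 5 := by
          rw [← abs_pow, ← abs_mul]; exact le_abs_self _
        have h4 : |v| ^ 2 = v ^ 2 := sq_abs v
        have h5 : |v| ^ 4 = v ^ 4 := by
          calc |v| ^ 4 = (|v| ^ 2) ^ 2 := by ring
            _ = (v ^ 2) ^ 2 := by rw [h4]
            _ = v ^ 4 := by ring
        have h5' : |v| ^ 6 = v ^ 6 := by
          calc |v| ^ 6 = (|v| ^ 2) ^ 3 := by ring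
            _ = (v ^ 2) ^ 3 := by rw [h4]
            _ = v ^ 6 := by ring
        have h6 : |a| * |v| ^ 5 ≤ 1 / 4 * |v| ^ 5 :=
          mul_le_mul_of_nonneg_right h2 (by positivity)
        have h7 : |v| ^ 5 ≤ 1 / 2 * (|v| ^ 4 + |v| ^ 6) := by
          nlinarith [sq_nonneg (|v| ^ 2 * (|v| - 1)), abs_nonneg v]
        rw [← h5, ← h5']
        linarith) z
    rw [cx_cmul, cx_add_eg ew (eV.pow 4) (eV.pow 6)] at h1
    exact h1
  have k1 : M2 = cx (gg ι) K w (fun y => (∑ e ∈ R, c e * L e y) * lc R c y ^ 1) z + 1 := by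
    have h1 := key 1
    simp only [Nat.cast_one, one_mul] at h1
    have h2 : (1 : ℕ) - 1 = 0 := rfl
    rw [h2, h0] at h1
    exact h1
  have k3 : M4 = cx (gg ι) K w (fun y => (∑ e ∈ R, c e * L e y) * lc R c y ^ 3) z
      + 3 * M2 := by
    have h1 := key 3
    have h2 : (3 : ℕ) - 1 = 2 := rfl
    rw [h2] at h1
    have h3 : ((3 : ℕ) : ℝ) = 3 := by norm_num
    rw [h3] at h1
    exact h1
  have k5 : M6 = cx (gg ι) K w (fun y => (∑ e ∈ R, c e * L e y) * lc R c y ^ 5) z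
      + 5 * M4 := by
    have h1 := key 5
    have h2 : (5 : ℕ) - 1 = 4 := rfl
    rw [h2] at h1
    have h3 : ((5 : ℕ) : ℝ) = 5 := by norm_num
    rw [h3] at h1
    exact h1
  have p2 : 0 ≤ M2 := cx_nonneg_eg ew hw0 (fun y => sq_nonneg _) z
  have p4 : 0 ≤ M4 := cx_nonneg_eg ew hw0 (fun y => by positivity) z
  have fin : cx (gg ι) K w (fun y => (lc R c y ^ 3 - 3 * lc R c y) ^ 2) z
      ≤ M6 + 9 * M2 := by
    have h1 := cx_mono_eg (K := K) ew hw0 (((eV.pow 3).sub (eV.const_mul 3)).pow 2)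
      ((eV.pow 6).add ((eV.pow 2).const_mul 9)) (fun y => by
        have h4 : 0 ≤ lc R c y ^ 4 := by positivity
        nlinarith) z
    rw [cx_add_eg ew (eV.pow 6) ((eV.pow 2).const_mul 9), cx_cmul] at h1
    exact h1
  linarith

end gen

end Vale.Agent.P146.H586
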