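import Vale.Agent.P146.H586.Bes1

set_option linter.all false

/-!
The Bessel lower bound, part 2: the Gibbs weight `Z^x`. Derivatives of `Z^x ⟨h⟩` in the direction
`c` of the row are averages over replicas; the third Hermite polynomial of `V = lc R c`.
-/

open MeasureTheory ProbabilityTheory Filter Topology

namespace Vale.Agent.P146.H586

open Vale.Agent.P157.Lv Vale.Agent.P146.H196 Vale.Agent.P146.H646 Vale.Agent.P146.H161

variable {ι : Type} [Fintype ι] [DecidableEq ι] {Ω : Type} [MeasurableSpace Ω]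
  {A : Type} [Fintype A] {m : Measure Ω} {k x : ℝ} {S : ι → Ω → ℝ} {M0 : ℝ} {K K' R : Finset ι}

/-- the function of the replicas in the derivative in a direction with the energy `Y` -/
def dV (x : ℝ) (Y : Ω → ℝ) (h : (A → Ω) → ℝ) (w : Option A → Ω) : ℝ :=
  h (fun a => w (some a)) * ((∑ a, Y (w (some a))) + (x - Fintype.card A) * Y (w none))

lemma bm_dV (x : ℝ) {Y : Ω → ℝ} (hY : Bm Y) {h : (A → Ω) → ℝ} (hh : Bm h) :
    Bm (dV x Y h) := by
  unfold dV
  exact (hh.marg some).mul ((Bm.sum _ fun a _ => hY.at (some a)).add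
    ((hY.at none).const_mul _))

lemma dV_sum (x : ℝ) (c : ι → ℝ) (h : (A → Ω) → ℝ) (w : Option A → Ω) :
    dV x (YS R c S) h w = ∑ e ∈ R, c e * dR S x e h w := by
  unfold dV dR YS
  have h1 : (∑ a, ∑ e ∈ R, c e * S e (w (some a))) = ∑ e ∈ R, c e * ∑ a, S e (w (some a)) := by
    rw [Finset.sum_comm]
    exact Finset.sum_congr rfl fun e _ => by rw [Finset.mul_sum]
  rw [h1, Finset.mul_sum, ← Finset.sum_add_distrib, Finset.mul_sum]
  exact Finset.sum_congr rfl fun e _ => by ring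

lemma avR_dV (hG : GM m S M0) (k x : ℝ) (c : ι → ℝ) {h : (A → Ω) → ℝ} (hh : Bm h) (u : ι → ℝ) :
    avR m k S (Option A) (dV x (YS R c S) h) u
      = ∑ e ∈ R, c e * avR m k S (Option A) (dR S x e h) u := by
  have e1 : dV x (YS R c S) h = fun w => ∑ e ∈ R, c e * dR S x e h w := by
    funext w; exact dV_sum x c h w
  rw [e1]
  unfold avR
  rw [(hG.pi (Option A)).av_sum k R fun e _ => ((hG.bdR x e hh).const_mul (c e))]
  exact Finset.sum_congr rfl fun e _ => av_mul _ _ _ _ _ _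

/-- **one step for the Gibbs weight** -/
theorem mom_avR (hG : GM m S M0) (k x : ℝ) (hKR : Disjoint K R) (c : ι → ℝ)
    {h : (A → Ω) → ℝ} (hh : Bm h) (j : ℕ) (z : ι → ℝ) :
    cx (gg ι) K (Zxm m k S x) (fun y => avR m k S A h y * lc R c y ^ (j + 1)) z
      = k * cx (gg ι) K (Zxm m k S x)
          (fun y => avR m k S (Option A) (dV x (YS R c S) h) y * lc R c y ^ j) z
        + j * (∑ e ∈ R, c e ^ 2)
          * cx (gg ι) K (Zxm m k S x) (fun y => avR m k S A h y * lc R c y ^ (j - 1)) z := by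
  obtain ⟨F2, hc⟩ := hG.c2_avR k hh
  have h1 := mom_gen (Φ := avR m k S A h)
    (Φ1 := fun e u => k * avR m k S (Option A) (dR S 0 e h) u) (w := Zxm m k S x)
    (L := fun e z => x * (k * avm m k S (S e) z)) hKR c (fun z => Zxm_pos x z)
    (fun e _ => pd_Zx hG k x e) (hG.eg_Zx k x)
    (fun e _ => ((hG.eg_av k (hG.bS e)).const_mul k).const_mul x)
    (fun e _ => hc.pd0 e) hc.eg (fun e _ => hc.eg1 e) j z
  have h2 : ∀ y, (∑ e ∈ R, c e * (k * avR m k S (Option A) (dR S 0 e h) y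
      + avR m k S A h y * (x * (k * avm m k S (S e) y))))
      = k * avR m k S (Option A) (dV x (YS R c S) h) y := by
    intro y
    rw [avR_dV hG k x c hh, Finset.mul_sum]
    refine Finset.sum_congr rfl fun e _ => ?_
    rw [hG.avR_dR k x e hh, hG.avR_dR k 0 e hh]
    ring
  simp only [h2] at h1
  rw [h1]
  congr 1
  rw [← cx_cmul]
  congr 1
  funext y
  ring

lemma eg_avR' (hG : GM m S M0) (k : ℝ) {h : (A → Ω) → ℝ} (hh : Bm h) : EG (avR m k S A h) :=
  hG.eg_avR k hh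

/-- **The third Hermite polynomial**: `E[⟨h⟩ (V³ - 3 V)] = k³ E[⟨h'''⟩]`. -/
theorem herm3 (hG : GM m S M0) (k x : ℝ) (hKR : Disjoint K R) {c : ι → ℝ}
    (hc : ∑ e ∈ R, c e ^ 2 = 1) {h : (A → Ω) → ℝ} (hh : Bm h) (z : ι → ℝ) :
    cx (gg ι) K (Zxm m k S x)
        (fun y => avR m k S A h y * (lc R c y ^ 3 - 3 * lc R c y)) z
      = k ^ 3 * cx (gg ι) K (Zxm m k S x) (avR m k S (Option (Option (Option A)))
          (dV x (YS R c S) (dV x (YS R c S) (dV x (YS R c S) h)))) z := by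
  have hY : Bm (YS R c S) := bm_YS hG R c
  have b1 := bm_dV x hY hh
  have b2 := bm_dV x hY b1
  have b3 := bm_dV x hY b2
  have s3 := mom_avR hG k x hKR c hh 2 z
  have s2 := mom_avR hG k x hKR c b1 1 z
  have s1 := mom_avR hG k x hKR c b2 0 z
  have s0 := mom_avR hG k x hKR c hh 0 z
  have n1 : (2 : ℕ) - 1 = 1 := rfl
  have n2 : (1 : ℕ) - 1 = 0 := rfl
  have n3 : ((2 : ℕ) : ℝ) = 2 := by norm_num
  have n4 : (2 : ℕ) + 1 = 3 := rfl
  have n5 : (1 : ℕ) + 1 = 2 := rfl
  have n6 : (0 : ℕ) + 1 = 1 := rfl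
  simp only [n1, n2, n3, n4, n5, n6, hc, mul_one, Nat.cast_one, Nat.cast_zero, zero_mul,
    add_zero, one_mul, pow_zero] at s3 s2 s1 s0
  have e0 : (fun y => avR m k S A h y * (lc R c y ^ 3 - 3 * lc R c y))
      = fun y => avR m k S A h y * lc R c y ^ 3
        + (-3) * (avR m k S A h y * lc R c y ^ 1) := by funext y; ring
  rw [e0, cx_add_eg (hG.eg_Zx k x) ((hG.eg_avR k hh).mul ((eg_lc R c).pow 3))
    (((hG.eg_avR k hh).mul ((eg_lc R c).pow 1)).const_mul (-3)), cx_cmul, s3, s2, s1, s0]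
  ring

end Vale.Agent.P146.H586
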