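import Vale.Agent.P146.H586.Bes2

set_option linter.all false

/-!
The Bessel lower bound, part 3: the algebra of four replicas.
-/

open MeasureTheory ProbabilityTheory Filter Topology

namespace Vale.Agent.P146.H586

open Vale.Agent.P157.Lv Vale.Agent.P146.H196 Vale.Agent.P146.H646 Vale.Agent.P146.H161

/-- four replicas -/
abbrev O4 : Type := Option (Option (Option Unit))

/-- the four labels -/
def l0 : O4 := some (some (some ()))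
def l1 : O4 := some (some none)
def l2 : O4 := some none
def l3 : O4 := none

/-- the polynomial of the third derivative -/
def q4 (x h y0 y1 y2 y3 : ℝ) : ℝ :=
  h * (y0 + (x - 1) * y1) * (y0 + y1 + (x - 2) * y2) * (y0 + y1 + y2 + (x - 3) * y3)

section dV

variable {Ω : Type} [MeasurableSpace Ω]

lemma dV3_eq (x : ℝ) (Y h : Ω → ℝ) (w : O4 → Ω) :
    dV x Y (dV x Y (dV x Y (fun w : Unit → Ω => h (w ())))) w
      = q4 x (h (w l0)) (Y (w l0)) (Y (w l1)) (Y (w l2)) (Y (w l3)) := by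
  unfold dV q4 l0 l1 l2 l3
  simp only [Fintype.sum_option, Fintype.card_option, Fintype.card_unit, Finset.univ_unique,
    Finset.sum_singleton]
  push_cast
  ring

lemma dV1_eq (x : ℝ) (Y h : Ω → ℝ) (w : Option Unit → Ω) :
    dV x Y (fun w : Unit → Ω => h (w ())) w
      = h (w (some ())) * (Y (w (some ())) + (x - 1) * Y (w none)) := by
  unfold dV
  simp

end dV

/-! ### real inequalities -/

lemma sq7 (a b c d : ℝ) : (a + b + 2 * c + 3 * d) ^ 2 ≤ 7 * (a ^ 2 + b ^ 2 + 2 * c ^ 2 + 3 * d ^ 2) := by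
  nlinarith [sq_nonneg (a - b), sq_nonneg (a - c), sq_nonneg (a - d), sq_nonneg (b - c),
    sq_nonneg (b - d), sq_nonneg (c - d)]

lemma pow4_7 (a b c d : ℝ) :
    (a + b + 2 * c + 3 * d) ^ 4 ≤ 343 * (a ^ 4 + b ^ 4 + 2 * c ^ 4 + 3 * d ^ 4) := by
  have h1 := sq7 a b c d
  have h2 := sq7 (a ^ 2) (b ^ 2) (c ^ 2) (d ^ 2)
  have h3 : (a + b + 2 * c + 3 * d) ^ 4 = ((a + b + 2 * c + 3 * d) ^ 2) ^ 2 := by ring
  have h4 : ((a + b + 2 * c + 3 * d) ^ 2) ^ 2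
      ≤ (7 * (a ^ 2 + b ^ 2 + 2 * c ^ 2 + 3 * d ^ 2)) ^ 2 :=
    pow_le_pow_left₀ (sq_nonneg _) h1 2
  have h5 : (7 * (a ^ 2 + b ^ 2 + 2 * c ^ 2 + 3 * d ^ 2)) ^ 2
      = 49 * (a ^ 2 + b ^ 2 + 2 * c ^ 2 + 3 * d ^ 2) ^ 2 := by ring
  rw [h3]
  refine h4.trans ?_
  rw [h5]
  nlinarith

/-- three factors -/
lemma three (U V W U0 V0 W0 D M r : ℝ) (hD : 0 ≤ D) (hM : 0 ≤ M) (hr : 0 ≤ r)
    (dU : |U - U0| ≤ D) (dv : |V - V0| ≤ D) (dW : |W - W0| ≤ D)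
    (bV : |V| ≤ M) (bW : |W| ≤ M) (bU0 : |U0| ≤ 2 * r) (bV0 : |V0| ≤ 4 * r) :
    |U * V * W - U0 * V0 * W0| ≤ D * (2 * M ^ 2 + 9 * r ^ 2) := by
  have e : U * V * W - U0 * V0 * W0
      = (U - U0) * (V * W) + U0 * ((V - V0) * W) + U0 * (V0 * (W - W0)) := by ring
  have h1 : |(U - U0) * (V * W)| ≤ D * (M * M) := by
    rw [abs_mul, abs_mul]
    exact mul_le_mul dU (mul_le_mul bV bW (abs_nonneg _) hM)
      (mul_nonneg (abs_nonneg _) (abs_nonneg _)) hD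
  have h2 : |U0 * ((V - V0) * W)| ≤ (2 * r) * (D * M) := by
    rw [abs_mul, abs_mul]
    exact mul_le_mul bU0 (mul_le_mul dv bW (abs_nonneg _) hD)
      (mul_nonneg (abs_nonneg _) (abs_nonneg _)) (by positivity)
  have h3 : |U0 * (V0 * (W - W0))| ≤ (2 * r) * ((4 * r) * D) := by
    rw [abs_mul, abs_mul]
    exact mul_le_mul bU0 (mul_le_mul bV0 dW (abs_nonneg _) (by positivity))
      (mul_nonneg (abs_nonneg _) (abs_nonneg _)) (by positivity)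
  rw [e]
  refine (abs_add_three _ _ _).trans ?_
  nlinarith [mul_nonneg hD (sq_nonneg (M - r))]

lemma young {D B t : ℝ} (ht : 0 < t) : 2 * (D * B) ≤ t * D ^ 2 + B ^ 2 / t := by
  have h4 : 0 ≤ (t * D - B) ^ 2 / t := div_nonneg (sq_nonneg _) ht.le
  have h5 : (t * D - B) ^ 2 / t = t * D ^ 2 + B ^ 2 / t - 2 * (D * B) := by
    field_simp
    ring
  linarith

lemma abs_pow4 (X : ℝ) : |X| ^ 4 = X ^ 4 := by
  calc |X| ^ 4 = (|X| ^ 2) ^ 2 := by ring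
    _ = (X ^ 2) ^ 2 := by rw [sq_abs]
    _ = X ^ 4 := by ring

lemma bd_D {X0 X1 X2 X3 r t : ℝ} (ht : 0 < t) :
    t * (|X0 - r| + |X1 - r| + 2 * |X2 - r| + 3 * |X3 - r|) ^ 2
      ≤ (7 * t) * ((X0 - r) ^ 2 + (X1 - r) ^ 2 + 2 * (X2 - r) ^ 2 + 3 * (X3 - r) ^ 2) := by
  have h4 := sq7 |X0 - r| |X1 - r| |X2 - r| |X3 - r|
  simp only [sq_abs] at h4
  have := mul_le_mul_of_nonneg_left h4 ht.le
  linarith

lemma bd_M {X0 X1 X2 X3 r t : ℝ} (ht : 0 < t) :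
    (2 * (|X0| + |X1| + 2 * |X2| + 3 * |X3|) ^ 2 + 9 * r ^ 2) ^ 2 / t
      ≤ (2744 * (X0 ^ 4 + X1 ^ 4 + 2 * X2 ^ 4 + 3 * X3 ^ 4) + 162 * r ^ 4) / t := by
  refine div_le_div_of_nonneg_right ?_ ht.le
  have h4 := pow4_7 |X0| |X1| |X2| |X3|
  simp only [abs_pow4] at h4
  have h6 : ∀ M : ℝ, (2 * M ^ 2 + 9 * r ^ 2) ^ 2 ≤ 8 * M ^ 4 + 162 * r ^ 4 := fun M => by
    nlinarith [sq_nonneg (2 * M ^ 2 - 9 * r ^ 2)]
  have h7 := h6 (|X0| + |X1| + 2 * |X2| + 3 * |X3|)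
  linarith

/-- the three forms -/
lemma forms {x s0 s1 s2 s3 X0 X1 X2 X3 : ℝ} (hx0 : 0 ≤ x) (hx1 : x ≤ 1)
    (a0 : |s0| = 1) (a1 : |s1| = 1) (a2 : |s2| = 1) (a3 : |s3| = 1) :
    |s0 * X0 + (x - 1) * (s1 * X1)| ≤ |X0| + |X1| ∧
    |s0 * X0 + s1 * X1 + (x - 2) * (s2 * X2)| ≤ |X0| + |X1| + 2 * |X2| ∧
    |s0 * X0 + s1 * X1 + s2 * X2 + (x - 3) * (s3 * X3)| ≤ |X0| + |X1| + |X2| + 3 * |X3| := by
  have hx1' : |x - 1| ≤ 1 := by rw [abs_le]; constructor <;> linarith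
  have hx2' : |x - 2| ≤ 2 := by rw [abs_le]; constructor <;> linarith
  have hx3' : |x - 3| ≤ 3 := by rw [abs_le]; constructor <;> linarith
  have m1 : ∀ {s X c b : ℝ}, |s| = 1 → |c| ≤ b → |c * (s * X)| ≤ b * |X| := by
    intro s X c b hs hc
    rw [abs_mul, abs_mul, hs, one_mul]
    exact mul_le_mul_of_nonneg_right hc (abs_nonneg _)
  have m0 : ∀ {s X : ℝ}, |s| = 1 → |s * X| = |X| := by
    intro s X hs
    rw [abs_mul, hs, one_mul]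
  refine ⟨?_, ?_, ?_⟩
  · refine (abs_add_le _ _).trans ?_
    have u1 := m1 (X := X1) a1 hx1'
    rw [m0 a0]
    linarith
  · refine (abs_add_three _ _ _).trans ?_
    have u1 := m1 (X := X2) a2 hx2'
    rw [m0 a0, m0 a1]
    linarith
  · refine (abs_add_le _ _).trans ?_
    have u0 := abs_add_three (s0 * X0) (s1 * X1) (s2 * X2)
    have u1 := m1 (X := X3) a3 hx3'
    rw [m0 a0, m0 a1, m0 a2] at u0
    linarith

/-- **the pointwise comparison** -/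
lemma q4_diff {x a η r t : ℝ} {s0 s1 s2 s3 X0 X1 X2 X3 : ℝ} (hx0 : 0 ≤ x) (hx1 : x ≤ 1)
    (hη : 0 ≤ η) (hη1 : η ≤ 1) (ha : |a - 1| ≤ η) (hr : 0 ≤ r) (ht : 0 < t)
    (h0 : s0 ^ 2 = 1) (h1 : s1 ^ 2 = 1) (h2 : s2 ^ 2 = 1) (h3 : s3 ^ 2 = 1) :
    |q4 x (a * s0) (s0 * X0) (s1 * X1) (s2 * X2) (s3 * X3) - r ^ 3 * q4 x s0 s0 s1 s2 s3|
      ≤ (7 * t) * ((X0 - r) ^ 2 + (X1 - r) ^ 2 + 2 * (X2 - r) ^ 2 + 3 * (X3 - r) ^ 2)
        + (2744 * (X0 ^ 4 + X1 ^ 4 + 2 * X2 ^ 4 + 3 * X3 ^ 4) + 162 * r ^ 4) / t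
        + 48 * η * r ^ 3 := by
  have ab : ∀ {s : ℝ}, s ^ 2 = 1 → |s| = 1 := fun {s} h => by
    have h4 : |s| ^ 2 = 1 := by rw [sq_abs]; exact h
    nlinarith [abs_nonneg s]
  have a0 := ab h0
  have a1 := ab h1
  have a2 := ab h2
  have a3 := ab h3
  obtain ⟨D1, D2, D3⟩ := forms (X0 := X0 - r) (X1 := X1 - r) (X2 := X2 - r) (X3 := X3 - r)
    hx0 hx1 a0 a1 a2 a3
  obtain ⟨-, M2, M3⟩ := forms (X0 := X0) (X1 := X1) (X2 := X2) (X3 := X3)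
    hx0 hx1 a0 a1 a2 a3
  obtain ⟨R1, R2, R3⟩ := forms (X0 := r) (X1 := r) (X2 := r) (X3 := r)
    hx0 hx1 a0 a1 a2 a3
  rw [abs_of_nonneg hr] at R1 R2 R3
  have B1 := bd_D (X0 := X0) (X1 := X1) (X2 := X2) (X3 := X3) (r := r) ht
  have B2 := bd_M (X0 := X0) (X1 := X1) (X2 := X2) (X3 := X3) (r := r) ht
  have p0 := abs_nonneg (X0 - r)
  have p1 := abs_nonneg (X1 - r)
  have p2 := abs_nonneg (X2 - r)
  have p3 := abs_nonneg (X3 - r)
  have r0 := abs_nonneg X0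
  have r1 := abs_nonneg X1
  have r2 := abs_nonneg X2
  have r3 := abs_nonneg X3
  generalize hD : |X0 - r| + |X1 - r| + 2 * |X2 - r| + 3 * |X3 - r| = D at B1
  generalize hM : |X0| + |X1| + 2 * |X2| + 3 * |X3| = M at B2
  have hD0 : 0 ≤ D := by rw [← hD]; positivity
  have hM0 : 0 ≤ M := by rw [← hM]; positivity
  have dU : |(s0 * X0 + (x - 1) * (s1 * X1)) - (s0 * r + (x - 1) * (s1 * r))| ≤ D := by
    have e : (s0 * X0 + (x - 1) * (s1 * X1)) - (s0 * r + (x - 1) * (s1 * r))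
        = s0 * (X0 - r) + (x - 1) * (s1 * (X1 - r)) := by ring
    rw [e, ← hD]; linarith
  have dv : |(s0 * X0 + s1 * X1 + (x - 2) * (s2 * X2)) - (s0 * r + s1 * r + (x - 2) * (s2 * r))|
      ≤ D := by
    have e : (s0 * X0 + s1 * X1 + (x - 2) * (s2 * X2)) - (s0 * r + s1 * r + (x - 2) * (s2 * r))
        = s0 * (X0 - r) + s1 * (X1 - r) + (x - 2) * (s2 * (X2 - r)) := by ring
    rw [e, ← hD]; linarith
  have dW : |(s0 * X0 + s1 * X1 + s2 * X2 + (x - 3) * (s3 * X3))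
      - (s0 * r + s1 * r + s2 * r + (x - 3) * (s3 * r))| ≤ D := by
    have e : (s0 * X0 + s1 * X1 + s2 * X2 + (x - 3) * (s3 * X3))
        - (s0 * r + s1 * r + s2 * r + (x - 3) * (s3 * r))
        = s0 * (X0 - r) + s1 * (X1 - r) + s2 * (X2 - r) + (x - 3) * (s3 * (X3 - r)) := by ring
    rw [e, ← hD]; linarith
  have bV : |s0 * X0 + s1 * X1 + (x - 2) * (s2 * X2)| ≤ M := by rw [← hM]; linarith
  have bW : |s0 * X0 + s1 * X1 + s2 * X2 + (x - 3) * (s3 * X3)| ≤ M := by rw [← hM]; linarith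
  have bU0 : |s0 * r + (x - 1) * (s1 * r)| ≤ 2 * r := by linarith
  have bV0 : |s0 * r + s1 * r + (x - 2) * (s2 * r)| ≤ 4 * r := by linarith
  have bW0 : |s0 * r + s1 * r + s2 * r + (x - 3) * (s3 * r)| ≤ 6 * r := by linarith
  have T1 := three _ _ _ _ _ _ D M r hD0 hM0 hr dU dv dW bV bW bU0 bV0
  have e1 : q4 x (a * s0) (s0 * X0) (s1 * X1) (s2 * X2) (s3 * X3)
      = s0 * (a * ((s0 * X0 + (x - 1) * (s1 * X1)) * (s0 * X0 + s1 * X1 + (x - 2) * (s2 * X2))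
        * (s0 * X0 + s1 * X1 + s2 * X2 + (x - 3) * (s3 * X3)))) := by
    unfold q4; ring
  have e2 : r ^ 3 * q4 x s0 s0 s1 s2 s3
      = s0 * ((s0 * r + (x - 1) * (s1 * r)) * (s0 * r + s1 * r + (x - 2) * (s2 * r))
        * (s0 * r + s1 * r + s2 * r + (x - 3) * (s3 * r))) := by
    unfold q4; ring
  have T2 : |(s0 * r + (x - 1) * (s1 * r)) * (s0 * r + s1 * r + (x - 2) * (s2 * r))
        * (s0 * r + s1 * r + s2 * r + (x - 3) * (s3 * r))| ≤ 48 * r ^ 3 := by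
    rw [abs_mul, abs_mul]
    refine (mul_le_mul (mul_le_mul bU0 bV0 (abs_nonneg _) (by positivity)) bW0
      (abs_nonneg _) (by positivity)).trans (le_of_eq ?_)
    ring
  rw [e1, e2]
  generalize (s0 * X0 + (x - 1) * (s1 * X1)) * (s0 * X0 + s1 * X1 + (x - 2) * (s2 * X2))
        * (s0 * X0 + s1 * X1 + s2 * X2 + (x - 3) * (s3 * X3)) = P at T1
  generalize (s0 * r + (x - 1) * (s1 * r)) * (s0 * r + s1 * r + (x - 2) * (s2 * r))
        * (s0 * r + s1 * r + s2 * r + (x - 3) * (s3 * r)) = P0 at T1 T2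
  have e3 : s0 * (a * P) - s0 * P0 = s0 * (a * (P - P0) + (a - 1) * P0) := by ring
  rw [e3, abs_mul, a0, one_mul]
  have ha2 : |a| ≤ 2 := by
    have h4 := abs_add_le (a - 1) 1
    rw [abs_one, sub_add_cancel] at h4
    linarith
  have T3 : |a * (P - P0)| ≤ 2 * (D * (2 * M ^ 2 + 9 * r ^ 2)) := by
    rw [abs_mul]
    exact mul_le_mul ha2 T1 (abs_nonneg _) (by norm_num)
  have T4 : |(a - 1) * P0| ≤ η * (48 * r ^ 3) := by
    rw [abs_mul]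
    exact mul_le_mul ha T2 (abs_nonneg _) hη
  have T5 := young (D := D) (B := 2 * M ^ 2 + 9 * r ^ 2) ht
  have T6 := abs_add_le (a * (P - P0)) ((a - 1) * P0)
  have T7 : η * (48 * r ^ 3) = 48 * η * r ^ 3 := by ring
  rw [T7] at T4
  exact T6.trans (add_le_add (T3.trans (T5.trans (add_le_add B1 B2))) T4)

/-- the reduced form of the main term -/
lemma q4_red (x : ℝ) {s0 s1 s2 s3 : ℝ} (h0 : s0 ^ 2 = 1) (h1 : s1 ^ 2 = 1) (h2 : s2 ^ 2 = 1) :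
    q4 x s0 s0 s1 s2 s3 = (3 * x - 2) + (2 * x + (x - 1) * (x - 2)) * (s0 * s1)
      + ((2 * x - 2) + (x - 1) * (x - 2)) * (s0 * s2)
      + ((2 * x - 2) + (x - 1) * (x - 2)) * (s1 * s2)
      + (x - 3) * x * (s0 * s3) + (x - 3) * x * (s1 * s3)
      + (x - 3) * (x - 2) * (s2 * s3)
      + (x - 1) * (x - 2) * (x - 3) * (s3 * (s2 * (s1 * s0))) := by
  unfold q4
  have e0 : s0 ^ 3 = s0 := by rw [pow_succ, h0, one_mul]
  have e0' : s0 ^ 4 = 1 := by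
    calc s0 ^ 4 = (s0 ^ 2) ^ 2 := by ring
      _ = 1 := by rw [h0]; norm_num
  have e1 : s1 ^ 3 = s1 := by rw [pow_succ, h1, one_mul]
  have e2 : s2 ^ 3 = s2 := by rw [pow_succ, h2, one_mul]
  ring_nf
  simp only [h0, h1, h2, e0, e0', e1, e2]
  ring

end Vale.Agent.P146.H586
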