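import Vale.Agent.P146.H586.Bes3

set_option linter.all false

/-!
The Bessel lower bound, part 4: the averages over four replicas.
-/

open MeasureTheory ProbabilityTheory Filter Topology

namespace Vale.Agent.P146.H586

open Vale.Agent.P157.Lv Vale.Agent.P146.H196 Vale.Agent.P146.H646 Vale.Agent.P146.H161

variable {ι : Type} [Fintype ι] [DecidableEq ι] {Ω : Type} [MeasurableSpace Ω]
  {m : Measure Ω} {k x : ℝ} {S : ι → Ω → ℝ} {M0 : ℝ} {K K' R : Finset ι}

/-- the fourth cumulant of a site with the magnetisation `M`, exponent `x` -/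
def kx (x M : ℝ) : ℝ :=
  (3 * x - 2) + (2 * x + (x - 1) * (x - 2)) * M ^ 2
    + 2 * ((2 * x - 2) + (x - 1) * (x - 2)) * M ^ 2
    + 2 * ((x - 3) * x) * M ^ 2 + (x - 3) * (x - 2) * M ^ 2
    + (x - 1) * (x - 2) * (x - 3) * M ^ 4

/-- the fourth cumulant of a site with the magnetisation `M` -/
def k0 (M : ℝ) : ℝ := -(2 * (1 - M ^ 2) * (1 - 3 * M ^ 2))

lemma kx_sub {x M : ℝ} (hx0 : 0 ≤ x) (hx1 : x ≤ 1) (hM : |M| ≤ 1) : |kx x M - k0 M| ≤ 28 * x := by
  have e : kx x M - k0 M = x * (3 + (6 * x - 14) * M ^ 2 + (11 - 6 * x + x ^ 2) * M ^ 4) := by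
    unfold kx k0; ring
  have h2 : M ^ 2 ≤ 1 := by rw [← sq_abs]; nlinarith [abs_nonneg M]
  have h0 : 0 ≤ M ^ 2 := sq_nonneg M
  have h4 : M ^ 4 ≤ 1 := by
    calc M ^ 4 = (M ^ 2) ^ 2 := by ring
      _ ≤ 1 := by nlinarith
  have h40 : 0 ≤ M ^ 4 := by positivity
  rw [e, abs_mul, abs_of_nonneg hx0, mul_comm]
  refine mul_le_mul_of_nonneg_right ?_ hx0
  have c1 : 0 ≤ 11 - 6 * x + x ^ 2 := by nlinarith
  have c2 : 11 - 6 * x + x ^ 2 ≤ 11 := by nlinarith
  rw [abs_le]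
  constructor
  · nlinarith [mul_nonneg c1 h40]
  · nlinarith [mul_le_mul c2 h4 h40 (by norm_num : (0 : ℝ) ≤ 11)]

lemma abs_k0 {M : ℝ} (hM : |M| ≤ 1) : |k0 M| ≤ 4 := by
  have h2 : M ^ 2 ≤ 1 := by rw [← sq_abs]; nlinarith [abs_nonneg M]
  have h0 : 0 ≤ M ^ 2 := sq_nonneg M
  unfold k0
  rw [abs_le]
  constructor <;> nlinarith

/-- the main term -/
lemma avR_q4 (hG : GM m S M0) (k x : ℝ) {s : Ω → ℝ} (hs : Bm s) (hs1 : ∀ ω, s ω ^ 2 = 1)
    (u : ι → ℝ) :
    avR m k S O4 (fun w => q4 x (s (w l0)) (s (w l0)) (s (w l1)) (s (w l2)) (s (w l3))) u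
      = kx x (avm m k S s u) := by
  have hP := hG.pi O4
  have b : ∀ l : O4, Bm (fun w : O4 → Ω => s (w l)) := fun l => hs.at l
  have n01 : l0 ≠ l1 := by unfold l0 l1; simp
  have n02 : l0 ≠ l2 := by unfold l0 l2; simp
  have n03 : l0 ≠ l3 := by unfold l0 l3; simp
  have n12 : l1 ≠ l2 := by unfold l1 l2; simp
  have n13 : l1 ≠ l3 := by unfold l1 l3; simp
  have n23 : l2 ≠ l3 := by unfold l2 l3; simp
  have t2 : ∀ {a b : O4}, a ≠ b → avR m k S O4 (fun w => s (w a) * s (w b)) u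
      = avm m k S s u ^ 2 := by
    intro a b hab
    rw [hG.avR_two k hab s s u, sq]
  have t4 : avR m k S O4 (fun w => s (w l3) * (s (w l2) * (s (w l1) * s (w l0)))) u
      = avm m k S s u ^ 4 := by
    have h1 := hG.avR_prod k (fun _ : O4 => s) u
    have h2 : (fun w : O4 → Ω => ∏ a, s (w a))
        = fun w => s (w l3) * (s (w l2) * (s (w l1) * s (w l0))) := by
      funext w
      unfold l0 l1 l2 l3
      simp [Fintype.prod_option]
    rw [h2] at h1
    rw [h1]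
    simp
  have e : (fun w : O4 → Ω => q4 x (s (w l0)) (s (w l0)) (s (w l1)) (s (w l2)) (s (w l3)))
      = fun w => (((((((fun _ : O4 → Ω => (3 * x - 2)) w
        + (2 * x + (x - 1) * (x - 2)) * (s (w l0) * s (w l1)))
        + ((2 * x - 2) + (x - 1) * (x - 2)) * (s (w l0) * s (w l2)))
        + ((2 * x - 2) + (x - 1) * (x - 2)) * (s (w l1) * s (w l2)))
        + (x - 3) * x * (s (w l0) * s (w l3))) + (x - 3) * x * (s (w l1) * s (w l3)))
        + (x - 3) * (x - 2) * (s (w l2) * s (w l3)))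
        + (x - 1) * (x - 2) * (x - 3) * (s (w l3) * (s (w l2) * (s (w l1) * s (w l0)))) := by
    funext w
    rw [q4_red x (hs1 _) (hs1 _) (hs1 _)]
  have c0 : Bm (fun _ : O4 → Ω => (3 * x - 2)) := Bm.const _
  have c1 := c0.add (((b l0).mul (b l1)).const_mul (2 * x + (x - 1) * (x - 2)))
  have c2 := c1.add (((b l0).mul (b l2)).const_mul ((2 * x - 2) + (x - 1) * (x - 2)))
  have c3 := c2.add (((b l1).mul (b l2)).const_mul ((2 * x - 2) + (x - 1) * (x - 2)))
  have c4 := c3.add (((b l0).mul (b l3)).const_mul ((x - 3) * x))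
  have c5 := c4.add (((b l1).mul (b l3)).const_mul ((x - 3) * x))
  have c6 := c5.add (((b l2).mul (b l3)).const_mul ((x - 3) * (x - 2)))
  rw [e]
  unfold avR at t2 t4 ⊢
  rw [hP.av_add k c6 (((b l3).mul ((b l2).mul ((b l1).mul (b l0)))).const_mul _),
    hP.av_add k c5 (((b l2).mul (b l3)).const_mul _),
    hP.av_add k c4 (((b l1).mul (b l3)).const_mul _),
    hP.av_add k c3 (((b l0).mul (b l3)).const_mul _),
    hP.av_add k c2 (((b l1).mul (b l2)).const_mul _),
    hP.av_add k c1 (((b l0).mul (b l2)).const_mul _),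
    hP.av_add k c0 (((b l0).mul (b l1)).const_mul _),
    hP.av_const, av_mul, av_mul, av_mul, av_mul, av_mul, av_mul, av_mul,
    t2 n01, t2 n02, t2 n12, t2 n03, t2 n13, t2 n23, t4]
  unfold kx
  ring

/-- the average of a sum over the labels -/
lemma avR_sum4 (hG : GM m S M0) (k : ℝ) {g : Ω → ℝ} (hg : Bm g) (C : ℝ) (u : ι → ℝ) :
    avR m k S O4 (fun w => g (w l0) + g (w l1) + 2 * g (w l2) + 3 * g (w l3) + C) u
      = 7 * avm m k S g u + C := by
  have hP := hG.pi O4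
  have b : ∀ l : O4, Bm (fun w : O4 → Ω => g (w l)) := fun l => hg.at l
  have t1 : ∀ l : O4, avR m k S O4 (fun w => g (w l)) u = avm m k S g u := fun l =>
    hG.avR_one k l g u
  have c1 := (b l0).add (b l1)
  have c2 := c1.add ((b l2).const_mul 2)
  have c3 := c2.add ((b l3).const_mul 3)
  unfold avR at t1 ⊢
  rw [hP.av_add k c3 (Bm.const C), hP.av_add k c2 ((b l3).const_mul 3),
    hP.av_add k c1 ((b l2).const_mul 2), hP.av_add k (b l0) (b l1), av_mul, av_mul,
    hP.av_const, t1, t1, t1, t1]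
  ring

/-- **the comparison of the third derivative with the fourth cumulant**, pointwise -/
lemma avR_diff (hG : GM m S M0) (k : ℝ) {x η r t : ℝ} (hx0 : 0 ≤ x) (hx1 : x ≤ 1)
    (hη : 0 ≤ η) (hη1 : η ≤ 1) (hr : 0 ≤ r) (ht : 0 < t) {a s X Y : Ω → ℝ} (ba : Bm a)
    (hs : Bm s) (hX : Bm X) (hs1 : ∀ ω, s ω ^ 2 = 1) (ha : ∀ ω, |a ω - 1| ≤ η)
    (hY : ∀ ω, Y ω = s ω * X ω) (u : ι → ℝ) :
    |avR m k S O4 (dV x Y (dV x Y (dV x Y (fun w : Unit → Ω => a (w ()) * s (w ()))))) u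
        - r ^ 3 * kx x (avm m k S s u)|
      ≤ 49 * t * avm m k S (fun ω => (X ω - r) ^ 2) u
        + (19208 * avm m k S (fun ω => X ω ^ 4) u + 162 * r ^ 4) / t + 48 * η * r ^ 3 := by
  have hP := hG.pi O4
  have bY : Bm Y := by
    have : Y = fun ω => s ω * X ω := by funext ω; exact hY ω
    rw [this]; exact hs.mul hX
  have bas : Bm fun ω => a ω * s ω := ba.mul hs
  have e0 : dV x Y (dV x Y (dV x Y (fun w : Unit → Ω => a (w ()) * s (w ()))))
      = fun w : O4 → Ω => q4 x (a (w l0) * s (w l0)) (s (w l0) * X (w l0))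
        (s (w l1) * X (w l1)) (s (w l2) * X (w l2)) (s (w l3) * X (w l3)) := by
    funext w
    have h1 := dV3_eq x Y (fun ω => a ω * s ω) w
    rw [hY, hY, hY, hY] at h1
    exact h1
  have b0 : Bm (fun w : O4 → Ω => q4 x (a (w l0) * s (w l0)) (s (w l0) * X (w l0))
        (s (w l1) * X (w l1)) (s (w l2) * X (w l2)) (s (w l3) * X (w l3))) := by
    rw [← e0]
    have h1 : Bm (fun w : Unit → Ω => a (w ()) * s (w ())) := bas.at ()
    exact bm_dV x bY (bm_dV x bY (bm_dV x bY h1))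
  have bs : ∀ l : O4, Bm (fun w : O4 → Ω => s (w l)) := fun l => hs.at l
  have b1 : Bm (fun w : O4 → Ω => q4 x (s (w l0)) (s (w l0)) (s (w l1)) (s (w l2))
      (s (w l3))) := by
    unfold q4
    exact (((bs l0).mul ((bs l0).add ((bs l1).const_mul _))).mul
      (((bs l0).add (bs l1)).add ((bs l2).const_mul _))).mul
      ((((bs l0).add (bs l1)).add (bs l2)).add ((bs l3).const_mul _))
  set g : Ω → ℝ := fun ω => 7 * t * (X ω - r) ^ 2 + 2744 / t * X ω ^ 4 with hg
  have bd : Bm fun ω => (X ω - r) ^ 2 := (hX.sub (Bm.const r)).pow 2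
  have bg : Bm g := (bd.const_mul _).add ((hX.pow 4).const_mul _)
  set C : ℝ := 162 * r ^ 4 / t + 48 * η * r ^ 3 with hC
  have bG : Bm (fun w : O4 → Ω => g (w l0) + g (w l1) + 2 * g (w l2) + 3 * g (w l3) + C) :=
    ((((bg.at l0).add (bg.at l1)).add ((bg.at l2).const_mul 2)).add
      ((bg.at l3).const_mul 3)).add (Bm.const C)
  have hpt : ∀ w : O4 → Ω, |q4 x (a (w l0) * s (w l0)) (s (w l0) * X (w l0))
        (s (w l1) * X (w l1)) (s (w l2) * X (w l2)) (s (w l3) * X (w l3))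
        - r ^ 3 * q4 x (s (w l0)) (s (w l0)) (s (w l1)) (s (w l2)) (s (w l3))|
      ≤ g (w l0) + g (w l1) + 2 * g (w l2) + 3 * g (w l3) + C := by
    intro w
    have h1 := q4_diff (x := x) (a := a (w l0)) (η := η) (r := r) (t := t) (X0 := X (w l0))
      (X1 := X (w l1)) (X2 := X (w l2)) (X3 := X (w l3)) hx0 hx1 hη hη1 (ha _) hr ht
      (hs1 (w l0)) (hs1 (w l1)) (hs1 (w l2)) (hs1 (w l3))
    refine h1.trans (le_of_eq ?_)
    simp only [hg, hC]
    field_simp
    ring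
  have e1 : avR m k S O4 (fun w : O4 → Ω => q4 x (a (w l0) * s (w l0)) (s (w l0) * X (w l0))
        (s (w l1) * X (w l1)) (s (w l2) * X (w l2)) (s (w l3) * X (w l3))) u
      - r ^ 3 * kx x (avm m k S s u)
      = avR m k S O4 (fun w : O4 → Ω => q4 x (a (w l0) * s (w l0)) (s (w l0) * X (w l0))
        (s (w l1) * X (w l1)) (s (w l2) * X (w l2)) (s (w l3) * X (w l3))
        - r ^ 3 * q4 x (s (w l0)) (s (w l0)) (s (w l1)) (s (w l2)) (s (w l3))) u := by
    rw [← avR_q4 hG k x hs hs1 u]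
    unfold avR
    rw [hP.av_sub k b0 (b1.const_mul _), av_mul]
  have e2 := avR_sum4 hG k bg C u
  have e3 : avm m k S g u = 7 * t * avm m k S (fun ω => (X ω - r) ^ 2) u
      + 2744 / t * avm m k S (fun ω => X ω ^ 4) u := by
    simp only [hg]
    rw [hG.av_add k (bd.const_mul _) ((hX.pow 4).const_mul _), av_mul, av_mul]
  rw [e0, e1]
  have bD := b0.sub (b1.const_mul (r ^ 3))
  have u1 : avR m k S O4 (fun w : O4 → Ω => q4 x (a (w l0) * s (w l0)) (s (w l0) * X (w l0))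
        (s (w l1) * X (w l1)) (s (w l2) * X (w l2)) (s (w l3) * X (w l3))
        - r ^ 3 * q4 x (s (w l0)) (s (w l0)) (s (w l1)) (s (w l2)) (s (w l3))) u
      ≤ 7 * avm m k S g u + C := by
    rw [← e2]
    exact hP.av_mono k bD bG (fun w => (le_abs_self _).trans (hpt w)) u
  have u2 : -(7 * avm m k S g u + C) ≤ avR m k S O4 (fun w : O4 → Ω =>
        q4 x (a (w l0) * s (w l0)) (s (w l0) * X (w l0))
        (s (w l1) * X (w l1)) (s (w l2) * X (w l2)) (s (w l3) * X (w l3))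
        - r ^ 3 * q4 x (s (w l0)) (s (w l0)) (s (w l1)) (s (w l2)) (s (w l3))) u := by
    rw [← e2]
    have h3 : -(avR m k S O4 (fun w => g (w l0) + g (w l1) + 2 * g (w l2) + 3 * g (w l3) + C) u)
        = avR m k S O4 (fun w => (-1) * (g (w l0) + g (w l1) + 2 * g (w l2) + 3 * g (w l3) + C))
          u := by
      unfold avR
      rw [av_mul]; ring
    rw [h3]
    refine hP.av_mono k (bG.const_mul (-1)) bD (fun w => ?_) u
    have h4 := (abs_le.1 (hpt w)).1
    linarith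
  refine (abs_le.2 ⟨u2, u1⟩).trans (le_of_eq ?_)
  rw [e3]
  simp only [hC]
  field_simp
  ring

end Vale.Agent.P146.H586
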