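import Vale.Agent.P146.H586.Bes4

set_option linter.all false

/-!
The Bessel lower bound, part 5: the third level is bounded below by the fourth cumulant, pointwise
in the frozen point.
-/

open MeasureTheory ProbabilityTheory Filter Topology

namespace Vale.Agent.P146.H586

open Vale.Agent.P157.Lv Vale.Agent.P146.H196 Vale.Agent.P146.H646 Vale.Agent.P146.H161

variable {ι : Type} [Fintype ι] [DecidableEq ι] {Ω : Type} [MeasurableSpace Ω]
  {m : Measure Ω} {k x : ℝ} {S : ι → Ω → ℝ} {M0 : ℝ} {K K' R : Finset ι}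

/-- `N` may be replaced by `⟨h⟩` against functions of the row. -/
lemma cx_N (hG : GM m S M0) (k x : ℝ) (hKR : Disjoint K R) (hK : K ⊆ K') (hR : R ⊆ K')
    {h : Ω → ℝ} (hh : Bm h) {c : ι → ℝ} {P : ℝ → ℝ} (hP : EG fun y => P (lc R c y)) (z : ι → ℝ) :
    cx (gg ι) K (Zxm m k S x)
        (fun y => cx (gg ι) K' (Zxm m k S x) (avm m k S h) y * P (lc R c y)) z
      = cx (gg ι) K (Zxm m k S x) (fun y => avm m k S h y * P (lc R c y)) z := by
  obtain ⟨C, hC, hb⟩ := hh.2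
  have hd : H646.Dep K' fun y => P (lc R c y) := fun z z' => by
    simp only [dep_lc hR c z z']
  have h1 := int_cx_eg (K := K') (w := fun y => Zxm m k S x (glue K z y))
    (φ := fun y => avm m k S h (glue K z y)) (Q := fun y => P (lc R c y))
    (eg_glue (hG.eg_Zx k x) K z) (fun y => Zxm_pos x _) (eg_glue (hG.eg_av k hh) K z)
    (fun y => hG.abs_av_le k hh.1 hb _) hd hP
  simp only [cx_glue hK] at h1
  rw [cx_num, cx_num]
  congr 1
  simp only [lc_glue hKR]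
  exact h1

/-- the square of an average -/
lemma av_sq (hG : GM m S M0) (k : ℝ) {f : Ω → ℝ} (hf : Bm f) (y : ι → ℝ) :
    avm m k S f y ^ 2 ≤ avm m k S (fun ω => f ω ^ 2) y := hG.av_sq_le k hf y

/-- **`V` against the third Hermite polynomial** -/
theorem v_h3 (hG : GM m S M0) {x b0 : ℝ} (hx0 : 0 ≤ x) (hx1 : x ≤ 1) (hb0 : 0 ≤ b0)
    (hKR : Disjoint K R) {c : ι → ℝ} (hc : ∑ e ∈ R, c e ^ 2 = 1)
    (hb : ∀ ω, |YS R c S ω| ≤ b0) (z : ι → ℝ) :
    |cx (gg ι) K (Zxm m 1 S x)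
        (fun y => lc R c y * (lc R c y ^ 3 - 3 * lc R c y)) z|
      ≤ x * ((48 * b0 ^ 2 + 6)
        * cx (gg ι) K (Zxm m 1 S x) (avm m 1 S fun ω => YS R c S ω ^ 2) z) := by
  set Y := YS R c S with hYdef
  have hY : Bm Y := bm_YS hG R c
  have ew := hG.eg_Zx 1 x
  have hw0 : ∀ z, 0 < Zxm m 1 S x z := fun z => Zxm_pos x z
  have eV : EG (lc R c) := eg_lc R c
  have eY : EG (avm m 1 S Y) := hG.eg_av 1 hY
  -- the first step
  have one : ∀ y, avR m 1 S Empty (fun _ => (1 : ℝ)) y = 1 := fun y => (hG.pi Empty).av_one 1 y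
  have dE : ∀ y, avR m 1 S (Option Empty) (dV x Y (fun _ : Empty → Ω => (1 : ℝ))) y
      = x * avm m 1 S Y y := by
    intro y
    have e1 : dV x Y (fun _ : Empty → Ω => (1 : ℝ)) = fun w : Option Empty → Ω =>
        x * Y (w none) := by
      funext w
      unfold dV
      simp
    rw [e1]
    unfold avR
    rw [av_mul]
    congr 1
    exact hG.avR_one 1 none Y y
  have s4 := mom_avR (A := Empty) hG 1 x hKR c (h := fun _ => (1 : ℝ)) (Bm.const 1) 3 z
  rw [← hYdef] at s4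
  simp only [one, dE, one_mul, hc, mul_one] at s4
  have n3 : (3 : ℕ) - 1 = 2 := rfl
  have n4 : (3 : ℕ) + 1 = 4 := rfl
  have n5 : ((3 : ℕ) : ℝ) = 3 := by norm_num
  rw [n3, n4, n5] at s4
  have e0 : cx (gg ι) K (Zxm m 1 S x)
        (fun y => lc R c y * (lc R c y ^ 3 - 3 * lc R c y)) z
      = x * cx (gg ι) K (Zxm m 1 S x) (fun y => avm m 1 S Y y * lc R c y ^ 3) z := by
    have f1 : (fun y => lc R c y * (lc R c y ^ 3 - 3 * lc R c y))
        = fun y => lc R c y ^ 4 + (-3) * lc R c y ^ 2 := by funext y; ring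
    have f2 : (fun y => x * avm m 1 S Y y * lc R c y ^ 3)
        = fun y => x * (avm m 1 S Y y * lc R c y ^ 3) := by funext y; ring
    rw [f1, cx_add_eg ew (eV.pow 4) ((eV.pow 2).const_mul (-3)), cx_cmul, s4, f2, cx_cmul]
    ring
  -- the second step
  have b1 : Bm (fun w : Unit → Ω => Y (w ())) := hY.at ()
  have uA : ∀ y, avR m 1 S Unit (fun w => Y (w ())) y = avm m 1 S Y y := fun y =>
    hG.avR_one 1 () Y y
  have s3 := herm3 (A := Unit) hG 1 x hKR hc b1 z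
  rw [← hYdef] at s3
  simp only [uA, one_pow, one_mul] at s3
  have s1 := cx_lin hG 1 x hKR hY c z
  rw [← hYdef, one_mul] at s1
  have e1 : cx (gg ι) K (Zxm m 1 S x) (fun y => avm m 1 S Y y * lc R c y ^ 3) z
      = cx (gg ι) K (Zxm m 1 S x) (avR m 1 S O4
          (dV x Y (dV x Y (dV x Y fun w : Unit → Ω => Y (w ()))))) z
        + 3 * cx (gg ι) K (Zxm m 1 S x) (rsg m 1 S x Y Y) z := by
    have f1 : (fun y => avm m 1 S Y y * lc R c y ^ 3)
        = fun y => avm m 1 S Y y * (lc R c y ^ 3 - 3 * lc R c y)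
          + 3 * (avm m 1 S Y y * lc R c y) := by funext y; ring
    rw [f1, cx_add_eg ew (eY.mul ((eV.pow 3).sub (eV.const_mul 3)))
      ((eY.mul eV).const_mul 3), cx_cmul, s3, s1]
  -- bounds
  have hP := hG.pi O4
  have bY2 : Bm fun ω => Y ω ^ 2 := hY.pow 2
  have eY2 : EG (avm m 1 S fun ω => Y ω ^ 2) := hG.eg_av 1 bY2
  have bd3 : Bm (dV x Y (dV x Y (dV x Y fun w : Unit → Ω => Y (w ())))) :=
    bm_dV x hY (bm_dV x hY (bm_dV x hY b1))
  have pt : ∀ w : O4 → Ω, |dV x Y (dV x Y (dV x Y fun w : Unit → Ω => Y (w ()))) w|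
      ≤ 36 * b0 ^ 2 * Y (w l0) ^ 2 + 12 * b0 ^ 2 * Y (w l1) ^ 2 := by
    intro w
    rw [dV3_eq]
    unfold q4
    have h0 := hb (w l0)
    have h1 := hb (w l1)
    have h2 := hb (w l2)
    have h3 := hb (w l3)
    generalize Y (w l0) = y0 at *
    generalize Y (w l1) = y1 at *
    generalize Y (w l2) = y2 at *
    generalize Y (w l3) = y3 at *
    have hx1' : |x - 1| ≤ 1 := by rw [abs_le]; constructor <;> linarith
    have hx2' : |x - 2| ≤ 2 := by rw [abs_le]; constructor <;> linarith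
    have hx3' : |x - 3| ≤ 3 := by rw [abs_le]; constructor <;> linarith
    have m1 : ∀ {X c b : ℝ}, |c| ≤ b → |c * X| ≤ b * |X| := by
      intro X c b hc
      rw [abs_mul]
      exact mul_le_mul_of_nonneg_right hc (abs_nonneg _)
    have f1 : |y0 + (x - 1) * y1| ≤ |y0| + |y1| := by
      refine (abs_add_le _ _).trans ?_
      have := m1 (X := y1) hx1'
      linarith
    have f2 : |y0 + y1 + (x - 2) * y2| ≤ 4 * b0 := by
      refine (abs_add_three _ _ _).trans ?_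
      have := m1 (X := y2) hx2'
      linarith
    have f3 : |y0 + y1 + y2 + (x - 3) * y3| ≤ 6 * b0 := by
      refine (abs_add_le _ _).trans ?_
      have u0 := abs_add_three y0 y1 y2
      have := m1 (X := y3) hx3'
      linarith
    rw [abs_mul, abs_mul, abs_mul]
    have g1 : |y0| * |y0 + (x - 1) * y1| ≤ |y0| * (|y0| + |y1|) :=
      mul_le_mul_of_nonneg_left f1 (abs_nonneg _)
    have g2 : |y0| * (|y0| + |y1|) ≤ 1 / 2 * (3 * y0 ^ 2 + y1 ^ 2) := by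
      nlinarith [sq_nonneg (|y0| - |y1|), sq_abs y0, sq_abs y1]
    have g3 : |y0| * |y0 + (x - 1) * y1| * |y0 + y1 + (x - 2) * y2|
        ≤ (1 / 2 * (3 * y0 ^ 2 + y1 ^ 2)) * (4 * b0) :=
      mul_le_mul (g1.trans g2) f2 (abs_nonneg _) (by positivity)
    calc |y0| * |y0 + (x - 1) * y1| * |y0 + y1 + (x - 2) * y2| * |y0 + y1 + y2 + (x - 3) * y3|
        ≤ ((1 / 2 * (3 * y0 ^ 2 + y1 ^ 2)) * (4 * b0)) * (6 * b0) :=
          mul_le_mul g3 f3 (abs_nonneg _) (by positivity)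
      _ = _ := by ring
  have avb : ∀ y, |avR m 1 S O4 (dV x Y (dV x Y (dV x Y fun w : Unit → Ω => Y (w ())))) y|
      ≤ 48 * b0 ^ 2 * avm m 1 S (fun ω => Y ω ^ 2) y := by
    intro y
    have bb : Bm (fun w : O4 → Ω => 36 * b0 ^ 2 * Y (w l0) ^ 2 + 12 * b0 ^ 2 * Y (w l1) ^ 2) :=
      ((bY2.at l0).const_mul _).add ((bY2.at l1).const_mul _)
    have v : avR m 1 S O4 (fun w => 36 * b0 ^ 2 * Y (w l0) ^ 2 + 12 * b0 ^ 2 * Y (w l1) ^ 2) y
        = 48 * b0 ^ 2 * avm m 1 S (fun ω => Y ω ^ 2) y := by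
      have t0 := hG.avR_one 1 l0 (fun ω => Y ω ^ 2) y
      have t1 := hG.avR_one 1 l1 (fun ω => Y ω ^ 2) y
      unfold avR at t0 t1 ⊢
      rw [hP.av_add 1 ((bY2.at l0).const_mul _) ((bY2.at l1).const_mul _), av_mul, av_mul,
        t0, t1]
      ring
    have u1 : avR m 1 S O4 (dV x Y (dV x Y (dV x Y fun w : Unit → Ω => Y (w ())))) y
        ≤ 48 * b0 ^ 2 * avm m 1 S (fun ω => Y ω ^ 2) y := by
      rw [← v]
      exact hP.av_mono 1 bd3 bb (fun w => (le_abs_self _).trans (pt w)) y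
    have u2 : -(48 * b0 ^ 2 * avm m 1 S (fun ω => Y ω ^ 2) y)
        ≤ avR m 1 S O4 (dV x Y (dV x Y (dV x Y fun w : Unit → Ω => Y (w ())))) y := by
      rw [← v]
      have h3 : -(avR m 1 S O4 (fun w => 36 * b0 ^ 2 * Y (w l0) ^ 2
          + 12 * b0 ^ 2 * Y (w l1) ^ 2) y)
          = avR m 1 S O4 (fun w => (-1) * (36 * b0 ^ 2 * Y (w l0) ^ 2
          + 12 * b0 ^ 2 * Y (w l1) ^ 2)) y := by
        unfold avR
        rw [av_mul]; ring
      rw [h3]
      refine hP.av_mono 1 (bb.const_mul (-1)) bd3 (fun w => ?_) y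
      have h4 := (abs_le.1 (pt w)).1
      linarith
    exact abs_le.2 ⟨u2, u1⟩
  have rb : ∀ y, |rsg m 1 S x Y Y y| ≤ 2 * avm m 1 S (fun ω => Y ω ^ 2) y := by
    intro y
    unfold rsg
    have h1 := av_sq hG 1 hY y
    have h2 : avm m 1 S (fun ω => Y ω * Y ω) y = avm m 1 S (fun ω => Y ω ^ 2) y := by
      congr 1; funext ω; ring
    rw [h2]
    have h3 : 0 ≤ avm m 1 S Y y ^ 2 := sq_nonneg _
    have h4 : 0 ≤ (1 - x) * avm m 1 S Y y ^ 2 := mul_nonneg (by linarith) h3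
    have h5 : (1 - x) * avm m 1 S Y y ^ 2 ≤ avm m 1 S Y y ^ 2 := by nlinarith
    rw [← sq, abs_le]
    constructor <;> linarith
  have r1 := abs_cx_le_eg (K := K) ew hw0 (hG.eg_avR 1 bd3) (eY2.const_mul (48 * b0 ^ 2)) avb z
  have r2 := abs_cx_le_eg (K := K) ew hw0 (eg_rsg hG 1 x hY hY) (eY2.const_mul 2) rb z
  rw [cx_cmul] at r1 r2
  rw [e0, e1, abs_mul, abs_of_nonneg hx0]
  refine mul_le_mul_of_nonneg_left ((abs_add_le _ _).trans ?_) hx0
  rw [abs_mul, abs_of_nonneg (by norm_num : (0 : ℝ) ≤ 3)]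
  nlinarith

/-- **`N` against the third Hermite polynomial** -/
theorem n_h3 (hG : GM m S M0) {x η r t : ℝ} (hx0 : 0 ≤ x) (hx1 : x ≤ 1)
    (hη : 0 ≤ η) (hη1 : η ≤ 1) (hr : 0 ≤ r) (ht : 0 < t)
    (hKR : Disjoint K R) (hK : K ⊆ K') (hR : R ⊆ K') {c : ι → ℝ}
    (hc : ∑ e ∈ R, c e ^ 2 = 1) {a s X : Ω → ℝ} (ba : Bm a) (bs : Bm s) (bX : Bm X)
    (hs1 : ∀ ω, s ω ^ 2 = 1) (ha : ∀ ω, |a ω - 1| ≤ η)
    (hY : ∀ ω, YS R c S ω = s ω * X ω) (z : ι → ℝ) :
    |cx (gg ι) K (Zxm m 1 S x) (fun y => cx (gg ι) K' (Zxm m 1 S x)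
          (avm m 1 S fun ω => a ω * s ω) y * (lc R c y ^ 3 - 3 * lc R c y)) z
        - r ^ 3 * cx (gg ι) K (Zxm m 1 S x) (fun y => k0 (avm m 1 S s y)) z|
      ≤ 49 * t * cx (gg ι) K (Zxm m 1 S x) (avm m 1 S fun ω => (X ω - r) ^ 2) z
        + (19208 * cx (gg ι) K (Zxm m 1 S x) (avm m 1 S fun ω => X ω ^ 4) z + 162 * r ^ 4) / t
        + (48 * η + 28 * x) * r ^ 3 := by
  have ew := hG.eg_Zx 1 x
  have hw0 : ∀ z, 0 < Zxm m 1 S x z := fun z => Zxm_pos x z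
  have eV : EG (lc R c) := eg_lc R c
  have bas : Bm fun ω => a ω * s ω := ba.mul bs
  have b1 : Bm (fun w : Unit → Ω => a (w ()) * s (w ())) := bas.at ()
  have bY : Bm (YS R c S) := bm_YS hG R c
  have h1 := cx_N hG 1 x hKR hK hR bas (c := c) (P := fun v => v ^ 3 - 3 * v)
    ((eV.pow 3).sub (eV.const_mul 3)) z
  have uA : ∀ y, avR m 1 S Unit (fun w => a (w ()) * s (w ())) y
      = avm m 1 S (fun ω => a ω * s ω) y := fun y => hG.avR_one 1 () (fun ω => a ω * s ω) y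
  have h2 := herm3 (A := Unit) hG 1 x hKR hc b1 z
  simp only [uA, one_pow, one_mul] at h2
  have bd3 : Bm (dV x (YS R c S) (dV x (YS R c S) (dV x (YS R c S)
      fun w : Unit → Ω => a (w ()) * s (w ())))) :=
    bm_dV x bY (bm_dV x bY (bm_dV x bY b1))
  have hm1 : ∀ y, |avm m 1 S s y| ≤ 1 := fun y => by
    refine hG.abs_av_le 1 bs.1 (fun ω => ?_) y
    exact (sq_le_one_iff_abs_le_one _).1 (hs1 ω).le
  have em : EG (avm m 1 S s) := hG.eg_av 1 bs
  have ek0 : EG fun y => k0 (avm m 1 S s y) := by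
    unfold k0
    have e2 := em.pow 2
    exact ((((EG.const 1).sub e2).const_mul 2).mul ((EG.const 1).sub (e2.const_mul 3))).neg
  have ekx : EG fun y => kx x (avm m 1 S s y) := by
    unfold kx
    have e2 := em.pow 2
    have e4 := em.pow 4
    exact (((((EG.const _).add (e2.const_mul _)).add (e2.const_mul _)).add
      (e2.const_mul _)).add (e2.const_mul _)).add (e4.const_mul _)
  -- the comparison
  have bXr : Bm fun ω => (X ω - r) ^ 2 := (bX.sub (Bm.const r)).pow 2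
  have bX4 : Bm fun ω => X ω ^ 4 := bX.pow 4
  have ed : EG (avm m 1 S fun ω => (X ω - r) ^ 2) := hG.eg_av 1 bXr
  have e4 : EG (avm m 1 S fun ω => X ω ^ 4) := hG.eg_av 1 bX4
  have h3 := abs_cx_le_eg (K := K) ew hw0
    ((hG.eg_avR 1 bd3).sub (ekx.const_mul (r ^ 3)))
    (((ed.const_mul (49 * t)).add (e4.const_mul (19208 / t))).add
      (EG.const (162 * r ^ 4 / t + 48 * η * r ^ 3)))
    (fun y => by
      have h4 := avR_diff hG 1 hx0 hx1 hη hη1 hr ht ba bs bX hs1 ha hY y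
      refine h4.trans (le_of_eq ?_)
      field_simp
      ring) z
  rw [cx_add_eg ew ((ed.const_mul (49 * t)).add (e4.const_mul (19208 / t))) (EG.const _),
    cx_add_eg ew (ed.const_mul (49 * t)) (e4.const_mul (19208 / t)), cx_cmul, cx_cmul] at h3
  have c1 : cx (gg ι) K (Zxm m 1 S x) (fun _ => 162 * r ^ 4 / t + 48 * η * r ^ 3) z
      = 162 * r ^ 4 / t + 48 * η * r ^ 3 := by
    have h5 := cx_cmul K (Zxm m 1 S x) (162 * r ^ 4 / t + 48 * η * r ^ 3) (fun _ => (1 : ℝ)) z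
    rw [cx_one_eg ew hw0, mul_one] at h5
    simpa using h5
  rw [c1] at h3
  have h6 : cx (gg ι) K (Zxm m 1 S x) (fun y => avR m 1 S O4 (dV x (YS R c S)
      (dV x (YS R c S) (dV x (YS R c S) fun w : Unit → Ω => a (w ()) * s (w ())))) y
        - r ^ 3 * kx x (avm m 1 S s y)) z
      = cx (gg ι) K (Zxm m 1 S x) (avR m 1 S O4 (dV x (YS R c S)
      (dV x (YS R c S) (dV x (YS R c S) fun w : Unit → Ω => a (w ()) * s (w ()))))) z
        - r ^ 3 * cx (gg ι) K (Zxm m 1 S x) (fun y => kx x (avm m 1 S s y)) z := by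
    have f1 : (fun y => avR m 1 S O4 (dV x (YS R c S)
      (dV x (YS R c S) (dV x (YS R c S) fun w : Unit → Ω => a (w ()) * s (w ())))) y
        - r ^ 3 * kx x (avm m 1 S s y)) = fun y => avR m 1 S O4 (dV x (YS R c S)
      (dV x (YS R c S) (dV x (YS R c S) fun w : Unit → Ω => a (w ()) * s (w ())))) y
        + (-(r ^ 3)) * kx x (avm m 1 S s y) := by funext y; ring
    rw [f1, cx_add_eg ew (hG.eg_avR 1 bd3) (ekx.const_mul _), cx_cmul]
    ring
  rw [h6] at h3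
  have h7 := abs_cx_le_eg (K := K) ew hw0 (ekx.sub ek0) (EG.const (28 * x))
    (fun y => kx_sub hx0 hx1 (hm1 y)) z
  have c2 : cx (gg ι) K (Zxm m 1 S x) (fun _ => 28 * x) z = 28 * x := by
    have h5 := cx_cmul K (Zxm m 1 S x) (28 * x) (fun _ => (1 : ℝ)) z
    rw [cx_one_eg ew hw0, mul_one] at h5
    simpa using h5
  rw [c2] at h7
  have h8 : cx (gg ι) K (Zxm m 1 S x) (fun y => kx x (avm m 1 S s y) - k0 (avm m 1 S s y)) z
      = cx (gg ι) K (Zxm m 1 S x) (fun y => kx x (avm m 1 S s y)) z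
        - cx (gg ι) K (Zxm m 1 S x) (fun y => k0 (avm m 1 S s y)) z := by
    have f1 : (fun y => kx x (avm m 1 S s y) - k0 (avm m 1 S s y))
        = fun y => kx x (avm m 1 S s y) + (-1) * k0 (avm m 1 S s y) := by funext y; ring
    rw [f1, cx_add_eg ew ekx (ek0.const_mul _), cx_cmul]
    ring
  rw [h8] at h7
  rw [h1, h2]
  set P1 := cx (gg ι) K (Zxm m 1 S x) (avR m 1 S O4 (dV x (YS R c S)
      (dV x (YS R c S) (dV x (YS R c S) fun w : Unit → Ω => a (w ()) * s (w ()))))) z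
  set P2 := cx (gg ι) K (Zxm m 1 S x) (fun y => kx x (avm m 1 S s y)) z
  set P3 := cx (gg ι) K (Zxm m 1 S x) (fun y => k0 (avm m 1 S s y)) z
  set D1 := cx (gg ι) K (Zxm m 1 S x) (avm m 1 S fun ω => (X ω - r) ^ 2) z
  set D2 := cx (gg ι) K (Zxm m 1 S x) (avm m 1 S fun ω => X ω ^ 4) z
  have hr3 : 0 ≤ r ^ 3 := by positivity
  have e9 : P1 - r ^ 3 * P3 = (P1 - r ^ 3 * P2) + r ^ 3 * (P2 - P3) := by ring
  rw [e9]
  refine (abs_add_le _ _).trans ?_
  have h10 : |r ^ 3 * (P2 - P3)| ≤ r ^ 3 * (28 * x) := by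
    rw [abs_mul, abs_of_nonneg hr3]
    exact mul_le_mul_of_nonneg_left h7 hr3
  refine (add_le_add h3 h10).trans (le_of_eq ?_)
  field_simp
  ring

/-- **The Bessel lower bound of the third level**, pointwise in the frozen point. -/
theorem bes (hG : GM m S M0) {x η r t u b0 : ℝ} (hx0 : 0 ≤ x) (hx1 : x ≤ 1)
    (hη : 0 ≤ η) (hη1 : η ≤ 1) (hr : 0 ≤ r) (ht : 0 < t) (hu : 0 ≤ u) (hb0 : 0 ≤ b0)
    (hxb : x * b0 ≤ 1 / 4)
    (hKR : Disjoint K R) (hK : K ⊆ K') (hR : R ⊆ K') {c : ι → ℝ}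
    (hc : ∑ e ∈ R, c e ^ 2 = 1) {a s X : Ω → ℝ} (ba : Bm a) (bs : Bm s) (bX : Bm X)
    (hs1 : ∀ ω, s ω ^ 2 = 1) (ha : ∀ ω, |a ω - 1| ≤ η)
    (hY : ∀ ω, YS R c S ω = s ω * X ω) (hb : ∀ ω, |YS R c S ω| ≤ b0) (z : ι → ℝ) :
    r ^ 3 * |cx (gg ι) K (Zxm m 1 S x) (fun y => k0 (avm m 1 S s y)) z|
      ≤ √(40 * cx (gg ι) K (Zxm m 1 S x) (fun y => (cx (gg ι) K' (Zxm m 1 S x)
          (avm m 1 S fun ω => a ω * s ω) y - u * lc R c y) ^ 2) z)
        + 49 * t * cx (gg ι) K (Zxm m 1 S x) (avm m 1 S fun ω => (X ω - r) ^ 2) z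
        + (19208 * cx (gg ι) K (Zxm m 1 S x) (avm m 1 S fun ω => X ω ^ 4) z + 162 * r ^ 4) / t
        + (48 * η + 28 * x) * r ^ 3
        + u * (x * ((48 * b0 ^ 2 + 6) * (2 * cx (gg ι) K (Zxm m 1 S x)
          (avm m 1 S fun ω => (X ω - r) ^ 2) z + 2 * r ^ 2))) := by
  have ew := hG.eg_Zx 1 x
  have hw0 : ∀ z, 0 < Zxm m 1 S x z := fun z => Zxm_pos x z
  have eV : EG (lc R c) := eg_lc R c
  have bas : Bm fun ω => a ω * s ω := ba.mul bs
  obtain ⟨C, hC, hCb⟩ := bas.2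
  have eN : EG (cx (gg ι) K' (Zxm m 1 S x) (avm m 1 S fun ω => a ω * s ω)) :=
    eg_cx ew hw0 (hG.eg_av 1 bas) (hG.abs_av_le 1 bas.1 hCb)
  have eH : EG fun y => lc R c y ^ 3 - 3 * lc R c y := (eV.pow 3).sub (eV.const_mul 3)
  have n3 := n_h3 hG hx0 hx1 hη hη1 hr ht hKR hK hR hc ba bs bX hs1 ha hY z
  have v3 := v_h3 hG hx0 hx1 hb0 hKR hc hb z
  have cs := cs_eg (K := K) ew hw0 (eN.sub (eV.const_mul u)) eH z
  have h40 : cx (gg ι) K (Zxm m 1 S x) (fun y => (lc R c y ^ 3 - 3 * lc R c y) ^ 2) z ≤ 40 := by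
    refine h3_sq_le (L := fun e z => x * (1 * avm m 1 S (S e) z)) hKR hc hw0
      (fun e _ => pd_Zx hG 1 x e) ew
      (fun e _ => ((hG.eg_av 1 (hG.bS e)).const_mul 1).const_mul x) (fun y => ?_) z
    have h1 : ∑ e ∈ R, c e * (x * (1 * avm m 1 S (S e) y)) = x * avm m 1 S (YS R c S) y := by
      have h2 : avm m 1 S (YS R c S) y = ∑ e ∈ R, c e * avm m 1 S (S e) y := by
        unfold YS
        rw [hG.av_sum 1 R fun e _ => ((hG.bS e).const_mul (c e))]
        exact Finset.sum_congr rfl fun e _ => av_mul m 1 S (c e) (S e) y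
      rw [h2, Finset.mul_sum]
      exact Finset.sum_congr rfl fun e _ => by ring
    rw [h1, abs_mul, abs_of_nonneg hx0]
    exact (mul_le_mul_of_nonneg_left (hG.abs_av_le 1 (bm_YS hG R c).1 hb y) hx0).trans hxb
  -- the second moment of `Y`
  have bXr : Bm fun ω => (X ω - r) ^ 2 := (bX.sub (Bm.const r)).pow 2
  have ed : EG (avm m 1 S fun ω => (X ω - r) ^ 2) := hG.eg_av 1 bXr
  have bY : Bm (YS R c S) := bm_YS hG R c
  have eY2 : EG (avm m 1 S fun ω => YS R c S ω ^ 2) := hG.eg_av 1 (bY.pow 2)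
  have y2 : cx (gg ι) K (Zxm m 1 S x) (avm m 1 S fun ω => YS R c S ω ^ 2) z
      ≤ 2 * cx (gg ι) K (Zxm m 1 S x) (avm m 1 S fun ω => (X ω - r) ^ 2) z + 2 * r ^ 2 := by
    have h1 := cx_mono_eg (K := K) ew hw0 eY2 ((ed.const_mul 2).add (EG.const (2 * r ^ 2)))
      (fun y => by
        have h2 := hG.av_mono 1 (bY.pow 2) ((bXr.const_mul 2).add (Bm.const (2 * r ^ 2)))
          (fun ω => by
            rw [hY ω, mul_pow, hs1, one_mul]
            nlinarith [sq_nonneg (X ω - 2 * r)]) y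
        rw [hG.av_add 1 (bXr.const_mul 2) (Bm.const _), av_mul, hG.av_const] at h2
        exact h2) z
    rw [cx_add_eg ew (ed.const_mul 2) (EG.const _), cx_cmul] at h1
    have c2 : cx (gg ι) K (Zxm m 1 S x) (fun _ => 2 * r ^ 2) z = 2 * r ^ 2 := by
      have h5 := cx_cmul K (Zxm m 1 S x) (2 * r ^ 2) (fun _ => (1 : ℝ)) z
      rw [cx_one_eg ew hw0, mul_one] at h5
      simpa using h5
    rw [c2] at h1
    exact h1
  -- splitting
  have sp : cx (gg ι) K (Zxm m 1 S x) (fun y => (cx (gg ι) K' (Zxm m 1 S x)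
          (avm m 1 S fun ω => a ω * s ω) y - u * lc R c y)
            * (lc R c y ^ 3 - 3 * lc R c y)) z
      = cx (gg ι) K (Zxm m 1 S x) (fun y => cx (gg ι) K' (Zxm m 1 S x)
          (avm m 1 S fun ω => a ω * s ω) y * (lc R c y ^ 3 - 3 * lc R c y)) z
        - u * cx (gg ι) K (Zxm m 1 S x)
          (fun y => lc R c y * (lc R c y ^ 3 - 3 * lc R c y)) z := by
    have f1 : (fun y => (cx (gg ι) K' (Zxm m 1 S x)
          (avm m 1 S fun ω => a ω * s ω) y - u * lc R c y)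
            * (lc R c y ^ 3 - 3 * lc R c y))
        = fun y => cx (gg ι) K' (Zxm m 1 S x)
          (avm m 1 S fun ω => a ω * s ω) y * (lc R c y ^ 3 - 3 * lc R c y)
          + (-u) * (lc R c y * (lc R c y ^ 3 - 3 * lc R c y)) := by funext y; ring
    rw [f1, cx_add_eg ew (eN.mul eH) ((eV.mul eH).const_mul _), cx_cmul]
    ring
  rw [sp] at cs
  set c3 := cx (gg ι) K (Zxm m 1 S x) (fun y => (cx (gg ι) K' (Zxm m 1 S x)
          (avm m 1 S fun ω => a ω * s ω) y - u * lc R c y) ^ 2) z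
  set H2 := cx (gg ι) K (Zxm m 1 S x) (fun y => (lc R c y ^ 3 - 3 * lc R c y) ^ 2) z
  set NH := cx (gg ι) K (Zxm m 1 S x) (fun y => cx (gg ι) K' (Zxm m 1 S x)
          (avm m 1 S fun ω => a ω * s ω) y * (lc R c y ^ 3 - 3 * lc R c y)) z
  set VH := cx (gg ι) K (Zxm m 1 S x) (fun y => lc R c y * (lc R c y ^ 3 - 3 * lc R c y)) z
  set KK := cx (gg ι) K (Zxm m 1 S x) (fun y => k0 (avm m 1 S s y)) z
  set D1 := cx (gg ι) K (Zxm m 1 S x) (avm m 1 S fun ω => (X ω - r) ^ 2) z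
  set D2 := cx (gg ι) K (Zxm m 1 S x) (avm m 1 S fun ω => X ω ^ 4) z
  set Y2 := cx (gg ι) K (Zxm m 1 S x) (avm m 1 S fun ω => YS R c S ω ^ 2) z
  have c30 : 0 ≤ c3 := cx_nonneg_eg ew hw0 (fun y => sq_nonneg _) z
  have cs' : (NH - u * VH) ^ 2 ≤ 40 * c3 := cs.trans (by nlinarith)
  have cs2 : |NH - u * VH| ≤ √(40 * c3) := Real.abs_le_sqrt cs'
  have hr3 : 0 ≤ r ^ 3 := by positivity
  have g1 : r ^ 3 * |KK| = |r ^ 3 * KK| := by rw [abs_mul, abs_of_nonneg hr3]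
  have g2 : |r ^ 3 * KK| ≤ |NH - u * VH| + |u * VH| + |NH - r ^ 3 * KK| := by
    have h1 : r ^ 3 * KK = (NH - u * VH) + u * VH - (NH - r ^ 3 * KK) := by ring
    calc |r ^ 3 * KK| = |(NH - u * VH) + u * VH - (NH - r ^ 3 * KK)| := by rw [← h1]
      _ ≤ |(NH - u * VH) + u * VH| + |NH - r ^ 3 * KK| := abs_sub _ _
      _ ≤ _ := by
        have := abs_add_le (NH - u * VH) (u * VH)
        linarith
  have g3 : |u * VH| ≤ u * (x * ((48 * b0 ^ 2 + 6) * (2 * D1 + 2 * r ^ 2))) := by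
    rw [abs_mul, abs_of_nonneg hu]
    refine mul_le_mul_of_nonneg_left (v3.trans ?_) hu
    refine mul_le_mul_of_nonneg_left ?_ hx0
    exact mul_le_mul_of_nonneg_left y2 (by positivity)
  rw [g1]
  linarith

end Vale.Agent.P146.H586
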