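import Vale.Agent.P146.H586.Bes5
import Vale.Agent.P146.H161.RowAbs

set_option linter.all false

/-!
The Bessel lower bound, part 6: squared and averaged over the frozen point, in the setting of
`H161.hstar_abs` (frozen set `K`, row `R`, direction `cf z` of the row with
`Σ_{e ∈ R} cf z e * S e ω = kp * s0 ω * (τ * M(z).s ω + v)`).
-/

open MeasureTheory ProbabilityTheory Filter Topology

namespace Vale.Agent.P146.H586

open Vale.Agent.P157.Lv Vale.Agent.P146.H196 Vale.Agent.P146.H646 Vale.Agent.P146.H161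
  Vale.Agent.P146.H615

/-- optimisation in `t` -/
lemma opt_t {A B D G : ℝ} (hD : 0 ≤ D) (hG : 0 ≤ G)
    (h : ∀ t : ℝ, 0 < t → A ≤ B + (49 * t * D + G / t)) : A ≤ B + 14 * √(D * G) := by
  by_cases hAB : A ≤ B
  · have := Real.sqrt_nonneg (D * G)
    linarith
  rw [not_le] at hAB
  have hAB' : 0 < A - B := by linarith
  rcases hD.eq_or_lt with h0 | h0
  · exfalso
    have h1 := h ((G + 1) / (A - B)) (by positivity)
    rw [← h0, mul_zero, zero_add] at h1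
    have h2 : G / ((G + 1) / (A - B)) < A - B := by
      rw [div_div_eq_mul_div, div_lt_iff₀ (by linarith)]
      nlinarith
    linarith
  · have h1 := h ((A - B) / (98 * D)) (by positivity)
    have h2 : 49 * ((A - B) / (98 * D)) * D = (A - B) / 2 := by
      field_simp
      ring
    have h3 : G / ((A - B) / (98 * D)) = 98 * (D * G) / (A - B) := by
      field_simp
    rw [h2, h3] at h1
    have h4 : (A - B) / 2 ≤ 98 * (D * G) / (A - B) := by linarith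
    rw [le_div_iff₀ hAB'] at h4
    have h5 : (A - B) ^ 2 ≤ 14 ^ 2 * (D * G) := by nlinarith
    have h6 : A - B ≤ √(14 ^ 2 * (D * G)) := Real.le_sqrt_of_sq_le h5
    rw [Real.sqrt_mul (by norm_num), Real.sqrt_sq (by norm_num)] at h6
    linarith

/-- the square of a sum of four terms -/
lemma sq4 {A a b c d : ℝ} (hA : 0 ≤ A) (h : A ≤ a + b + c + d) :
    A ^ 2 ≤ 4 * (a ^ 2 + b ^ 2 + c ^ 2 + d ^ 2) := by
  have h1 : A ^ 2 ≤ (a + b + c + d) ^ 2 := by
    apply pow_le_pow_left₀ hA h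
  nlinarith [sq_nonneg (a - b), sq_nonneg (a - c), sq_nonneg (a - d), sq_nonneg (b - c),
    sq_nonneg (b - d), sq_nonneg (c - d)]

variable {ι : Type} [Fintype ι] [DecidableEq ι] {Ω : Type} [MeasurableSpace Ω]
  {m : Measure Ω} {S : ι → Ω → ℝ} {M0 : ℝ} {K K' R : Finset ι}
  {I : Type*} {T : Finset I} {M : I → (ι → ℝ) → ℝ}
  {s : I → Ω → ℝ} {s0 a : Ω → ℝ} {x τ v kp η b0 : ℝ}

/-- `⟨(τ M.s + v)^4⟩` -/
noncomputable def P4 (av : (Ω → ℝ) → (ι → ℝ) → ℝ) (T : Finset I) (M : I → (ι → ℝ) → ℝ)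
    (s : I → Ω → ℝ) (τ v : ℝ) (z : ι → ℝ) : ℝ :=
  av (fun ω => (τ * ms T M s z ω + v) ^ 4) z

/-- **The pointwise square of the Bessel bound** at a point with `Y > 0`. -/
theorem bes_pt (hG : GM m S M0) (hx0 : 0 ≤ x) (hx1 : x ≤ 1) (hη : 0 ≤ η) (hη1 : η ≤ 1)
    (hb0 : 0 ≤ b0) (hxb : x * b0 ≤ 1 / 4) (hkp : 0 < kp)
    (hKR : Disjoint K R) (hK : K ⊆ K') (hR : R ⊆ K')
    (hs : ∀ j, Bd (s j)) (hs0 : Bd s0) (hs1 : ∀ ω, s0 ω ^ 2 = 1) (ha : Bd a)
    (haη : ∀ ω, |a ω - 1| ≤ η) (hMd : ∀ j, H646.Dep K (M j))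
    (cf : (ι → ℝ) → ι → ℝ)
    (hY : ∀ z ω, YS R (cf z) S ω = kp * (s0 ω * (τ * ms T M s z ω + v)))
    (hc : ∀ z, ∑ e ∈ R, cf z e ^ 2 = kp ^ 2 * Yf T M τ v z)
    (hb : ∀ ω, ∑ e ∈ R, S e ω ^ 2 ≤ b0 ^ 2) (z : ι → ℝ) {D X : ℝ}
    (hY0 : 0 ≤ Yf T M τ v z) (hD0 : 0 ≤ D) (hX0 : 0 ≤ X)
    (hD : τ ^ 2 * cx (gg ι) K (Zxm m 1 S x) (Vt (avm m 1 S) T M s) z ≤ D * Yf T M τ v z)
    (hX : cx (gg ι) K (Zxm m 1 S x) (P4 (avm m 1 S) T M s τ v) z ≤ X * Yf T M τ v z ^ 2) :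
    Yf T M τ v z ^ 3 * cx (gg ι) K (Zxm m 1 S x) (fun y => k0 (avm m 1 S s0 y)) z ^ 2 ≤
      160 * cx (gg ι) K (Zxm m 1 S x) (fun y =>
        (cx (gg ι) K' (Zxm m 1 S x) (avm m 1 S (fun ω => a ω * s0 ω)) y - lc R (cf z) y) ^ 2) z
      + 784 * (D * (19208 * X + 162 * Yf T M τ v z ^ 2))
      + 4 * ((48 * η + 28 * x) ^ 2 * Yf T M τ v z ^ 3)
      + 4 * (kp ^ 2 * Yf T M τ v z *
        (x * ((48 * b0 ^ 2 + 6) * (2 * D + 2 * Yf T M τ v z))) ^ 2) := by
  set w := Zxm m 1 S x with hwdef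
  have hw : Wt (gg ι) w := hG.wt 1 x
  have hA := av_avm hG 1
  set Y := Yf T M τ v z with hYdef
  set c3 := cx (gg ι) K w (fun y => (cx (gg ι) K' w (avm m 1 S (fun ω => a ω * s0 ω)) y -
    lc R (cf z) y) ^ 2) z with hc3
  have ew := hG.eg_Zx 1 x
  have hw0 : ∀ z, 0 < w z := fun z => Zxm_pos x z
  have hc30 : 0 ≤ c3 := cx_nonneg_eg ew hw0 (fun y => sq_nonneg _) z
  rcases hY0.eq_or_lt with h0 | h0
  · rw [← h0]
    have : 0 ≤ D * X := mul_nonneg hD0 hX0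
    nlinarith
  -- the direction
  set r := √Y with hr
  have hr0 : 0 < r := Real.sqrt_pos.2 h0
  have hr2 : r ^ 2 = Y := Real.sq_sqrt h0.le
  have hkr : 0 < kp * r := mul_pos hkp hr0
  set c : ι → ℝ := fun e => cf z e / (kp * r) with hcdef
  set Xf : Ω → ℝ := fun ω => (τ * ms T M s z ω + v) / r with hXf
  have hc1 : ∑ e ∈ R, c e ^ 2 = 1 := by
    have e1 : ∀ e, c e ^ 2 = cf z e ^ 2 / (kp ^ 2 * Y) := fun e => by
      rw [hcdef]
      show (cf z e / (kp * r)) ^ 2 = _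
      rw [div_pow, mul_pow, hr2]
    simp only [e1]
    rw [← Finset.sum_div, hc z]
    exact div_self (by positivity)
  have hYc : ∀ ω, YS R c S ω = s0 ω * Xf ω := by
    intro ω
    have e1 : YS R c S ω = YS R (cf z) S ω / (kp * r) := by
      unfold YS
      rw [Finset.sum_div]
      exact Finset.sum_congr rfl fun e _ => by rw [hcdef]; ring
    rw [e1, hY z ω, hXf]
    show kp * (s0 ω * (τ * ms T M s z ω + v)) / (kp * r) = s0 ω * ((τ * ms T M s z ω + v) / r)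
    rw [mul_div_mul_left _ _ hkp.ne', mul_div_assoc]
  have hbc : ∀ ω, |YS R c S ω| ≤ b0 := by
    intro ω
    have h1 : YS R c S ω ^ 2 ≤ (∑ e ∈ R, c e ^ 2) * ∑ e ∈ R, S e ω ^ 2 := by
      unfold YS
      exact Finset.sum_mul_sq_le_sq_mul_sq R c fun e => S e ω
    rw [hc1, one_mul] at h1
    exact abs_le_of_sq_le_sq (h1.trans (hb ω)) hb0
  have bX : Bm Xf := by
    have h1 : Bd fun ω => (1 / r) * (τ * ms T M s z ω + v) :=
      (((bd_ms (S := T) (M := M) hs z).cmul τ).add (Bd.const v)).cmul _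
    have e : Xf = fun ω => (1 / r) * (τ * ms T M s z ω + v) := by
      funext ω
      rw [hXf]
      ring
    rw [e]
    exact h1
  have hlc : ∀ y, kp * r * lc R c y = lc R (cf z) y := by
    intro y
    unfold lc
    rw [Finset.mul_sum]
    refine Finset.sum_congr rfl fun e _ => ?_
    rw [hcdef]
    show kp * r * (cf z e / (kp * r) * y e) = cf z e * y e
    field_simp
  -- the two moments
  have e1 : cx (gg ι) K w (avm m 1 S fun ω => (Xf ω - r) ^ 2) z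
      = τ ^ 2 / Y * cx (gg ι) K w (Vt (avm m 1 S) T M s) z := by
    rw [← cx_const_mul hw]
    refine cx_congr_glue w fun y => ?_
    have e : (fun ω => (Xf ω - r) ^ 2) =
        fun ω => (τ ^ 2 / Y) * (ms T M s (glue K z y) ω - m2 T M (glue K z y)) ^ 2 := by
      funext ω
      rw [ms_glue hMd, m2_glue hMd, hXf]
      show ((τ * ms T M s z ω + v) / r - r) ^ 2 = _
      have h2 : (τ * ms T M s z ω + v) / r - r = τ * (ms T M s z ω - m2 T M z) / r := by
        rw [eq_div_iff hr0.ne', sub_mul, div_mul_cancel₀ _ hr0.ne', ← sq, hr2, hYdef]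
        unfold Yf
        ring
      rw [h2, div_pow, mul_pow, hr2]
      ring
    rw [e, hA.smul]
    rfl
  have e2 : cx (gg ι) K w (avm m 1 S fun ω => Xf ω ^ 4) z
      = 1 / Y ^ 2 * cx (gg ι) K w (P4 (avm m 1 S) T M s τ v) z := by
    rw [← cx_const_mul hw]
    refine cx_congr_glue w fun y => ?_
    have e : (fun ω => Xf ω ^ 4) =
        fun ω => (1 / Y ^ 2) * (τ * ms T M s (glue K z y) ω + v) ^ 4 := by
      funext ω
      rw [ms_glue hMd, hXf]
      show ((τ * ms T M s z ω + v) / r) ^ 4 = _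
      rw [div_pow, show r ^ 4 = Y ^ 2 by rw [← hr2]; ring]
      ring
    rw [e, hA.smul]
    rfl
  have d1 : cx (gg ι) K w (avm m 1 S fun ω => (Xf ω - r) ^ 2) z ≤ D := by
    rw [e1, div_mul_eq_mul_div, div_le_iff₀ h0]
    exact hD
  have d2 : cx (gg ι) K w (avm m 1 S fun ω => Xf ω ^ 4) z ≤ X := by
    rw [e2, one_div, inv_mul_eq_div, div_le_iff₀ (by positivity)]
    exact hX
  have d10 : 0 ≤ cx (gg ι) K w (avm m 1 S fun ω => (Xf ω - r) ^ 2) z := by
    refine cx_nonneg_eg ew hw0 (fun y => ?_) z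
    exact hA.nonneg ((show Bd Xf from bX).sub (Bd.const r)).sq (fun ω => sq_nonneg _) y
  set kb := cx (gg ι) K w (fun y => k0 (avm m 1 S s0 y)) z with hkb
  have key := opt_t (A := r ^ 3 * |kb|)
    (B := √(40 * c3) + (48 * η + 28 * x) * r ^ 3 +
      kp * r * (x * ((48 * b0 ^ 2 + 6) * (2 * D + 2 * Y)))) (D := D)
    (G := 19208 * X + 162 * Y ^ 2) hD0 (by positivity) (fun t ht => by
      have h1 := bes (K := K) (K' := K') (R := R) hG (r := r) (t := t) (u := kp * r) hx0 hx1 hη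
        hη1 hr0.le ht hkr.le hb0 hxb hKR hK hR (c := c) hc1 (a := a) (s := s0) (X := Xf)
        (show Bm a from ha) (show Bm s0 from hs0) bX hs1 haη hYc hbc z
      rw [← hwdef] at h1
      have e3 : (fun y => (cx (gg ι) K' w (avm m 1 S fun ω => a ω * s0 ω) y -
          kp * r * lc R c y) ^ 2) = fun y => (cx (gg ι) K' w
            (avm m 1 S (fun ω => a ω * s0 ω)) y - lc R (cf z) y) ^ 2 := by
        funext y
        rw [hlc]
      rw [e3, ← hc3, ← hkb] at h1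
      refine h1.trans ?_
      have hr4 : r ^ 4 = Y ^ 2 := by rw [← hr2]; ring
      rw [hr4, hr2]
      have t1 : 49 * t * cx (gg ι) K w (avm m 1 S fun ω => (Xf ω - r) ^ 2) z ≤ 49 * t * D :=
        mul_le_mul_of_nonneg_left d1 (by positivity)
      have t2 : (19208 * cx (gg ι) K w (avm m 1 S fun ω => Xf ω ^ 4) z + 162 * Y ^ 2) / t ≤
          (19208 * X + 162 * Y ^ 2) / t := by
        apply div_le_div_of_nonneg_right _ ht.le
        linarith
      have t3 : kp * r * (x * ((48 * b0 ^ 2 + 6) *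
          (2 * cx (gg ι) K w (avm m 1 S fun ω => (Xf ω - r) ^ 2) z + 2 * Y))) ≤
          kp * r * (x * ((48 * b0 ^ 2 + 6) * (2 * D + 2 * Y))) := by
        refine mul_le_mul_of_nonneg_left ?_ hkr.le
        refine mul_le_mul_of_nonneg_left ?_ hx0
        exact mul_le_mul_of_nonneg_left (by linarith) (by positivity)
      linarith)
  have hA0 : 0 ≤ r ^ 3 * |kb| := by positivity
  have k2 := sq4 (A := r ^ 3 * |kb|) (a := √(40 * c3))
    (b := 14 * √(D * (19208 * X + 162 * Y ^ 2))) (c := (48 * η + 28 * x) * r ^ 3)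
    (d := kp * r * (x * ((48 * b0 ^ 2 + 6) * (2 * D + 2 * Y)))) hA0 (by linarith)
  have hr6 : r ^ 6 = Y ^ 3 := by rw [← hr2]; ring
  have f1 : (r ^ 3 * |kb|) ^ 2 = Y ^ 3 * kb ^ 2 := by
    rw [mul_pow, sq_abs, ← hr6]; ring
  have f2 : √(40 * c3) ^ 2 = 40 * c3 := Real.sq_sqrt (by positivity)
  have f3 : (14 * √(D * (19208 * X + 162 * Y ^ 2))) ^ 2 = 196 * (D * (19208 * X + 162 * Y ^ 2)) := by
    rw [mul_pow, Real.sq_sqrt (by positivity)]; ring
  have f4 : ((48 * η + 28 * x) * r ^ 3) ^ 2 = (48 * η + 28 * x) ^ 2 * Y ^ 3 := by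
    rw [mul_pow, ← hr6]; ring
  have f5 : (kp * r * (x * ((48 * b0 ^ 2 + 6) * (2 * D + 2 * Y)))) ^ 2 =
      kp ^ 2 * Y * (x * ((48 * b0 ^ 2 + 6) * (2 * D + 2 * Y))) ^ 2 := by
    rw [mul_pow, mul_pow, hr2]
  rw [f1, f2, f3, f4, f5] at k2
  linarith

end Vale.Agent.P146.H586
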