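import Vale.Agent.P146.H586.Bes6

set_option linter.all false

/-!
The Bessel lower bound, part 7: the averaged form
`ex (Y^3 κ^2) ≤ 160 c3 + error`.
-/

open MeasureTheory ProbabilityTheory Filter Topology

namespace Vale.Agent.P146.H586

open Vale.Agent.P157.Lv Vale.Agent.P146.H196 Vale.Agent.P146.H646 Vale.Agent.P146.H161
  Vale.Agent.P146.H615

variable {ι : Type} [Fintype ι] [DecidableEq ι] {Ω : Type} [MeasurableSpace Ω]
  {m : Measure Ω} {S : ι → Ω → ℝ} {M0 : ℝ} {K K' R : Finset ι}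
  {I : Type*} {T : Finset I} {M : I → (ι → ℝ) → ℝ}
  {s : I → Ω → ℝ} {s0 a : Ω → ℝ} {x τ v kp η b0 : ℝ}

/-- the remaining square is a bounded measurable function -/
theorem bm_rem (hG : GM m S M0) (x : ℝ) (hKR : Disjoint K R) (hK : K ⊆ K') (hR : R ⊆ K')
    (hs : ∀ j, Bd (s j)) (hs0 : Bd s0) (hs1 : ∀ ω, s0 ω ^ 2 = 1) (ha : Bd a)
    (hM : ∀ j, BM (M j)) (hMd : ∀ j, H646.Dep K (M j)) (τ v kp : ℝ)
    (cf : (ι → ℝ) → ι → ℝ)
    (hY : ∀ z ω, YS R (cf z) S ω = kp * (s0 ω * (τ * ms T M s z ω + v)))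
    (hc : ∀ z, ∑ e ∈ R, cf z e ^ 2 = kp ^ 2 * Yf T M τ v z) :
    BM fun z => cx (gg ι) K (Zxm m 1 S x) (fun y =>
        (cx (gg ι) K' (Zxm m 1 S x) (avm m 1 S (fun ω => a ω * s0 ω)) y -
          lc R (cf z) y) ^ 2) z := by
  set w := Zxm m 1 S x with hwdef
  have hw : Wt (gg ι) w := hG.wt 1 x
  have hA := av_avm hG 1
  have bN : BM (cx (gg ι) K' w (avm m 1 S (fun ω => a ω * s0 ω))) :=
    hw.bm_cx K' (hG.bm_avm 1 (ha.mul hs0))
  set N := cx (gg ι) K' w (avm m 1 S (fun ω => a ω * s0 ω)) with hN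
  set F : (ι → ℝ) → ℝ := fun y => τ * (∑ j ∈ T, M j y * Th (avm m 1 S) x a s0 s j y) +
    v * Tf (avm m 1 S) x a s0 y with hF
  set Qf : (ι → ℝ) → ℝ := fun y => Pt (avm m 1 S) T M s τ v y -
    (1 - x) * Rt (avm m 1 S) T M s0 s τ v y ^ 2 with hQf
  have bTh : BM fun y => ∑ j ∈ T, M j y * Th (avm m 1 S) x a s0 s j y :=
    BM.sum T fun j _ => (hM j).mul (bm_Th hA hs hM ha hs0 x j)
  have bTf : BM (Tf (avm m 1 S) x a s0) := bm_Tf hA ha hs0 x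
  have bF : BM F := (bcm τ bTh).add (bcm v bTf)
  have bP : BM (Pt (avm m 1 S) T M s τ v) := bm_Pt hA hs hM τ v
  have bR : BM (fun y => Rt (avm m 1 S) T M s0 s τ v y ^ 2) := bsq (bm_Rt hA hs hM hs0 τ v)
  have bQ : BM Qf := bP.sub (bcm (1 - x) bR)
  have bYf : BM (Yf T M τ v) := bm_Y hA hs hM τ v
  have key : ∀ z, cx (gg ι) K w (fun y => N y ^ 2) z
      = 2 * (kp * cx (gg ι) K w F z) - kp ^ 2 * Yf T M τ v z
        - x * kp ^ 2 * cx (gg ι) K w Qf z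
        + cx (gg ι) K w (fun y => (N y - lc R (cf z) y) ^ 2) z := by
    intro z
    have h0 := row_star (K := K) (K' := K') (R := R) hG 1 x hKR hK hR
      (h := fun ω => a ω * s0 ω) (ha.mul hs0) (cf z) z
    have h1 : cx (gg ι) K w (rsg m 1 S x (fun ω => a ω * s0 ω) (YS R (cf z) S)) z
        = kp * cx (gg ι) K w F z := by
      rw [← cx_const_mul hw]
      refine cx_congr_glue w fun y => ?_
      exact rsg_eq hG hs hs0 hs1 ha x τ v kp z (glue K z y) (hY z)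
        (fun ω => ms_glue hMd z y ω) (fun j => hMd j z y)
    have h2 : cx (gg ι) K w (qdg m 1 S x (YS R (cf z) S)) z
        = kp ^ 2 * cx (gg ι) K w Qf z := by
      rw [← cx_const_mul hw]
      refine cx_congr_glue w fun y => ?_
      exact qdg_eq hG hs1 x τ v kp z (glue K z y) (hY z) (fun ω => ms_glue hMd z y ω)
    rw [← hwdef, ← hN, h1, h2, hc] at h0
    rw [h0]
    ring
  have bN2 : BM fun y => N y ^ 2 := bsq bN
  have bcN := hw.bm_cx K bN2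
  have bcF := hw.bm_cx K bF
  have bcQ := hw.bm_cx K bQ
  have e : (fun z => cx (gg ι) K w (fun y => (N y - lc R (cf z) y) ^ 2) z) =
      fun z => ((cx (gg ι) K w (fun y => N y ^ 2) z
        - (2 * kp) * cx (gg ι) K w F z) + kp ^ 2 * Yf T M τ v z)
          + (x * kp ^ 2) * cx (gg ι) K w Qf z := by
    funext z
    rw [key z]
    ring
  rw [e]
  exact ((bcN.sub (bcm (2 * kp) bcF)).add (bcm (kp ^ 2) bYf)).add (bcm (x * kp ^ 2) bcQ)

/-- the fourth cumulant of the row spin is bounded measurable -/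
lemma bm_k0 (hG : GM m S M0) (hs0 : Bd s0) : BM fun y => k0 (avm m 1 S s0 y) := by
  have h : BM (avm m 1 S s0) := hG.bm_avm 1 hs0
  have e : (fun y => k0 (avm m 1 S s0 y)) = fun y =>
      (-2) * (((fun _ => (1 : ℝ)) y - avm m 1 S s0 y ^ 2) *
        ((fun _ => (1 : ℝ)) y - 3 * avm m 1 S s0 y ^ 2)) := by
    funext y
    unfold k0
    ring
  rw [e]
  exact bcm _ (((BM.const 1).sub (bsq h)).mul ((BM.const 1).sub (bcm 3 (bsq h))))

/-- **The averaged Bessel bound.** -/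
theorem bes_ex (hG : GM m S M0) (hx0 : 0 ≤ x) (hx1 : x ≤ 1) (hη : 0 ≤ η) (hη1 : η ≤ 1)
    (hb0 : 0 ≤ b0) (hxb : x * b0 ≤ 1 / 4) (hkp : 0 < kp) (hτ : 0 ≤ τ) (hv : 0 ≤ v)
    (hKR : Disjoint K R) (hK : K ⊆ K') (hR : R ⊆ K')
    (hs : ∀ j, Bd (s j)) (hs0 : Bd s0) (hs1 : ∀ ω, s0 ω ^ 2 = 1) (ha : Bd a)
    (haη : ∀ ω, |a ω - 1| ≤ η) (hM : ∀ j, BM (M j)) (hMd : ∀ j, H646.Dep K (M j))
    (cf : (ι → ℝ) → ι → ℝ)
    (hY : ∀ z ω, YS R (cf z) S ω = kp * (s0 ω * (τ * ms T M s z ω + v)))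
    (hc : ∀ z, ∑ e ∈ R, cf z e ^ 2 = kp ^ 2 * Yf T M τ v z)
    (hb : ∀ ω, ∑ e ∈ R, S e ω ^ 2 ≤ b0 ^ 2)
    {dl x4 : (ι → ℝ) → ℝ} (bdl : BM dl) (bx4 : BM x4) (hdl0 : ∀ z, 0 ≤ dl z)
    (hx40 : ∀ z, 0 ≤ x4 z)
    (hdl : ∀ z, τ ^ 2 * cx (gg ι) K (Zxm m 1 S x) (Vt (avm m 1 S) T M s) z ≤
      dl z * Yf T M τ v z)
    (hx4 : ∀ z, cx (gg ι) K (Zxm m 1 S x) (P4 (avm m 1 S) T M s τ v) z ≤
      x4 z * Yf T M τ v z ^ 2) :
    ex (gg ι) (Zxm m 1 S x) (fun z => Yf T M τ v z ^ 3 *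
        cx (gg ι) K (Zxm m 1 S x) (fun y => k0 (avm m 1 S s0 y)) z ^ 2) ≤
      160 * ex (gg ι) (Zxm m 1 S x) (fun z => cx (gg ι) K (Zxm m 1 S x) (fun y =>
        (cx (gg ι) K' (Zxm m 1 S x) (avm m 1 S (fun ω => a ω * s0 ω)) y -
          lc R (cf z) y) ^ 2) z)
      + 784 * ex (gg ι) (Zxm m 1 S x) (fun z => dl z * (19208 * x4 z +
          162 * Yf T M τ v z ^ 2))
      + 4 * ((48 * η + 28 * x) ^ 2 *
          ex (gg ι) (Zxm m 1 S x) (fun z => Yf T M τ v z ^ 3))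
      + 16 * (kp ^ 2 * (x * (48 * b0 ^ 2 + 6)) ^ 2 *
          ex (gg ι) (Zxm m 1 S x) (fun z => Yf T M τ v z * (dl z + Yf T M τ v z) ^ 2)) := by
  set w := Zxm m 1 S x with hwdef
  have hw : Wt (gg ι) w := hG.wt 1 x
  have hA := av_avm hG 1
  have bY : BM (Yf T M τ v) := bm_Y hA hs hM τ v
  have bR := bm_rem (K := K) (K' := K') (R := R) hG x hKR hK hR hs hs0 hs1 ha hM hMd τ v kp cf
    hY hc
  rw [← hwdef] at bR
  have bk := hw.bm_cx K (bm_k0 hG hs0)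
  have bY3 : BM fun z => Yf T M τ v z ^ 3 := by
    have e : (fun z => Yf T M τ v z ^ 3) = fun z => Yf T M τ v z * Yf T M τ v z ^ 2 := by
      funext z; ring
    rw [e]
    exact bY.mul (bsq bY)
  have b2 : BM fun z => dl z * (19208 * x4 z + 162 * Yf T M τ v z ^ 2) :=
    bdl.mul ((bcm _ bx4).add (bcm _ (bsq bY)))
  have b4 : BM fun z => Yf T M τ v z * (dl z + Yf T M τ v z) ^ 2 :=
    bY.mul (bsq (bdl.add bY))
  have h1 := ex_mono hw (bY3.mul (bsq bk))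
    ((((bcm 160 bR).add (bcm 784 b2)).add (bcm (4 * (48 * η + 28 * x) ^ 2) bY3)).add
      (bcm (16 * (kp ^ 2 * (x * (48 * b0 ^ 2 + 6)) ^ 2)) b4)) (fun z => by
      have hY0 := Y_nonneg (S := T) (M := M) hτ hv z
      have h2 := bes_pt (K := K) (K' := K') (R := R) (M := M) (T := T) (s := s) hG hx0 hx1 hη
        hη1 hb0 hxb hkp hKR hK hR hs hs0 hs1 ha haη hMd cf hY hc hb z hY0 (hdl0 z) (hx40 z)
        (hdl z) (hx4 z)
      rw [← hwdef] at h2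
      refine h2.trans (le_of_eq ?_)
      ring)
  rw [ex_add hw (((bcm 160 bR).add (bcm 784 b2)).add (bcm (4 * (48 * η + 28 * x) ^ 2) bY3))
      (bcm (16 * (kp ^ 2 * (x * (48 * b0 ^ 2 + 6)) ^ 2)) b4),
    ex_add hw ((bcm 160 bR).add (bcm 784 b2)) (bcm (4 * (48 * η + 28 * x) ^ 2) bY3),
    ex_add hw (bcm 160 bR) (bcm 784 b2), ex_cmul, ex_cmul, ex_cmul, ex_cmul] at h1
  linarith

end Vale.Agent.P146.H586
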