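import Vale.Agent.P146.H586.Bes7

set_option linter.all false

/-!
The Bessel lower bound, part 8: the same with the two moment inputs in the literal form of
`H463.dl2_le`, `H463.x4_le`.
-/

open MeasureTheory ProbabilityTheory Filter Topology

namespace Vale.Agent.P146.H586

open Vale.Agent.P157.Lv Vale.Agent.P146.H196 Vale.Agent.P146.H646 Vale.Agent.P146.H161
  Vale.Agent.P146.H615

variable {ι : Type} [Fintype ι] [DecidableEq ι] {Ω : Type} [MeasurableSpace Ω]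
  {m : Measure Ω} {S : ι → Ω → ℝ} {M0 : ℝ} {K K' R : Finset ι}
  {I : Type*} {T : Finset I} {M : I → (ι → ℝ) → ℝ}
  {s : I → Ω → ℝ} {s0 a : Ω → ℝ} {x τ v kp η b0 : ℝ}

/-- **The pointwise square of the Bessel bound** at a point with `Y > 0`. -/
theorem bes_ptx (hG : GM m S M0) (hx0 : 0 ≤ x) (hx1 : x ≤ 1) (hη : 0 ≤ η) (hη1 : η ≤ 1)
    (hb0 : 0 ≤ b0) (hxb : x * b0 ≤ 1 / 4) (hkp : 0 < kp)
    (hKR : Disjoint K R) (hK : K ⊆ K') (hR : R ⊆ K')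
    (hs : ∀ j, Bd (s j)) (hs0 : Bd s0) (hs1 : ∀ ω, s0 ω ^ 2 = 1) (ha : Bd a)
    (haη : ∀ ω, |a ω - 1| ≤ η) 
    (cf : (ι → ℝ) → ι → ℝ)
    (hY : ∀ z ω, YS R (cf z) S ω = kp * (s0 ω * (τ * ms T M s z ω + v)))
    (hc : ∀ z, ∑ e ∈ R, cf z e ^ 2 = kp ^ 2 * Yf T M τ v z)
    (hb : ∀ ω, ∑ e ∈ R, S e ω ^ 2 ≤ b0 ^ 2) (z : ι → ℝ) {D X : ℝ}
    (hY0 : 0 ≤ Yf T M τ v z) (hD0 : 0 ≤ D) (hX0 : 0 ≤ X)
    (hD : cx (gg ι) K (Zxm m 1 S x) (avm m 1 S fun ω =>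
      ((τ * ms T M s z ω + v) / √(Yf T M τ v z) - √(Yf T M τ v z)) ^ 2) z ≤ D)
    (hX : cx (gg ι) K (Zxm m 1 S x) (avm m 1 S fun ω =>
      ((τ * ms T M s z ω + v) / √(Yf T M τ v z)) ^ 4) z ≤ X) :
    Yf T M τ v z ^ 3 * cx (gg ι) K (Zxm m 1 S x) (fun y => k0 (avm m 1 S s0 y)) z ^ 2 ≤
      160 * cx (gg ι) K (Zxm m 1 S x) (fun y =>
        (cx (gg ι) K' (Zxm m 1 S x) (avm m 1 S (fun ω => a ω * s0 ω)) y - lc R (cf z) y) ^ 2) z
      + 784 * (D * (19208 * X + 162 * Yf T M τ v z ^ 2))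
      + 4 * ((48 * η + 28 * x) ^ 2 * Yf T M τ v z ^ 3)
      + 4 * (kp ^ 2 * Yf T M τ v z *
        (x * ((48 * b0 ^ 2 + 6) * (2 * D + 2 * Yf T M τ v z))) ^ 2) := by
  set w := Zxm m 1 S x with hwdef
  have hw : Wt (gg ι) w := hG.wt 1 x
  have hA := av_avm hG 1
  set Y := Yf T M τ v z with hYdef
  set c3 := cx (gg ι) K w (fun y => (cx (gg ι) K' w (avm m 1 S (fun ω => a ω * s0 ω)) y -
    lc R (cf z) y) ^ 2) z with hc3
  have ew := hG.eg_Zx 1 x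
  have hw0 : ∀ z, 0 < w z := fun z => Zxm_pos x z
  have hc30 : 0 ≤ c3 := cx_nonneg_eg ew hw0 (fun y => sq_nonneg _) z
  rcases hY0.eq_or_lt with h0 | h0
  · rw [← h0]
    have : 0 ≤ D * X := mul_nonneg hD0 hX0
    nlinarith
  -- the direction
  set r := √Y with hr
  have hr0 : 0 < r := Real.sqrt_pos.2 h0
  have hr2 : r ^ 2 = Y := Real.sq_sqrt h0.le
  have hkr : 0 < kp * r := mul_pos hkp hr0
  set c : ι → ℝ := fun e => cf z e / (kp * r) with hcdef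
  set Xf : Ω → ℝ := fun ω => (τ * ms T M s z ω + v) / r with hXf
  have hc1 : ∑ e ∈ R, c e ^ 2 = 1 := by
    have e1 : ∀ e, c e ^ 2 = cf z e ^ 2 / (kp ^ 2 * Y) := fun e => by
      rw [hcdef]
      show (cf z e / (kp * r)) ^ 2 = _
      rw [div_pow, mul_pow, hr2]
    simp only [e1]
    rw [← Finset.sum_div, hc z]
    exact div_self (by positivity)
  have hYc : ∀ ω, YS R c S ω = s0 ω * Xf ω := by
    intro ω
    have e1 : YS R c S ω = YS R (cf z) S ω / (kp * r) := by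
      unfold YS
      rw [Finset.sum_div]
      exact Finset.sum_congr rfl fun e _ => by rw [hcdef]; ring
    rw [e1, hY z ω, hXf]
    show kp * (s0 ω * (τ * ms T M s z ω + v)) / (kp * r) = s0 ω * ((τ * ms T M s z ω + v) / r)
    rw [mul_div_mul_left _ _ hkp.ne', mul_div_assoc]
  have hbc : ∀ ω, |YS R c S ω| ≤ b0 := by
    intro ω
    have h1 : YS R c S ω ^ 2 ≤ (∑ e ∈ R, c e ^ 2) * ∑ e ∈ R, S e ω ^ 2 := by
      unfold YS
      exact Finset.sum_mul_sq_le_sq_mul_sq R c fun e => S e ω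
    rw [hc1, one_mul] at h1
    exact abs_le_of_sq_le_sq (h1.trans (hb ω)) hb0
  have bX : Bm Xf := by
    have h1 : Bd fun ω => (1 / r) * (τ * ms T M s z ω + v) :=
      (((bd_ms (S := T) (M := M) hs z).cmul τ).add (Bd.const v)).cmul _
    have e : Xf = fun ω => (1 / r) * (τ * ms T M s z ω + v) := by
      funext ω
      rw [hXf]
      ring
    rw [e]
    exact h1
  have hlc : ∀ y, kp * r * lc R c y = lc R (cf z) y := by
    intro y
    unfold lc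
    rw [Finset.mul_sum]
    refine Finset.sum_congr rfl fun e _ => ?_
    rw [hcdef]
    show kp * r * (cf z e / (kp * r) * y e) = cf z e * y e
    field_simp
  -- the two moments
  have d1 : cx (gg ι) K w (avm m 1 S fun ω => (Xf ω - r) ^ 2) z ≤ D := hD
  have d2 : cx (gg ι) K w (avm m 1 S fun ω => Xf ω ^ 4) z ≤ X := hX
  have d10 : 0 ≤ cx (gg ι) K w (avm m 1 S fun ω => (Xf ω - r) ^ 2) z := by
    refine cx_nonneg_eg ew hw0 (fun y => ?_) z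
    exact hA.nonneg ((show Bd Xf from bX).sub (Bd.const r)).sq (fun ω => sq_nonneg _) y
  set kb := cx (gg ι) K w (fun y => k0 (avm m 1 S s0 y)) z with hkb
  have key := opt_t (A := r ^ 3 * |kb|)
    (B := √(40 * c3) + (48 * η + 28 * x) * r ^ 3 +
      kp * r * (x * ((48 * b0 ^ 2 + 6) * (2 * D + 2 * Y)))) (D := D)
    (G := 19208 * X + 162 * Y ^ 2) hD0 (by positivity) (fun t ht => by
      have h1 := bes (K := K) (K' := K') (R := R) hG (r := r) (t := t) (u := kp * r) hx0 hx1 hη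
        hη1 hr0.le ht hkr.le hb0 hxb hKR hK hR (c := c) hc1 (a := a) (s := s0) (X := Xf)
        (show Bm a from ha) (show Bm s0 from hs0) bX hs1 haη hYc hbc z
      rw [← hwdef] at h1
      have e3 : (fun y => (cx (gg ι) K' w (avm m 1 S fun ω => a ω * s0 ω) y -
          kp * r * lc R c y) ^ 2) = fun y => (cx (gg ι) K' w
            (avm m 1 S (fun ω => a ω * s0 ω)) y - lc R (cf z) y) ^ 2 := by
        funext y
        rw [hlc]
      rw [e3, ← hc3, ← hkb] at h1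
      refine h1.trans ?_
      have hr4 : r ^ 4 = Y ^ 2 := by rw [← hr2]; ring
      rw [hr4, hr2]
      have t1 : 49 * t * cx (gg ι) K w (avm m 1 S fun ω => (Xf ω - r) ^ 2) z ≤ 49 * t * D :=
        mul_le_mul_of_nonneg_left d1 (by positivity)
      have t2 : (19208 * cx (gg ι) K w (avm m 1 S fun ω => Xf ω ^ 4) z + 162 * Y ^ 2) / t ≤
          (19208 * X + 162 * Y ^ 2) / t := by
        apply div_le_div_of_nonneg_right _ ht.le
        linarith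
      have t3 : kp * r * (x * ((48 * b0 ^ 2 + 6) *
          (2 * cx (gg ι) K w (avm m 1 S fun ω => (Xf ω - r) ^ 2) z + 2 * Y))) ≤
          kp * r * (x * ((48 * b0 ^ 2 + 6) * (2 * D + 2 * Y))) := by
        refine mul_le_mul_of_nonneg_left ?_ hkr.le
        refine mul_le_mul_of_nonneg_left ?_ hx0
        exact mul_le_mul_of_nonneg_left (by linarith) (by positivity)
      linarith)
  have hA0 : 0 ≤ r ^ 3 * |kb| := by positivity
  have k2 := sq4 (A := r ^ 3 * |kb|) (a := √(40 * c3))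
    (b := 14 * √(D * (19208 * X + 162 * Y ^ 2))) (c := (48 * η + 28 * x) * r ^ 3)
    (d := kp * r * (x * ((48 * b0 ^ 2 + 6) * (2 * D + 2 * Y)))) hA0 (by linarith)
  have hr6 : r ^ 6 = Y ^ 3 := by rw [← hr2]; ring
  have f1 : (r ^ 3 * |kb|) ^ 2 = Y ^ 3 * kb ^ 2 := by
    rw [mul_pow, sq_abs, ← hr6]; ring
  have f2 : √(40 * c3) ^ 2 = 40 * c3 := Real.sq_sqrt (by positivity)
  have f3 : (14 * √(D * (19208 * X + 162 * Y ^ 2))) ^ 2 = 196 * (D * (19208 * X + 162 * Y ^ 2)) := by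
    rw [mul_pow, Real.sq_sqrt (by positivity)]; ring
  have f4 : ((48 * η + 28 * x) * r ^ 3) ^ 2 = (48 * η + 28 * x) ^ 2 * Y ^ 3 := by
    rw [mul_pow, ← hr6]; ring
  have f5 : (kp * r * (x * ((48 * b0 ^ 2 + 6) * (2 * D + 2 * Y)))) ^ 2 =
      kp ^ 2 * Y * (x * ((48 * b0 ^ 2 + 6) * (2 * D + 2 * Y))) ^ 2 := by
    rw [mul_pow, mul_pow, hr2]
  rw [f1, f2, f3, f4, f5] at k2
  linarith

/-- **The averaged Bessel bound.** -/
theorem bes_exx (hG : GM m S M0) (hx0 : 0 ≤ x) (hx1 : x ≤ 1) (hη : 0 ≤ η) (hη1 : η ≤ 1)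
    (hb0 : 0 ≤ b0) (hxb : x * b0 ≤ 1 / 4) (hkp : 0 < kp) (hτ : 0 ≤ τ) (hv : 0 ≤ v)
    (hKR : Disjoint K R) (hK : K ⊆ K') (hR : R ⊆ K')
    (hs : ∀ j, Bd (s j)) (hs0 : Bd s0) (hs1 : ∀ ω, s0 ω ^ 2 = 1) (ha : Bd a)
    (haη : ∀ ω, |a ω - 1| ≤ η) (hM : ∀ j, BM (M j)) (hMd : ∀ j, H646.Dep K (M j))
    (cf : (ι → ℝ) → ι → ℝ)
    (hY : ∀ z ω, YS R (cf z) S ω = kp * (s0 ω * (τ * ms T M s z ω + v)))
    (hc : ∀ z, ∑ e ∈ R, cf z e ^ 2 = kp ^ 2 * Yf T M τ v z)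
    (hb : ∀ ω, ∑ e ∈ R, S e ω ^ 2 ≤ b0 ^ 2)
    {dl x4 : (ι → ℝ) → ℝ} (bdl : BM dl) (bx4 : BM x4) (hdl0 : ∀ z, 0 ≤ dl z)
    (hx40 : ∀ z, 0 ≤ x4 z)
    (hdl : ∀ z, cx (gg ι) K (Zxm m 1 S x) (avm m 1 S fun ω =>
      ((τ * ms T M s z ω + v) / √(Yf T M τ v z) - √(Yf T M τ v z)) ^ 2) z ≤ dl z)
    (hx4 : ∀ z, cx (gg ι) K (Zxm m 1 S x) (avm m 1 S fun ω =>
      ((τ * ms T M s z ω + v) / √(Yf T M τ v z)) ^ 4) z ≤ x4 z) :
    ex (gg ι) (Zxm m 1 S x) (fun z => Yf T M τ v z ^ 3 *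
        cx (gg ι) K (Zxm m 1 S x) (fun y => k0 (avm m 1 S s0 y)) z ^ 2) ≤
      160 * ex (gg ι) (Zxm m 1 S x) (fun z => cx (gg ι) K (Zxm m 1 S x) (fun y =>
        (cx (gg ι) K' (Zxm m 1 S x) (avm m 1 S (fun ω => a ω * s0 ω)) y -
          lc R (cf z) y) ^ 2) z)
      + 784 * ex (gg ι) (Zxm m 1 S x) (fun z => dl z * (19208 * x4 z +
          162 * Yf T M τ v z ^ 2))
      + 4 * ((48 * η + 28 * x) ^ 2 *
          ex (gg ι) (Zxm m 1 S x) (fun z => Yf T M τ v z ^ 3))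
      + 16 * (kp ^ 2 * (x * (48 * b0 ^ 2 + 6)) ^ 2 *
          ex (gg ι) (Zxm m 1 S x) (fun z => Yf T M τ v z * (dl z + Yf T M τ v z) ^ 2)) := by
  set w := Zxm m 1 S x with hwdef
  have hw : Wt (gg ι) w := hG.wt 1 x
  have hA := av_avm hG 1
  have bY : BM (Yf T M τ v) := bm_Y hA hs hM τ v
  have bR := bm_rem (K := K) (K' := K') (R := R) hG x hKR hK hR hs hs0 hs1 ha hM hMd τ v kp cf
    hY hc
  rw [← hwdef] at bR
  have bk := hw.bm_cx K (bm_k0 hG hs0)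
  have bY3 : BM fun z => Yf T M τ v z ^ 3 := by
    have e : (fun z => Yf T M τ v z ^ 3) = fun z => Yf T M τ v z * Yf T M τ v z ^ 2 := by
      funext z; ring
    rw [e]
    exact bY.mul (bsq bY)
  have b2 : BM fun z => dl z * (19208 * x4 z + 162 * Yf T M τ v z ^ 2) :=
    bdl.mul ((bcm _ bx4).add (bcm _ (bsq bY)))
  have b4 : BM fun z => Yf T M τ v z * (dl z + Yf T M τ v z) ^ 2 :=
    bY.mul (bsq (bdl.add bY))
  have h1 := ex_mono hw (bY3.mul (bsq bk))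
    ((((bcm 160 bR).add (bcm 784 b2)).add (bcm (4 * (48 * η + 28 * x) ^ 2) bY3)).add
      (bcm (16 * (kp ^ 2 * (x * (48 * b0 ^ 2 + 6)) ^ 2)) b4)) (fun z => by
      have hY0 := Y_nonneg (S := T) (M := M) hτ hv z
      have h2 := bes_ptx (K := K) (K' := K') (R := R) (M := M) (T := T) (s := s) hG hx0 hx1 hη
        hη1 hb0 hxb hkp hKR hK hR hs hs0 hs1 ha haη cf hY hc hb z hY0 (hdl0 z) (hx40 z)
        (hdl z) (hx4 z)
      rw [← hwdef] at h2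
      refine h2.trans (le_of_eq ?_)
      ring)
  rw [ex_add hw (((bcm 160 bR).add (bcm 784 b2)).add (bcm (4 * (48 * η + 28 * x) ^ 2) bY3))
      (bcm (16 * (kp ^ 2 * (x * (48 * b0 ^ 2 + 6)) ^ 2)) b4),
    ex_add hw ((bcm 160 bR).add (bcm 784 b2)) (bcm (4 * (48 * η + 28 * x) ^ 2) bY3),
    ex_add hw (bcm 160 bR) (bcm 784 b2), ex_cmul, ex_cmul, ex_cmul, ex_cmul] at h1
  linarith

end Vale.Agent.P146.H586
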