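import Vale.Agent.P146.H615.NumU
import Vale.Agent.P146.H75.KUp

set_option linter.all false

/-!
# P146, S3: the second moment of the overlap at a typical point from the big overlaps

`qq_lev`: `E Q² ≤ l² + U² P(Q > l) + (1 + η)⁴ P(Q > U)`.
`rr_br`: at a typical point, `P(Q > C1 y) ≤ n^(-400 q)` gives `E R² ≤ (4 C1² + 1) y²`.
-/

open MeasureTheory ProbabilityTheory Filter Topology Set

namespace Vale.Agent.P146.H586.S3

open Vale.Agent.P157.Lv hiding Dep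
open Vale.Agent.P146.H425 Vale.Agent.P146.H646
open Vale.Agent.P146.H325 hiding cb cf
open Vale.Agent.P146.H196 Vale.Agent.P146.H347 Vale.Agent.P146.H475 Vale.Agent.P146.H418
  Vale.Agent.P146.H317 Vale.Agent.P146.H470 Vale.Agent.P146.H615

variable {L : Law}

/-- `E Q² ≤ l² + U² P(Q > l) + (1 + η)⁴ P(Q > U)` -/
lemma qq_lev (hA : H320.Adm L) (S : Finset (Fin L.n)) (t u l U : ℝ) :
    L.qq S t u ≤ l ^ 2 + U ^ 2 * L.ex' t u (H317.ind l (L.Q S t u)) +
      (1 + L.η) ^ 4 * L.ex' t u (H317.ind U (L.Q S t u)) := by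
  have hw := H75.wt_L hA t u
  have bQ := H75.bm_Q hA S t u
  have bi : BM (H317.ind l (L.Q S t u)) := bm_ind bQ.meas l
  have bj : BM (H317.ind U (L.Q S t u)) := bm_ind bQ.meas U
  unfold Law.qq Law.ex'
  rw [← H615.ex_cmul, ← H615.ex_cmul, ← H615.ex_const hw (l ^ 2),
    ← H615.ex_add hw (BM.const _) (H615.bcm _ bi),
    ← H615.ex_add hw ((BM.const _).add (H615.bcm _ bi)) (H615.bcm _ bj)]
  refine H615.ex_mono hw (H615.bsq bQ)
    (((BM.const _).add (H615.bcm _ bi)).add (H615.bcm _ bj)) fun z => ?_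
  have h0 := H75.Q_nonneg S t u z
  have h1 := H75.Q_le hA S t u z
  have hη := hA.η0
  have i0 := ind_nonneg l (L.Q S t u) z
  have j0 := ind_nonneg U (L.Q S t u) z
  have p1 : 0 ≤ U ^ 2 * H317.ind l (L.Q S t u) z := mul_nonneg (sq_nonneg _) i0
  have p2 : 0 ≤ (1 + L.η) ^ 4 * H317.ind U (L.Q S t u) z := mul_nonneg (by positivity) j0
  by_cases hz : U < L.Q S t u z
  · have e : H317.ind U (L.Q S t u) z = 1 := if_pos hz
    have h2 : L.Q S t u z ^ 2 ≤ ((1 + L.η) ^ 2) ^ 2 := pow_le_pow_left₀ h0 h1 2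
    have e4 : ((1 + L.η) ^ 2) ^ 2 = (1 + L.η) ^ 4 := by ring
    rw [e4] at h2
    rw [e]
    have := sq_nonneg l
    linarith
  · have hz' := not_lt.1 hz
    by_cases hy : l < L.Q S t u z
    · have e : H317.ind l (L.Q S t u) z = 1 := if_pos hy
      have h2 : L.Q S t u z ^ 2 ≤ U ^ 2 := pow_le_pow_left₀ h0 hz' 2
      rw [e]
      have := sq_nonneg l
      linarith
    · have hy' := not_lt.1 hy
      have h2 : L.Q S t u z ^ 2 ≤ l ^ 2 := pow_le_pow_left₀ h0 hy' 2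
      linarith

variable {a0 b₁ q A b : ℝ} {n : ℕ} {y V al s lam η T u : ℝ}

/-- the numbers of `rr_br` -/
lemma br_num (h : NW a0 b₁ q A b n y V al s lam η)
    (hT : (n : ℝ) ^ (-(71 * q)) * y ^ 2 ≤ T) (hT1 : T ≤ 1) :
    4 * (Uq q n y T ^ 2 * (n : ℝ) ^ (-(400 * q))) ≤ y ^ 2 / 4 ∧
    8 * (n : ℝ) ^ (-(10 : ℝ)) ≤ y ^ 2 / 4 ∧
    4 * (9 * η ^ 2) * Uq q n y T ^ 2 ≤ y ^ 2 / 4 ∧
    2 * ((n : ℝ) ^ (106 * q) / (n * y ^ 3 * √T)) ≤ y ^ 2 / 4 := by
  obtain ⟨f1, f2, f3, f4, f5, f6, f7, f8, f9, f10, f11, f12, f13, f14⟩ := h.facts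
  obtain ⟨hT0, t1, t2⟩ := logT h hT hT1
  have hn := h.env.n0
  have hy := h.env.y0
  have hη := h.kw.η0
  have hL := h.env.L1
  have hU0 := Uq_pos (q := q) hn hy hT0
  have hU : Real.log (Uq q n y T) = q * Real.log n + 2 * Real.log y - Real.log T / 2 := by
    unfold Uq
    simp (disch := positivity) only [Real.log_mul, Real.log_rpow, Real.log_pow, Real.log_div,
      Real.log_sqrt]
    push_cast
    ring
  have c2 := log_c 2 (by norm_num)
  have c4 := log_c 4 (by norm_num)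
  have c8 := log_c 8 (by norm_num)
  have c9 := log_c 9 (by norm_num)
  have c2' : 0 ≤ Real.log 2 := Real.log_nonneg (by norm_num)
  have c4' : 0 ≤ Real.log 4 := Real.log_nonneg (by norm_num)
  refine ⟨?_, ?_, ?_, ?_⟩
  · refine le_of_log (by positivity) (by positivity) ?_
    simp (disch := positivity) only [Real.log_mul, Real.log_rpow, Real.log_pow, Real.log_div]
    rw [hU]
    push_cast
    linarith
  · refine le_of_log (by positivity) (by positivity) ?_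
    simp (disch := positivity) only [Real.log_mul, Real.log_rpow, Real.log_pow, Real.log_div]
    push_cast
    linarith
  · refine le_of_log (by positivity) (by positivity) ?_
    simp (disch := positivity) only [Real.log_mul, Real.log_rpow, Real.log_pow, Real.log_div]
    rw [hU]
    push_cast
    linarith
  · refine le_of_log (by positivity) (by positivity) ?_
    simp (disch := positivity) only [Real.log_mul, Real.log_rpow, Real.log_pow, Real.log_div,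
      Real.log_sqrt]
    push_cast
    linarith

/-- **The second moment of the overlap at a typical point**, from the number of the big
overlaps. -/
theorem rr_br (h : NW a0 b₁ q A b n y V al s lam η)
    (hT : (n : ℝ) ^ (-(71 * q)) * y ^ 2 ≤ T) (hT1 : T ≤ 1) {m : ℕ}
    (hp : PtN q 10 (lawOf n b y V al s lam η) (rq b y al) T u m) {C1 : ℝ}
    (hbr : (lawOf n b y V al s lam η).ex' (1 - T) u (H317.ind (C1 * y)
      ((lawOf n b y V al s lam η).Q (Sn n m) (1 - T) u)) ≤ (n : ℝ) ^ (-(400 * q))) :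
    (lawOf n b y V al s lam η).rr (Sn n m) (1 - T) u ≤ (4 * C1 ^ 2 + 1) * y ^ 2 := by
  obtain ⟨k1, k2, k3, k4, k5, k6, k7, k8⟩ := h.bd
  obtain ⟨x1, x2, x3, x4⟩ := br_num h hT hT1
  obtain ⟨hA, a1, a2⟩ := h.adm
  have hT0 := (logT h hT hT1).1
  have hn := h.env.n0
  have hy := h.env.y0
  have hη := h.kw.η0
  have h1 := qq_lev hA (Sn n m) (1 - T) u (C1 * y) (Uq q n y T)
  have h2 := hp.ap.tQ (Sn n m)
  have h3 := H643.rr_le_qq (S := Sn n m) (t := 1 - T) (u := u) (θ := 1) hA.lam0 hA.η0 hA.n0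
    one_pos
  have h4 := hp.rk _ (Or.inl rfl)
  have h5 := hp.ap.m1 (Sn n m)
  have hη4 : (1 + η) ^ 4 ≤ 2 := by
    have h2 : (1 + η) ^ 2 ≤ 5 / 4 := by nlinarith
    calc (1 + η) ^ 4 = ((1 + η) ^ 2) ^ 2 := by ring
      _ ≤ (5 / 4) ^ 2 := pow_le_pow_left₀ (sq_nonneg _) h2 2
      _ ≤ 2 := by norm_num
  have hη2 : (η * (2 + η)) ^ 2 ≤ 9 * η ^ 2 := by
    have h3 : η * (2 + η) ≤ 3 * η := by nlinarith
    calc (η * (2 + η)) ^ 2 ≤ (3 * η) ^ 2 := pow_le_pow_left₀ (by positivity) h3 2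
      _ = 9 * η ^ 2 := by ring
  set Lw := lawOf n b y V al s lam η with hLw
  have e1 : Lw.η = η := rfl
  have e2 : Lw.n = n := rfl
  have g1 : Uq q n y T ^ 2 * Lw.ex' (1 - T) u (H317.ind (C1 * y) (Lw.Q (Sn n m) (1 - T) u)) ≤
      Uq q n y T ^ 2 * (n : ℝ) ^ (-(400 * q)) := mul_le_mul_of_nonneg_left hbr (sq_nonneg _)
  have p0 : 0 ≤ Lw.ex' (1 - T) u (H317.ind (Uq q n y T) (Lw.Q (Sn n m) (1 - T) u)) :=
    H75.pQ_nonneg hA _ _ _ _
  have g2 : (1 + Lw.η) ^ 4 * Lw.ex' (1 - T) u (H317.ind (Uq q n y T)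
      (Lw.Q (Sn n m) (1 - T) u)) ≤ 2 * (n : ℝ) ^ (-(10 : ℝ)) :=
    mul_le_mul hη4 h2 p0 (by norm_num)
  have g3 : (Lw.η * (2 + Lw.η)) ^ 2 * H643.CC Lw (Sn n m) (1 - T) u ≤
      9 * η ^ 2 * Uq q n y T ^ 2 := by
    refine (mul_le_mul_of_nonneg_left (show H643.CC Lw (Sn n m) (1 - T) u ≤ _ from h5)
      (sq_nonneg _)).trans ?_
    exact mul_le_mul_of_nonneg_right hη2 (sq_nonneg _)
  have g4 : Lw.rk (Sn n m) (1 - T) u ≤ (n : ℝ) ^ (106 * q) / (n * y ^ 3 * √T) := h4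
  have h10 : (1 + (1 : ℝ)) ^ 2 = 4 := by norm_num
  have h11 : (1 + (1 : ℝ)) * (1 + 1 / 1) = 4 := by norm_num
  have h12 : (1 + (1 : ℝ) / 1) = 2 := by norm_num
  rw [h10, h11, h12] at h3
  have e3 : (C1 * y) ^ 2 = C1 ^ 2 * y ^ 2 := by ring
  rw [e3] at h1
  have e4 : (4 * C1 ^ 2 + 1) * y ^ 2 = 4 * (C1 ^ 2 * y ^ 2) + y ^ 2 := by ring
  rw [e4]
  have h3' : Lw.rr (Sn n m) (1 - T) u ≤ 4 * Lw.qq (Sn n m) (1 - T) u +
      4 * ((Lw.η * (2 + Lw.η)) ^ 2 * H643.CC Lw (Sn n m) (1 - T) u) +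
      2 * Lw.rk (Sn n m) (1 - T) u := by
    rw [← mul_assoc]
    exact h3
  linarith

end Vale.Agent.P146.H586.S3
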