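import Vale.Agent.P146.H586.KaA
import Vale.Agent.P146.H412.UpU

set_option linter.all false

/-!
# P146, S3: the upper bound of the relative entropy with a constant

`BrC`, `RowMid`: the inputs, at one choice of the data.
`ka_pt`: `KA ≤ CK n y⁶` at one choice of the data.
-/

open MeasureTheory ProbabilityTheory Filter Topology Set

namespace Vale.Agent.P146.H586.S3

open Vale.Agent.P157.Lv hiding Dep
open Vale.Agent.P146.H425 Vale.Agent.P146.H646 Vale.Agent.P146.H317 Vale.Agent.P146.H418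
  Vale.Agent.P146.H529 Vale.Agent.P146.H197 Vale.Agent.P146.H122
open Vale.Agent.P146.H470 (Env le_of_log)

/-- the number of the big overlaps at the level `C1 y` -/
def BrC (q b C1 : ℝ) (n : ℕ) (y V al s lam η : ℝ) : Prop :=
  ∀ T, (n : ℝ) ^ (-(70 * q)) * y ^ 2 / 4 ≤ T → T ≤ 1 →
    ∀ u, 0 ≤ u → u ≤ 1 - (n : ℝ) ^ (-(80 * q)) → ∀ m, m1 q n y ≤ m →
      (lawOf n b y V al s lam η).ex' (1 - T) u (H317.ind (C1 * y)
        ((lawOf n b y V al s lam η).Q (Sn n m) (1 - T) u)) ≤ (n : ℝ) ^ (-(400 * q))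

/-- the middle regime -/
def RowMid (q b C2 : ℝ) (n : ℕ) (y V al s lam η : ℝ) : Prop :=
  ∀ T ∈ Icc (C2 * y ^ 2) (T2 q n y), ∃ T' ∈ Icc (T / (1 + hh q n)) T,
    ∃ u ∈ Icc (u0 q n) (u1 q n), ∃ m ≤ 2 * m1 q n y,
    (lawOf n b y V al s lam η).rr (Sn n m) (1 - T') u ≤ (n : ℝ) ^ (-(20 * q)) * y ^ 4 / T'

/-- the constant of the upper bound -/
noncomputable def CK (b C1 C2 : ℝ) : ℝ := b ^ 2 / 4 * (3 * C2 * (4 * C1 ^ 2 + 1) + 1)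

section num

variable {a0 b₁ q K b A : ℝ} {n : ℕ} {y V : ℝ}

/-- the monomials -/
lemma ka_num (hC : Cst q K b₁ b A) (h : Env a0 b₁ (24 * q) q K n y V) (ha6 : a0 ≤ 1 / 6) :
    b * y * ((n : ℝ) ^ (-(49 / 5 * q)) * y) ^ 3 ≤ y ^ 4 / 20 ∧
    V / b ^ 2 * ((n : ℝ) ^ (-(49 / 5 * q)) * y) ≤ y ^ 4 / 20 ∧
    7 * (n : ℝ) ^ (-(7 * q)) ≤ 1 ∧
    3 * ((n : ℝ) ^ (-(7 * q)) * (2 * ((n : ℝ) ^ (-(10 * q)) * y ^ 2))) *
      ((n : ℝ) ^ (-(49 / 5 * q)) * y) ^ 2 ≤ y ^ 4 / 20 ∧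
    4 * ((n : ℝ) ^ (-(7 * q)) * y ^ 6 / y ^ 2) ≤ y ^ 4 / 20 ∧
    4 * ((n : ℝ) ^ (-(7 * q)) * y ^ 6 / (1 / 2) ^ 2) ≤ y ^ 4 / 20 ∧
    4 * ((n : ℝ) ^ (-(20 * q)) * y ^ 4) * Real.log n ≤ y ^ 4 / 20 ∧
    4 * ((n : ℝ) ^ (-(20 * q)) * y ^ 4) * (1 / (1 / 2)) ≤ y ^ 4 / 20 ∧
    EE q n y ≤ y ^ 4 / 20 := by
  obtain ⟨b0, A1, qq0, qq1, K1⟩ := hC
  obtain ⟨n0, y0, V0, L1, qL, cst, ll, yl, yu, Vl, Vu⟩ := h
  have hA := Real.log_nonneg A1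
  have hb1 := le_abs_self (Real.log b)
  have hb2 := neg_abs_le (Real.log b)
  have n20 := log_num (show (1 : ℝ) ≤ 20 by norm_num)
  have n7 := log_num (show (1 : ℝ) ≤ 7 by norm_num)
  have n4 := log_num (show (1 : ℝ) ≤ 4 by norm_num)
  have n3 := log_num (show (1 : ℝ) ≤ 3 by norm_num)
  have n2 := log_num (show (1 : ℝ) ≤ 2 by norm_num)
  have hL0 : 0 < Real.log n := by linarith
  have yb : Real.log y ≤ -(99 * q) * Real.log n := by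
    have : 100 * q * Real.log n ≤ b₁ * Real.log n := mul_le_mul_of_nonneg_right qq1 hL0.le
    linarith
  unfold EE
  refine ⟨?_, ?_, ?_, ?_, ?_, ?_, ?_, ?_, ?_⟩ <;>
  · refine le_of_log (by positivity) (by positivity) ?_
    simp (disch := positivity) only [Real.log_mul, Real.log_div, Real.log_rpow, Real.log_pow,
      Real.log_one]
    push_cast
    linarith

/-- the logarithm -/
lemma ka_log (hC : Cst q K b₁ b A) (h : Env a0 b₁ (24 * q) q K n y V) (ha6 : a0 ≤ 1 / 6)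
    {C2 : ℝ} (h2 : 1 ≤ C2) : Real.log (1 / 2 / (C2 * y ^ 2)) ≤ Real.log n := by
  obtain ⟨b0, A1, qq0, qq1, K1⟩ := hC
  obtain ⟨n0, y0, V0, L1, qL, cst, ll, yl, yu, Vl, Vu⟩ := h
  have hL0 : 0 < Real.log n := by linarith
  have ya : -(1 / 6) * Real.log n ≤ Real.log y := by
    have : a0 * Real.log n ≤ 1 / 6 * Real.log n := mul_le_mul_of_nonneg_right ha6 hL0.le
    linarith
  have hc := Real.log_nonneg h2
  have n2 := log_num (show (1 : ℝ) ≤ 2 by norm_num)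
  have hc0 : 0 < C2 := by linarith
  rw [Real.log_div (by positivity) (by positivity), Real.log_mul hc0.ne' (by positivity),
    Real.log_pow, Real.log_div (by norm_num) (by norm_num), Real.log_one]
  push_cast
  linarith

end num

/-- the algebra of the errors -/
lemma ka_alg {h c a w R T₂ T₃ E1 W2 W3 Jc KE y4 X1 L : ℝ} (hh0 : 0 ≤ h)
    (h7 : 7 * h ≤ 1) (hw : 0 ≤ w * R) (hc : 0 ≤ c * R ^ 3) (hJ : Jc ≤ c * R ^ 3 / 3 + w * R)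
    (k1 : c * R ^ 3 ≤ y4 / 20) (k2 : w * R ≤ y4 / 20)
    (k3 : 3 * (h * a + 0) * R ^ 2 ≤ y4 / 20) (k4 : 3 * T₂ * E1 ≤ X1)
    (k5 : 4 * (W2 / T₂ + W2 / T₃ ^ 2) ≤ y4 / 10)
    (k6 : 4 * W3 * (L + 1 / T₃) ≤ y4 / 10) (k7 : KE ≤ y4 / 40) (hy4 : 0 ≤ y4) :
    Jc + (7 * h * (w * R + c * R ^ 3) + 3 * (h * a + 0) * R ^ 2 + 3 * T₂ * E1 +
      (4 * (W2 / T₂ + W2 / T₃ ^ 2) + 4 * W3 * (L + 1 / T₃)) + KE) ≤ X1 + y4 := by
  have g1 : 7 * h * (w * R + c * R ^ 3) ≤ 1 * (w * R + c * R ^ 3) :=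
    mul_le_mul_of_nonneg_right h7 (by linarith)
  linarith

section sum

variable {a0 b₁ q K A b : ℝ} {n : ℕ} {y V : ℝ}

/-- the main term -/
lemma ka_J (hC : Cst q K b₁ b A) (hE : Env a0 b₁ (24 * q) q K n y V) (h0 : 0 ≤ H122.hh q n)
    (h4 : H122.hh q n ≤ 1 / 4) :
    J (b * y) (2 * ((n : ℝ) ^ (-(10 * q)) * y ^ 2)) (V / b ^ 2) ≤
      b * y * ((n : ℝ) ^ (-(49 / 5 * q)) * y) ^ 3 / 3 +
        V / b ^ 2 * ((n : ℝ) ^ (-(49 / 5 * q)) * y) := by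
  have hb := hC.b0
  have n0 : (0 : ℝ) < n := hE.n0
  have y0 := hE.y0
  have hV0 := hE.V0
  have ha0 : 0 < (n : ℝ) ^ (-(10 * q)) * y ^ 2 := by positivity
  have ha : (n : ℝ) ^ (-(10 * q)) * y ^ 2 ≤ A * ((n : ℝ) ^ (-(10 * q)) * y ^ 2) := by
    have := hC.A1
    nlinarith
  have hR := R_up hC hE h0 h4 ha0 ha
  have hby : 0 < b * y := mul_pos hb y0
  have hVb : 0 < V / b ^ 2 := by positivity
  refine J_le hby hVb (le_trans ?_ hR)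
  refine rho_mono (mul_pos (by linarith) hby) ?_ hVb ?_ ?_
  · nlinarith
  · nlinarith
  · nlinarith

/-- the stage terms, the modulated field revealed -/
lemma ka_ke (hC : Cst q K b₁ b A) (hE : Env a0 b₁ (24 * q) q K n y V) (ha6 : a0 ≤ 1 / 6)
    {vp s δ u u' TN TN' : ℝ} (hvp : 0 ≤ vp) (hvV : vp ≤ V)
    (hs : s ^ 2 ≤ (n : ℝ) ^ (-(80 * q)) * V) (hδ0 : 0 ≤ δ)
    (hδ : δ ≤ 5 * ((n : ℝ) ^ (-(110 * q)) * y ^ 2)) (hu0 : 0 ≤ u) (hu1 : u ≤ 1)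
    (huu : 0 ≤ u' - u) (huu' : u' - u ≤ 2 * (n : ℝ) ^ (-(80 * q)))
    (hu' : (1 - u') * vp = (n : ℝ) ^ (-(37 * q)) * y ^ 4)
    (hTN : TN ≤ (n : ℝ) ^ (-(70 * q)) * y ^ 2) (hTN0 : 0 < TN)
    (hTN' : (n : ℝ) ^ (-(37 * q)) * y ^ 4 ≤ TN')
    (hTN2 : TN' ≤ 2 * ((n : ℝ) ^ (-(37 * q)) * y ^ 4)) :
    2 / b ^ 2 * vp * (u * ((n : ℝ) ^ q * y ^ 2) + (δ + (u' - u)) * ((n : ℝ) ^ (37 * q) * y) +
        (1 - u')) + 2 / b ^ 2 * (s ^ 2 * (4 * ((n : ℝ) ^ (37 * q) * y))) +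
      2 * δ * ((n : ℝ) ^ (72 * q) * y ^ 2) +
      2 * ((n : ℝ) ^ (-(37 * q)) * y ^ 4) * Real.log (TN / TN') + TN' ≤ y ^ 4 / 40 := by
  have n0 : (0 : ℝ) < n := hE.n0
  have y0 := hE.y0
  obtain ⟨x1, x2, x3, x4, x5, x6, x7, x8, x9⟩ := ka_num hC hE ha6
  have hcost := H412.U.mod_cost hC hE hs
  have hsq : √(s ^ 2 * (4 * ((n : ℝ) ^ (37 * q) * y))) ^ 2 =
      s ^ 2 * (4 * ((n : ℝ) ^ (37 * q) * y)) := Real.sq_sqrt (by positivity)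
  have hke := ke_err hC hE ha6 (s := √(s ^ 2 * (4 * ((n : ℝ) ^ (37 * q) * y)))) (η := 0)
    (q0 := (n : ℝ) ^ q * y ^ 2) (q1 := (n : ℝ) ^ (37 * q) * y)
    (C1 := (n : ℝ) ^ (72 * q) * y ^ 2) hvp hvV
    (by rw [hsq]; exact hcost) le_rfl zero_le_one hδ0 hδ hu0
    hu1 (by positivity) le_rfl
    (by positivity) le_rfl (by positivity) le_rfl huu huu' hu' hTN hTN0 hTN' hTN2
  rw [hsq, show (1 + (0 : ℝ)) ^ 2 = 1 by norm_num, mul_one] at hke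
  exact hke.trans (by linarith)

/-- the errors together -/
lemma ka_sum (hC : Cst q K b₁ b A) (hE : Env a0 b₁ (24 * q) q K n y V) (ha6 : a0 ≤ 1 / 6)
    (h0 : 0 ≤ H122.hh q n) (h4 : H122.hh q n ≤ 1 / 4) {C1 C2 KE : ℝ} (hC2 : 1 ≤ C2)
    (hKE : KE ≤ y ^ 4 / 40) :
    J (b * y) (2 * ((n : ℝ) ^ (-(10 * q)) * y ^ 2)) (V / b ^ 2) +
      (7 * H122.hh q n * (V / b ^ 2 * ((n : ℝ) ^ (-(49 / 5 * q)) * y) +
        b * y * ((n : ℝ) ^ (-(49 / 5 * q)) * y) ^ 3) +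
      3 * (H122.hh q n * (2 * ((n : ℝ) ^ (-(10 * q)) * y ^ 2)) + 0) *
        ((n : ℝ) ^ (-(49 / 5 * q)) * y) ^ 2 +
      3 * (C2 * y ^ 2) * ((4 * C1 ^ 2 + 1) * y ^ 2) +
      (4 * ((n : ℝ) ^ (-(7 * q)) * y ^ 6 / (C2 * y ^ 2) +
          (n : ℝ) ^ (-(7 * q)) * y ^ 6 / (1 / 2) ^ 2) +
        4 * ((n : ℝ) ^ (-(20 * q)) * y ^ 4) *
          (Real.log (1 / 2 / (C2 * y ^ 2)) + 1 / (1 / 2))) + KE) ≤
      3 * C2 * (4 * C1 ^ 2 + 1) * y ^ 4 + y ^ 4 := by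
  have n0 : (0 : ℝ) < n := hE.n0
  have y0 := hE.y0
  have hV0 := hE.V0
  have hb := hC.b0
  have hy2 : 0 < y ^ 2 := by positivity
  have hy4 : 0 < y ^ 4 := by positivity
  obtain ⟨x1, x2, x3, x4, x5, x6, x7, x8, x9⟩ := ka_num hC hE ha6
  have xl := ka_log hC hE ha6 hC2
  have hJ := ka_J hC hE h0 h4
  have h5 : (n : ℝ) ^ (-(7 * q)) * y ^ 6 / (C2 * y ^ 2) ≤
      (n : ℝ) ^ (-(7 * q)) * y ^ 6 / y ^ 2 := by
    refine div_le_div_of_nonneg_left (by positivity) hy2 ?_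
    nlinarith
  have h6 : 4 * ((n : ℝ) ^ (-(20 * q)) * y ^ 4) * Real.log (1 / 2 / (C2 * y ^ 2)) ≤
      4 * ((n : ℝ) ^ (-(20 * q)) * y ^ 4) * Real.log n :=
    mul_le_mul_of_nonneg_left xl (by positivity)
  refine ka_alg h0 x3 (by positivity) (by positivity) hJ x1 x2
    (by rw [add_zero]; exact x4) (le_of_eq (by ring)) (by linarith) ?_ hKE hy4.le
  rw [mul_add]
  linarith

end sum

/-- **The upper bound of the relative entropy at one choice of the data.** -/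
theorem ka_pt {a0 b₁ q K A b C1 C2 : ℝ} {n : ℕ} {y V al s lam η : ℝ} (ha6 : a0 ≤ 1 / 6)
    (hC : Cst q K b₁ b A) (hE : Env a0 b₁ (24 * q) q K n y V)
    (W : WF q b n y V s lam η) (g4 : 2 ≤ (n : ℝ) ^ q) (hK : KW a0 b₁ q A b n y V al s lam η)
    (hCC : ∀ (S : Finset (Fin n)) (t u : ℝ), 0 ≤ t → t < 1 → u ∈ Icc (0 : ℝ) 1 →
        (lawOf n b y V al s lam η).ex' t u (H412.CC (lawOf n b y V al s lam η) S t u) ≤
          (n : ℝ) ^ q * y ^ 4 / (1 - t))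
    (hCg : ∀ (S : Finset (Fin n)) (T u : ℝ), 0 < T → T ≤ 1 → u ∈ Icc (0 : ℝ) 1 →
        (lawOf n b y V al s lam η).rrg S (1 - T) u 1 ≤ (n : ℝ) ^ q * y ^ 4 / T ∧
        (lawOf n b y V al s lam η).ffg S (1 - T) u 1 ≤ n * √((n : ℝ) ^ q * y ^ 4 / T) ∧
        (lawOf n b y V al s lam η).fag S (1 - T) u 1 ≤ n * (4 * √((n : ℝ) ^ q * y ^ 4 / T)))
    (hC2 : 1 ≤ C2) (hC2n : C2 ≤ (n : ℝ) ^ q)
    (hfar : ∀ T ∈ Icc (C2 * y ^ 2) (1 / 2), ∃ T' ∈ Icc (T / (1 + hh q n)) T,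
      ∃ u ∈ Icc (u0 q n) (u1 q n), ∃ m ≤ 2 * m1 q n y,
      (lawOf n b y V al s lam η).rr (Sn n m) (1 - T') u ≤
        (n : ℝ) ^ (-(7 * q)) * y ^ 6 / T' ^ 2 + (n : ℝ) ^ (-(20 * q)) * y ^ 4 / T')
    (hnear : ∀ T ∈ Icc (T1 q n y / 2) (C2 * y ^ 2), ∃ T' ∈ Icc (T / (1 + hh q n)) T,
      ∃ u ∈ Icc (u0 q n) (u1 q n), ∃ m ≤ 2 * m1 q n y,
      (lawOf n b y V al s lam η).rr (Sn n m) (1 - T') u ≤ (4 * C1 ^ 2 + 1) * y ^ 2)
    (hN7 : H412.U.N7g q b n y V al s lam η) :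
    (lawOf n b y V al s lam η).KA ≤ CK b C1 C2 * (n * y ^ 6) := by
  have hq := hC.q0
  have hb := hC.b0
  have n0 : (0 : ℝ) < n := hE.n0
  have y0 := W.y0
  have hl : 0 < (lawOf n b y V al s lam η).lam := hK.l0
  have hη : 0 ≤ (lawOf n b y V al s lam η).η := hK.η0.le
  have hnn : 0 < (lawOf n b y V al s lam η).n := W.n0
  have h0 : 0 < hh q n := W.h0
  obtain ⟨N, N', hNN, hN1, hTN, hTN1, hTN1', hN'1, hN'2⟩ := levels W
  have hTN0 : 0 < gg (hh q n) N := gg_pos h0.le _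
  have hTNN : gg (hh q n) N ≤ 1 := gg_le_one h0.le _
  -- the shares
  have hw8 : (0 : ℝ) < (n : ℝ) ^ (-(80 * q)) := Real.rpow_pos_of_pos n0 _
  have hu00 : 0 ≤ u0 q n := by unfold u0; linarith [W.w8]
  have hzv : (n : ℝ) ^ (-(37 * q)) * y ^ 4 / (V - s ^ 2) ≤ 2 * (n : ℝ) ^ (-(80 * q)) := by
    rw [div_le_iff₀ W.vp0]
    exact W.z2
  have hzv0 : 0 ≤ (n : ℝ) ^ (-(37 * q)) * y ^ 4 / (V - s ^ 2) :=
    div_nonneg (by positivity) W.vp0.le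
  have huu : u0 q n ≤ uN q n y (V - s ^ 2) := by
    unfold u0 uN
    linarith
  have huN1 : uN q n y (V - s ^ 2) ≤ 1 := by
    unfold uN
    linarith
  have hu11 : u1 q n ≤ 1 := by unfold u1; linarith
  have hudiff : uN q n y (V - s ^ 2) - u0 q n ≤ 2 * (n : ℝ) ^ (-(80 * q)) := by
    unfold u0 uN
    linarith
  have huv : (1 - uN q n y (V - s ^ 2)) * (V - s ^ 2) = (n : ℝ) ^ (-(37 * q)) * y ^ 4 := by
    unfold uN
    have := W.vp0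
    field_simp
    ring
  obtain ⟨hq0, -, -⟩ := end_numbers (al := al) hq hK.l0 hK.η0.le W g4 hCC hTN hTN0 hTNN
    (u := u0 q n) (u' := uN q n y (V - s ^ 2)) ⟨hu00, huu.trans huN1⟩
    ⟨hu00.trans huu, huN1⟩ (Sn n (2 * m1 q n y))
  obtain ⟨hq1, hqa, hC1⟩ := H412.U.end_numU (al := al) hq W g4
    (hCg Finset.univ (gg (hh q n) N) (uN q n y (V - s ^ 2)) hTN0 hTNN
      ⟨hu00.trans huu, huN1⟩) hTN hTN0
  have ha0 : 0 < (n : ℝ) ^ (-(10 * q)) * y ^ 2 := by positivity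
  have ha : (n : ℝ) ^ (-(10 * q)) * y ^ 2 ≤ A * ((n : ℝ) ^ (-(10 * q)) * y ^ 2) := by
    have := hC.A1
    nlinarith
  have hR := R_up hC hE h0.le W.h4 ha0 ha
  have hy2 : 0 < y ^ 2 := by positivity
  have hT2C : C2 * y ^ 2 ≤ T2 q n y := by
    unfold T2
    refine mul_le_mul_of_nonneg_right (hC2n.trans ?_) hy2.le
    exact Real.rpow_le_rpow_of_exponent_le W.n1.le (by linarith)
  have hT1C : T1 q n y ≤ C2 * y ^ 2 := by
    unfold T1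
    refine mul_le_mul_of_nonneg_right (le_trans ?_ hC2) hy2.le
    exact Real.rpow_le_one_of_one_le_of_nonpos W.n1.le (by linarith)
  have hNT : gg (hh q n) (N + 1) ≤ C2 * y ^ 2 :=
    (gg_succ_le h0.le N).trans (hN1.trans hT1C)
  have hT23 : C2 * y ^ 2 ≤ 1 / 2 := hT2C.trans (by linarith [W.T21])
  have key := H412.U.kupU_typ (lawOf n b y V al s lam η) hl hη (show 0 < V - s ^ 2 from W.vp0)
    (show 0 < s from hK.s0) (show 0 < y from y0)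
    (show b ≠ 0 from hb.ne') hnn (h := hh q n) (u := u0 q n) (u1 := u1 q n)
    (u' := uN q n y (V - s ^ 2)) (q0 := (n : ℝ) ^ q * y ^ 2) (q1 := (n : ℝ) ^ (37 * q) * y)
    (qa := 4 * ((n : ℝ) ^ (37 * q) * y))
    (C1 := (n : ℝ) ^ (72 * q) * y ^ 2) (X := (n : ℝ) ^ (-(37 * q)) * y ^ 4) (c := b * y)
    (a := 2 * ((n : ℝ) ^ (-(10 * q)) * y ^ 2)) (w := V / b ^ 2)
    (e := 0) (T₂ := C2 * y ^ 2) (T₃ := 1 / 2) (R := (n : ℝ) ^ (-(49 / 5 * q)) * y)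
    (E1 := (4 * C1 ^ 2 + 1) * y ^ 2) (W2 := (n : ℝ) ^ (-(7 * q)) * y ^ 6)
    (W3 := (n : ℝ) ^ (-(20 * q)) * y ^ 4) (N := N) (N' := N') (m2 := 2 * m1 q n y)
    W.m2'.le h0 W.h4 hu00 huu huN1 hu11 hNN (by positivity) hq0 hq1 hqa hC1
    (fun T hT => hN7 T ⟨hN'1.trans hT.1, hT.2.trans hN1⟩)
    (mul_pos hb y0) (div_pos hE.V0 (by positivity)) (by positivity) le_rfl (by positivity)
    (by positivity) (by positivity) hNT hT23 (by norm_num)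
    (by rw [add_zero]; exact hR)
    (fun T hT => by
      obtain ⟨T', hT', u, hu, m, hm, hr⟩ := hnear T ⟨hTN1'.trans hT.1, hT.2⟩
      refine ⟨T', hT', u, hu, m, hm, hr.trans ?_⟩
      have := sq_nonneg (rho ((1 - hh q n) * (b * y)) ((1 + hh q n) *
        (2 * ((n : ℝ) ^ (-(10 * q)) * y ^ 2)) + 0) ((1 + hh q n) * (V / b ^ 2)) T')
      linarith)
    hfar
  have hke := ka_ke hC hE ha6 (vp := V - s ^ 2) (s := s) (u := u0 q n)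
    (u' := uN q n y (V - s ^ 2)) W.vp0.le (by linarith [sq_nonneg s]) hK.s2
    (show (0 : ℝ) ≤ ((2 * m1 q n y : ℕ) : ℝ) / (n : ℝ) by positivity) W.m2 hu00
    (huu.trans huN1) (by linarith) hudiff huv hN1 hTN0 hN'1 hN'2
  have hfin := ka_sum hC hE ha6 h0.le W.h4 (C1 := C1) hC2 hke
  refine (show (lawOf n b y V al s lam η).KA ≤ n * y ^ 2 * b ^ 2 / 4 * _ from key).trans ?_
  refine (mul_le_mul_of_nonneg_left hfin (by positivity)).trans ?_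
  unfold CK
  exact le_of_eq (by ring)

end Vale.Agent.P146.H586.S3
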