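import Vale.Agent.P146.H586.KaC
import Vale.Agent.P146.H757.NeFin

set_option linter.all false

/-!
# P146, S3: the upper bound of the relative entropy with a constant, composition

`near_of`: the first regime from the number of the big overlaps;
`far_of`: the rest from the middle regime and the second regime;
`ka_all`: `KA ≤ CK n y⁶` at one choice of the data.
-/

open MeasureTheory ProbabilityTheory Filter Topology Set

namespace Vale.Agent.P146.H586.S3

open Vale.Agent.P157.Lv hiding Dep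
open Vale.Agent.P146.H425 Vale.Agent.P146.H646 Vale.Agent.P146.H317 Vale.Agent.P146.H418
  Vale.Agent.P146.H529 Vale.Agent.P146.H197 Vale.Agent.P146.H122 Vale.Agent.P146.H615
open Vale.Agent.P146.H470 (Env le_of_log dl mm log_c)

section

variable {a0 b₁ q A b C1 C2 : ℝ} {n : ℕ} {y V al s lam η : ℝ}

/-- **The first regime** from the number of the big overlaps. -/
theorem near_of (h : NW a0 b₁ q A b n y V al s lam η)
    (hap : ∀ T, 0 < T → T ≤ 1 → ∀ u ∈ Icc (0 : ℝ) 1, ApN q 10 (lawOf n b y V al s lam η) T u)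
    (hbr : BrC q b C1 n y V al s lam η) {Tb : ℝ} (hTb : Tb ≤ 1) :
    ∀ T ∈ Icc (H122.T1 q n y / 2) Tb, ∃ T' ∈ Icc (T / (1 + H122.hh q n)) T,
      ∃ u ∈ Icc (u0 q n) (u1 q n), ∃ m ≤ 2 * m1 q n y,
      (lawOf n b y V al s lam η).rr (Sn n m) (1 - T') u ≤ (4 * C1 ^ 2 + 1) * y ^ 2 := by
  intro T hT
  obtain ⟨hAd, a1, a2⟩ := h.adm
  obtain ⟨f1, f2, f3, f4, f5, f6, f7, f8, f9, f10, f11, f12, f13, f14⟩ := h.facts
  obtain ⟨m1', m2, m3, m4⟩ := h.mm_facts
  have hn := h.env.n0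
  have hy := h.env.y0
  have hh0 : 0 < H470.hh q n := Real.rpow_pos_of_pos hn _
  have hh1 : H470.hh q n ≤ 1 :=
    Real.rpow_le_one_of_one_le_of_nonpos (by exact_mod_cast h.kw.n1.le) (by linarith [h.q0])
  have hdl0 : 0 < dl q n := Real.rpow_pos_of_pos hn _
  have hdl1 : dl q n ≤ 1 / 4 := by
    have c4 := log_c 4 (by norm_num)
    unfold dl
    refine le_of_log (by positivity) (by positivity) ?_
    simp (disch := positivity) only [Real.log_rpow, Real.log_div, Real.log_one]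
    linarith
  have hT1 : H122.T1 q n y / 2 ≤ T := hT.1
  have hTT1 : T ≤ 1 := hT.2.trans hTb
  have hT0 : 0 < T := by
    refine lt_of_lt_of_le ?_ hT1
    unfold H122.T1
    positivity
  obtain ⟨T', hT'', u, hu, m, hm, hty⟩ := H75.sel_typU (L := lawOf n b y V al s lam η) hAd
    (h := H470.hh q n) (Ta := T) (Tb := T) (u0 := 1 - 2 * dl q n) (u1 := 1 - dl q n)
    (m1 := mm q n y) (m2 := 2 * mm q n y) hh0.le hT0 hTT1 m2 (by omega) (by linarith)
    (by linarith) (by linarith) T ⟨le_rfl, le_rfl⟩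
  have hT'0 : 0 < T' := lt_of_lt_of_le (by positivity) hT''.1
  have hTT : T / 2 ≤ T' := by
    refine le_trans ?_ hT''.1
    exact div_le_div_of_nonneg_left hT0.le (by linarith) (by linarith)
  have hT'1 : T' ≤ 1 := hT''.2.trans hTT1
  have h4 : (n : ℝ) ^ (-(70 * q)) * y ^ 2 / 4 ≤ T' := by
    have : H122.T1 q n y = (n : ℝ) ^ (-(70 * q)) * y ^ 2 := rfl
    rw [this] at hT1
    linarith
  have hT71 : (n : ℝ) ^ (-(71 * q)) * y ^ 2 ≤ T' := by
    refine le_trans ?_ h4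
    have c4 := log_c 4 (by norm_num)
    refine le_of_log (by positivity) (by positivity) ?_
    simp (disch := positivity) only [Real.log_mul, Real.log_rpow, Real.log_pow, Real.log_div]
    push_cast
    linarith
  obtain ⟨T3, hT3, hty⟩ := hty
  have hT2 : T' / 2 ≤ T3 := by
    refine le_trans ?_ hT3.1
    exact div_le_div_of_nonneg_left hT'0.le (by linarith) (by linarith)
  have hp := ptn_typ h (by norm_num) hap hT71 hT'1 hu hm hT2 (hT3.2.trans hT'1) hty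
  obtain ⟨v1, v2, -⟩ := h.u_mem hu
  have hmI := Finset.mem_Icc.1 hm
  refine ⟨T', hT'', u, hu, m, hmI.2, ?_⟩
  exact rr_br h hT71 hT'1 hp (hbr T' h4 hT'1 u (by linarith) hu.2 m hmI.1)

/-- **The rest** from the middle regime and the second regime. -/
theorem far_of (hn : 1 < n) (hy : 0 < y) (hq : 0 < q) (hmid : RowMid q b C2 n y V al s lam η)
    (hr2 : H122.RowUp2 q b n y V al s lam η) (hC2 : 1 ≤ C2) :
    ∀ T ∈ Icc (C2 * y ^ 2) (1 / 2), ∃ T' ∈ Icc (T / (1 + H122.hh q n)) T,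
      ∃ u ∈ Icc (u0 q n) (u1 q n), ∃ m ≤ 2 * m1 q n y,
      (lawOf n b y V al s lam η).rr (Sn n m) (1 - T') u ≤
        (n : ℝ) ^ (-(7 * q)) * y ^ 6 / T' ^ 2 + (n : ℝ) ^ (-(20 * q)) * y ^ 4 / T' := by
  intro T hT
  have hn1 : (1 : ℝ) ≤ n := by exact_mod_cast hn.le
  have hn0 : (0 : ℝ) < n := by linarith
  have hT0 : 0 < T := lt_of_lt_of_le (by positivity) hT.1
  have hh0 : 0 < H122.hh q n := Real.rpow_pos_of_pos hn0 _
  rcases le_total T (H122.T2 q n y) with h | h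
  · obtain ⟨T', hT', u, hu, m, hm, hr⟩ := hmid T ⟨hT.1, h⟩
    have hT'0 : 0 < T' := lt_of_lt_of_le (by positivity) hT'.1
    refine ⟨T', hT', u, hu, m, hm, hr.trans ?_⟩
    have : 0 ≤ (n : ℝ) ^ (-(7 * q)) * y ^ 6 / T' ^ 2 := by positivity
    linarith
  · obtain ⟨T', hT', u, hu, m, hm, hr⟩ := hr2 T ⟨h, hT.2⟩
    have hT'0 : 0 < T' := lt_of_lt_of_le (by positivity) hT'.1
    refine ⟨T', hT', u, hu, m, hm, hr.trans ?_⟩
    have h1 : (n : ℝ) ^ (-(37 * q)) ≤ (n : ℝ) ^ (-(20 * q)) :=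
      Real.rpow_le_rpow_of_exponent_le hn1 (by linarith)
    have h2 : (n : ℝ) ^ (-(37 * q)) * y ^ 4 / T' ≤ (n : ℝ) ^ (-(20 * q)) * y ^ 4 / T' := by
      gcongr
    linarith

/-- **The upper bound of the relative entropy with a constant**, at one choice of the data. -/
theorem ka_all {K : ℝ} (hw : NW a0 b₁ q A b n y V al s lam η)
    (hap : ∀ T, 0 < T → T ≤ 1 → ∀ u ∈ Icc (0 : ℝ) 1, ApN q 10 (lawOf n b y V al s lam η) T u)
    (hC : Cst q K b₁ b A) (hE : Env a0 b₁ (24 * q) q K n y V)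
    (W : WF q b n y V s lam η) (g4 : 2 ≤ (n : ℝ) ^ q)
    (hCC : ∀ (S : Finset (Fin n)) (t u : ℝ), 0 ≤ t → t < 1 → u ∈ Icc (0 : ℝ) 1 →
        (lawOf n b y V al s lam η).ex' t u (H412.CC (lawOf n b y V al s lam η) S t u) ≤
          (n : ℝ) ^ q * y ^ 4 / (1 - t))
    (hCg : ∀ (S : Finset (Fin n)) (T u : ℝ), 0 < T → T ≤ 1 → u ∈ Icc (0 : ℝ) 1 →
        (lawOf n b y V al s lam η).rrg S (1 - T) u 1 ≤ (n : ℝ) ^ q * y ^ 4 / T ∧
        (lawOf n b y V al s lam η).ffg S (1 - T) u 1 ≤ n * √((n : ℝ) ^ q * y ^ 4 / T) ∧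
        (lawOf n b y V al s lam η).fag S (1 - T) u 1 ≤ n * (4 * √((n : ℝ) ^ q * y ^ 4 / T)))
    (hC2 : 1 ≤ C2) (hC2n : C2 ≤ (n : ℝ) ^ q) (hbr : BrC q b C1 n y V al s lam η)
    (hmid : RowMid q b C2 n y V al s lam η) (hr2 : H122.RowUp2 q b n y V al s lam η)
    (hN7 : H412.U.N7g q b n y V al s lam η) :
    (lawOf n b y V al s lam η).KA ≤ CK b C1 C2 * (n * y ^ 6) := by
  have hy := hw.env.y0
  have hT23 : C2 * y ^ 2 ≤ 1 := by
    have h1 : C2 * y ^ 2 ≤ H122.T2 q n y := by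
      unfold H122.T2
      refine mul_le_mul_of_nonneg_right (hC2n.trans ?_) (by positivity)
      exact Real.rpow_le_rpow_of_exponent_le W.n1.le (by linarith [hC.q0])
    linarith [W.T21]
  exact ka_pt hw.a0' hC hE W g4 hw.kw hCC hCg hC2 hC2n
    (far_of hw.kw.n1 hy hC.q0 hmid hr2 hC2) (near_of hw hap hbr hT23) hN7

end

/-- **The upper bound of the relative entropy with a constant**, from the number of the big
overlaps, the middle regime and the second regime. -/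
theorem ka_ev {a0 b₁ q A b C1 C2 : ℝ} (hq : 0 < q) (hb : 0 < b) (hA : 1 ≤ A)
    (ha0 : a0 ≤ 1 / 6) (hb₁ : 100 * q < b₁) (hC2 : 1 ≤ C2) :
    ∀ᶠ n : ℕ in atTop, ∀ y V al s lam η : ℝ, KW a0 b₁ q A b n y V al s lam η →
      (n : ℝ) ^ (-(80 * q)) * V ≤ A * s ^ 2 → BrC q b C1 n y V al s lam η →
      RowMid q b C2 n y V al s lam η → H122.RowUp2 q b n y V al s lam η →
      (lawOf n b y V al s lam η).KA ≤ CK b C1 C2 * (n * y ^ 6) := by
  filter_upwards [H122.apr_CC hb hq ha0 hb₁.le hA, H412.U.apr_g hb hq ha0 hb₁.le hA,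
    apn_ev (a0 := a0) (b₁ := b₁) 10 hq hb hA ha0 hb₁, H757.n7_end hq hb hA ha0 hb₁,
    H178.ev_pow hq C2] with n g1 g2 g3 g5 g6
  intro y V al s lam η hK hs hbr hmid hr2
  obtain ⟨hE, W, g4, hCC⟩ := g1 y V al s lam η hK
  obtain ⟨hw, hap⟩ := g3 y V al s lam η hK
  exact ka_all hw hap ⟨hb, hA, hq, hb₁.le, le_rfl⟩ hE W g4 hCC (g2 y V al s lam η hK) hC2 g6 hbr
    hmid hr2 fun T hT => g5 y V al s lam η hK hs T hT.1 hT.2

end Vale.Agent.P146.H586.S3
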