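import Vale.Agent.P146.H586.KaD
import Vale.Agent.P146.H516.BrC
import Vale.Agent.P146.H529.S3Up
import Vale.Agent.P146.H317.RowMid
import Vale.Agent.P146.H442.RowUp2Fin
import Vale.Agent.P146.H272.SlopeUp

set_option linter.all false

/-!
# P146, S3: the upper bound of the relative entropy with a constant, from the bound of the slope

`kaC_of`: `H529.KaC` with a constant which depends on `b` and on the constant of the slope only;
`kaC`: the same, with `H272.slope_up`.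
-/

open MeasureTheory ProbabilityTheory Filter Topology Set

namespace Vale.Agent.P146.H586.S3

open Vale.Agent.P146.H418 Vale.Agent.P146.H529

/-- the constant -/
noncomputable def CKa (b C1 Ca : ℝ) : ℝ := CK b C1 (H317.C2c b Ca C1)

/-- **`KaC` from the bound of the slope.** -/
theorem kaC_of {b : ℝ} (hb : 1 < b) {Ca : ℝ} (hCa : 1 ≤ Ca)
    (hsl : ∀ {a0 b₁ q A : ℝ}, 0 < q → a0 ≤ 1 / 6 → 100 * q < b₁ → 1 ≤ A →
      ∀ᶠ n : ℕ in atTop, ∀ y V al s lam η : ℝ, KW a0 b₁ q A b n y V al s lam η →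
        al ≤ Ca * y ^ 2) :
    ∃ C : ℝ, 0 ≤ C ∧ ∀ a0 b₁ q A : ℝ, 0 < q → a0 ≤ 1 / 6 → 10000 * q ≤ b₁ → 1 ≤ A →
      H529.KaC a0 b₁ q A b C := by
  obtain ⟨C1, hC1, hbr⟩ := H516.BC.brC hb hCa
  have hb0 : 0 < b := by linarith
  obtain ⟨C2, hC2, hm⟩ := H317.row_mid hb0 hCa hC1
  refine ⟨CK b C1 C2, ?_, ?_⟩
  · unfold CK
    positivity
  intro a0 b₁ q A hq ha0 hb₁ hA
  have hb2 : 100 * q < b₁ := by linarith
  filter_upwards [hsl hq ha0 hb2 hA, hbr hq ha0 hb₁ hA, hm hq hA ha0 hb2,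
    H442.rowFar_C (C := Ca) hq hb.le hA ha0 hb2,
    ka_ev (C1 := C1) (C2 := C2) hq hb0 hA ha0 hb2 hC2] with n g1 g2 g3 g4 g5
  intro y V al s lam η hK hs
  have hal := g1 y V al s lam η hK
  have hP : H317.BrP q b C1 n y V al s lam η := by
    intro T hT u hu m hm
    exact g2 y V al s lam η hK hal T hT u hu m hm
  have hB : BrC q b C1 n y V al s lam η := by
    intro T hT1 hT2 u hu0 hu1 m hm
    exact hP T ⟨hT1, hT2⟩ u ⟨hu0, hu1⟩ m (hm.trans (Nat.le_succ _))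
  refine g5 y V al s lam η hK ?_ hB (g3 y V al s lam η hK hal hP) (g4 y V al s lam η hK hal hs)
  have h0 : 0 ≤ s ^ 2 := sq_nonneg s
  rw [← hs]
  nlinarith

/-- **The upper bound of the relative entropy with a constant**, `s² = n^(-80q) V`. -/
theorem kaC {b : ℝ} (hb : 1 < b) :
    ∃ C : ℝ, 0 ≤ C ∧ ∀ a0 b₁ q A : ℝ, 0 < q → a0 ≤ 1 / 6 → 10000 * q ≤ b₁ → 1 ≤ A →
      H529.KaC a0 b₁ q A b C := by
  obtain ⟨Ca, hCa, hsl⟩ := H272.slope_up (b := b) (by linarith)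
  exact kaC_of hb hCa fun {a0 b₁ q A} hq ha0 hb₁ hA => hsl hq ha0 hb₁ hA

end Vale.Agent.P146.H586.S3
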