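import Vale.Agent.P146.H586.Bes8
import Vale.Agent.P146.H463.NeIn

set_option linter.all false

/-!
The near end, general Gibbs system: the Bessel bound, the moment inputs and the fourth cumulant
give a lower bound of the remaining square by `(E Q^2)^(3/2)`.
-/

open MeasureTheory ProbabilityTheory Filter Topology

namespace Vale.Agent.P146.H586

open Vale.Agent.P157.Lv Vale.Agent.P146.H196 Vale.Agent.P146.H646 Vale.Agent.P146.H161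
  Vale.Agent.P146.H615 Vale.Agent.P146.H463

section abs

variable {κ : Type*} [Fintype κ] [DecidableEq κ] {μ : κ → Measure ℝ}
  [∀ e, IsProbabilityMeasure (μ e)] {w Q G : (κ → ℝ) → ℝ}

/-- Jensen for the third and second moments on an event -/
lemma jen (hw : Wt μ w) (bQ : BM Q) (bG : BM G) (hQ : ∀ z, 0 ≤ Q z) (hG0 : ∀ z, 0 ≤ G z)
    (hG1 : ∀ z, G z ≤ 1) :
    ex μ w (fun z => G z * Q z ^ 2) * √(ex μ w (fun z => G z * Q z ^ 2)) ≤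
      ex μ w (fun z => G z * Q z ^ 3) := by
  set A := ex μ w (fun z => G z * Q z ^ 2) with hA
  set B := ex μ w (fun z => G z * Q z ^ 3) with hB
  set D := ex μ w (fun z => G z * Q z) with hD
  have hA0 : 0 ≤ A := ex_nonneg hw fun z => mul_nonneg (hG0 z) (sq_nonneg _)
  have hD0 : 0 ≤ D := ex_nonneg hw fun z => mul_nonneg (hG0 z) (hQ z)
  have hB0 : 0 ≤ B := ex_nonneg hw fun z => mul_nonneg (hG0 z) (pow_nonneg (hQ z) 3)
  have h1 := abs_ex_wmul_le hw (bG.mul bQ) (fun z => mul_nonneg (hG0 z) (hQ z)) (BM.const 1) bQ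
  have e1 : (fun z => G z * Q z * (1 * Q z)) = fun z => G z * Q z ^ 2 := by
    funext z; ring
  have e2 : (fun z => G z * Q z * (1 : ℝ) ^ 2) = fun z => G z * Q z := by
    funext z; ring
  have e3 : (fun z => G z * Q z * Q z ^ 2) = fun z => G z * Q z ^ 3 := by
    funext z; ring
  rw [e1, e2, e3, ← hA, ← hB, ← hD, abs_of_nonneg hA0] at h1
  have h2 := abs_ex_wmul_le hw bG hG0 bQ (BM.const 1)
  have e4 : (fun z => G z * (Q z * 1)) = fun z => G z * Q z := by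
    funext z; ring
  have e5 : (fun z => G z * (1 : ℝ) ^ 2) = G := by
    funext z; ring
  rw [e4, e5, ← hA, ← hD, abs_of_nonneg hD0] at h2
  have h3 : √(ex μ w G) ≤ 1 := by
    refine Real.sqrt_le_one.2 ?_
    have := ex_mono hw bG (BM.const 1) hG1
    rwa [ex_const hw] at this
  have h4 : D ≤ √A := h2.trans (by
    calc √A * √(ex μ w G) ≤ √A * 1 := mul_le_mul_of_nonneg_left h3 (Real.sqrt_nonneg _)
      _ = √A := mul_one _)
  rcases hA0.eq_or_lt with h0 | h0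
  · rw [← h0]; simpa using hB0
  have hs : 0 < √A := Real.sqrt_pos.2 h0
  have h5 : A ^ 2 ≤ D * B := by
    have h6 := pow_le_pow_left₀ hA0 h1 2
    rwa [mul_pow, Real.sq_sqrt hD0, Real.sq_sqrt hB0] at h6
  have h6 : A ^ 2 ≤ √A * B := h5.trans (mul_le_mul_of_nonneg_right h4 hB0)
  have h7 : A * √A * √A ≤ B * √A := by
    rw [mul_assoc, Real.mul_self_sqrt hA0]
    linarith
  exact le_of_mul_le_mul_right h7 hs

/-- the second moment off an event of small probability -/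
lemma bad_le (hw : Wt μ w) (bQ : BM Q) {P : (κ → ℝ) → ℝ} (bP : BM P)
    (hP2 : ∀ z, P z ^ 2 = P z) :
    ex μ w (fun z => P z * Q z ^ 2) ≤
      √(ex μ w (fun z => Q z ^ 4)) * √(ex μ w P) := by
  have h1 := abs_ex_mul_le hw (bsq bQ) bP
  have e1 : (fun z => Q z ^ 2 * P z) = fun z => P z * Q z ^ 2 := by
    funext z; ring
  have e2 : (fun z => (Q z ^ 2) ^ 2) = fun z => Q z ^ 4 := by
    funext z; ring
  have e3 : (fun z => P z ^ 2) = P := by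
    funext z; exact hP2 z
  rw [e1, e2, e3] at h1
  exact (le_abs_self _).trans h1

end abs

section gm

variable {ι : Type} [Fintype ι] [DecidableEq ι] {Ω : Type} [MeasurableSpace Ω]
  {m : Measure Ω} {E : ι → Ω → ℝ} {M0 : ℝ} {K K' R : Finset ι}
  {J : Type} {S : Finset J} {σ : J → Ω → ℝ} {s0 a : Ω → ℝ} {x τ B β wf kp η b0 N c1 : ℝ}

/-- `Q = |M|^2 / N` -/
noncomputable def Qg (m : Measure Ω) (E : ι → Ω → ℝ) (x : ℝ) (K : Finset ι) (a : Ω → ℝ)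
    (σ : J → Ω → ℝ) (S : Finset J) (N : ℝ) (z : ι → ℝ) : ℝ := m2 S (Mg m E x K a σ) z / N

/-- the rank one defect over `N^2` -/
noncomputable def rkg (m : Measure Ω) (E : ι → Ω → ℝ) (x : ℝ) (K : Finset ι)
    (σ : J → Ω → ℝ) (S : Finset J) (N : ℝ) (z : ι → ℝ) : ℝ := RKg m E x K σ S z / N ^ 2

/-- the four point functions over `N^4` -/
noncomputable def q4g (m : Measure Ω) (E : ι → Ω → ℝ) (x : ℝ) (K : Finset ι)
    (σ : J → Ω → ℝ) (S : Finset J) (N : ℝ) (z : ι → ℝ) : ℝ := Q4g m E x K σ S z / N ^ 4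

/-- the rank one defect is bounded -/
lemma RKg_le (hG : GM m E M0) (x : ℝ) (K : Finset ι) (hs : ∀ j, Bd (σ j))
    (h1 : ∀ j ω, |σ j ω| ≤ 1) (S : Finset J) (z : ι → ℝ) :
    RKg m E x K σ S z ≤ 4 * (S.card : ℝ) ^ 2 := by
  have hw := H347.wt hG 1 x
  have hb : ∀ {h : Ω → ℝ}, Bd h → (∀ ω, |h ω| ≤ 1) →
      |cx (H347.g1 ι) K (Zxm m 1 E x) (avm m 1 E h) z| ≤ 1 := by
    intro h hh hh1
    exact hw.abs_cx_le K ((av_gm hG 1).bm hh) (fun y => hG.abs_av_le 1 hh.1 hh1 y) z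
  have h2 : ∀ j l, (Cg m E x K σ j l z -
      cx (H347.g1 ι) K (Zxm m 1 E x) (avm m 1 E (σ j)) z *
      cx (H347.g1 ι) K (Zxm m 1 E x) (avm m 1 E (σ l)) z) ^ 2 ≤ 4 := by
    intro j l
    have a1 : |Cg m E x K σ j l z| ≤ 1 := hb ((hs j).mul (hs l)) (fun ω => by
      rw [abs_mul]
      exact mul_le_one₀ (h1 j ω) (abs_nonneg _) (h1 l ω))
    have a2 := hb (hs j) (h1 j)
    have a3 := hb (hs l) (h1 l)
    have a4 : |cx (H347.g1 ι) K (Zxm m 1 E x) (avm m 1 E (σ j)) z *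
        cx (H347.g1 ι) K (Zxm m 1 E x) (avm m 1 E (σ l)) z| ≤ 1 := by
      rw [abs_mul]
      exact mul_le_one₀ a2 (abs_nonneg _) a3
    have a5 := abs_sub (Cg m E x K σ j l z)
      (cx (H347.g1 ι) K (Zxm m 1 E x) (avm m 1 E (σ j)) z *
      cx (H347.g1 ι) K (Zxm m 1 E x) (avm m 1 E (σ l)) z)
    have a6 : |Cg m E x K σ j l z - cx (H347.g1 ι) K (Zxm m 1 E x) (avm m 1 E (σ j)) z *
      cx (H347.g1 ι) K (Zxm m 1 E x) (avm m 1 E (σ l)) z| ≤ 2 := by linarith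
    rw [← sq_abs]
    nlinarith [abs_nonneg (Cg m E x K σ j l z -
      cx (H347.g1 ι) K (Zxm m 1 E x) (avm m 1 E (σ j)) z *
      cx (H347.g1 ι) K (Zxm m 1 E x) (avm m 1 E (σ l)) z)]
  unfold RKg
  calc _ ≤ ∑ j ∈ S, ∑ l ∈ S, (4 : ℝ) :=
        Finset.sum_le_sum fun j _ => Finset.sum_le_sum fun l _ => h2 j l
    _ = 4 * (S.card : ℝ) ^ 2 := by
        simp only [Finset.sum_const, nsmul_eq_mul]
        ring

lemma sqrt_b {e c W : ℝ} (hc : 0 ≤ c) (h : e ≤ c ^ 2 * W) : √e ≤ c * √W := by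
  calc √e ≤ √(c ^ 2 * W) := Real.sqrt_le_sqrt h
    _ = c * √W := by rw [Real.sqrt_mul (sq_nonneg c), Real.sqrt_sq hc]

/-- the numbers, last step -/
lemma comb_fin {B η x kp b0 r w2 w4 EY3 T1 T3 : ℝ} (hB : 0 ≤ B)
    (hη : 0 ≤ η) (hx : 0 ≤ x) (hr0 : 0 ≤ r) (hw20 : 0 ≤ w2) (hw40 : 0 ≤ w4)
    (k1 : T1 ≤ 155446 * (B ^ 3 * (9 / 4 * (r * w4) + 9 * η ^ 2 * (w2 * w4))))
    (k3 : EY3 ≤ 45 / 2 * (B ^ 3 * (w2 * w4)))
    (k5 : T3 ≤ B ^ 3 * (27 * (w2 * r) + 135 * (w2 * w4))) :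
    784 * T1 + 4 * ((48 * η + 28 * x) ^ 2 * EY3) +
      16 * (kp ^ 2 * (x * (48 * b0 ^ 2 + 6)) ^ 2 * T3) ≤
    B ^ 3 * (2 * 10 ^ 9 + 2200 * kp ^ 2 * (48 * b0 ^ 2 + 6) ^ 2) *
      (r * w4 + (η + x) ^ 2 * (w2 * w4) + x ^ 2 * (w2 * r)) := by
  obtain ⟨P, hP⟩ : ∃ P, P = kp ^ 2 * (48 * b0 ^ 2 + 6) ^ 2 := ⟨_, rfl⟩
  have hP0 : 0 ≤ P := by rw [hP]; positivity
  obtain ⟨u, hu⟩ : ∃ u, u = B ^ 3 * (r * w4) := ⟨_, rfl⟩
  obtain ⟨v, hv⟩ : ∃ v, v = B ^ 3 * (w2 * w4) := ⟨_, rfl⟩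
  obtain ⟨y, hy⟩ : ∃ y, y = B ^ 3 * (w2 * r) := ⟨_, rfl⟩
  have hu0 : 0 ≤ u := by rw [hu]; positivity
  have hv0 : 0 ≤ v := by rw [hv]; positivity
  have hy0 : 0 ≤ y := by rw [hy]; positivity
  have k1' : T1 ≤ 155446 * (9 / 4 * u + 9 * (η ^ 2 * v)) := by
    refine k1.trans (le_of_eq ?_); rw [hu, hv]; ring
  have k3' : EY3 ≤ 45 / 2 * v := by rw [hv]; exact k3
  have k5' : T3 ≤ 27 * y + 135 * v := by
    refine k5.trans (le_of_eq ?_); rw [hy, hv]; ring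
  obtain ⟨g, hg⟩ : ∃ g, g = (η + x) ^ 2 := ⟨_, rfl⟩
  have hg0 : 0 ≤ g := by rw [hg]; positivity
  have z6 : η ^ 2 ≤ g := by rw [hg]; exact pow_le_pow_left₀ hη (by linarith) 2
  have z7 : x ^ 2 ≤ g := by rw [hg]; exact pow_le_pow_left₀ hx (by linarith) 2
  have z4 : (48 * η + 28 * x) ^ 2 ≤ 2304 * g := by
    have h1 : 48 * η + 28 * x ≤ 48 * (η + x) := by linarith
    have h0 : 0 ≤ 48 * η + 28 * x := by positivity
    have h2 := pow_le_pow_left₀ h0 h1 2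
    rw [hg]
    linarith
  have e0 : 16 * (kp ^ 2 * (x * (48 * b0 ^ 2 + 6)) ^ 2 * T3) = 16 * (x ^ 2 * (P * T3)) := by
    rw [hP]; ring
  have e1 : B ^ 3 * (2 * 10 ^ 9 + 2200 * kp ^ 2 * (48 * b0 ^ 2 + 6) ^ 2) *
      (r * w4 + (η + x) ^ 2 * (w2 * w4) + x ^ 2 * (w2 * r)) =
      (2 * 10 ^ 9 + 2200 * P) * (u + g * v + x ^ 2 * y) := by
    rw [hP, hu, hv, hy, hg]; ring
  rw [e0, e1]
  have q1 : (48 * η + 28 * x) ^ 2 * EY3 ≤ 2304 * g * (45 / 2 * v) := by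
    calc (48 * η + 28 * x) ^ 2 * EY3 ≤ (48 * η + 28 * x) ^ 2 * (45 / 2 * v) :=
          mul_le_mul_of_nonneg_left k3' (sq_nonneg _)
      _ ≤ _ := mul_le_mul_of_nonneg_right z4 (by positivity)
  have q2 : x ^ 2 * (P * T3) ≤ x ^ 2 * (P * (27 * y + 135 * v)) :=
    mul_le_mul_of_nonneg_left (mul_le_mul_of_nonneg_left k5' hP0) (sq_nonneg _)
  have q3 : η ^ 2 * v ≤ g * v := mul_le_mul_of_nonneg_right z6 hv0
  have q4 : x ^ 2 * (P * v) ≤ g * (P * v) := mul_le_mul_of_nonneg_right z7 (by positivity)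
  have p1 : 0 ≤ g * v := by positivity
  have p2 : 0 ≤ x ^ 2 * y := by positivity
  have p3 : 0 ≤ P * u := by positivity
  have p4 : 0 ≤ g * (P * v) := by positivity
  have p5 : 0 ≤ x ^ 2 * (P * y) := by positivity
  have e2 : (2 * 10 ^ 9 + 2200 * P) * (u + g * v + x ^ 2 * y) =
      2 * 10 ^ 9 * u + 2 * 10 ^ 9 * (g * v) + 2 * 10 ^ 9 * (x ^ 2 * y) + 2200 * (P * u) +
      2200 * (g * (P * v)) + 2200 * (x ^ 2 * (P * y)) := by ring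
  have e3 : x ^ 2 * (P * (27 * y + 135 * v)) = 27 * (x ^ 2 * (P * y)) +
      135 * (x ^ 2 * (P * v)) := by ring
  rw [e2]
  rw [e3] at q2
  generalize x ^ 2 * (P * v) = t1 at q2 q4
  generalize x ^ 2 * (P * y) = t2 at q2 p5 ⊢
  generalize x ^ 2 * (P * T3) = t3 at q2 ⊢
  generalize g * (P * v) = t4 at q4 p4 ⊢
  generalize P * u = t5 at p3 ⊢
  generalize x ^ 2 * y = t6 at p2 ⊢
  have e4 : 2304 * g * (45 / 2 * v) = 51840 * (g * v) := by ring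
  rw [e4] at q1
  generalize (48 * η + 28 * x) ^ 2 * EY3 = t7 at q1 ⊢
  generalize η ^ 2 * v = t8 at q3 k1'
  generalize g * v = t9 at q1 q3 p1 ⊢
  linarith

/-- the numbers -/
lemma comb_ne {B β η x kp b0 rk W2 W4 EY2 EY3 EY4 T1 T3 g4 wf : ℝ} (hB : 0 ≤ B) (hβ0 : 0 ≤ β)
    (hβB : β ≤ B) (hη : 0 ≤ η) (hx : 0 ≤ x) (hg4 : 0 ≤ g4)
    (h2 : EY2 ≤ 2 * B ^ 2 * W2) (h4 : EY4 ≤ 208 * B ^ 4 * W4) (h3 : EY3 ≤ √EY2 * √EY4)
    (hW2 : 0 ≤ W2) (hW4 : W4 = g4 + wf ^ 4)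
    (hT1 : T1 ≤ 155446 * ((3 / 2 * (β * √rk) + 4 * η ^ 2 * √EY2) *
      √(2 * β ^ 4 * g4 + 2 * (B * wf) ^ 4)))
    (hT3 : T3 ≤ 18 * B ^ 2 * (√EY2 * √rk) + 6 * EY3) :
    784 * T1 + 4 * ((48 * η + 28 * x) ^ 2 * EY3) +
      16 * (kp ^ 2 * (x * (48 * b0 ^ 2 + 6)) ^ 2 * T3) ≤
    B ^ 3 * (2 * 10 ^ 9 + 2200 * kp ^ 2 * (48 * b0 ^ 2 + 6) ^ 2) *
      (√rk * √W4 + (η + x) ^ 2 * (√W2 * √W4) + x ^ 2 * (√W2 * √rk)) := by
  have s2 : √EY2 ≤ 3 / 2 * B * √W2 := sqrt_b (by positivity) (by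
    refine h2.trans ?_
    nlinarith [mul_nonneg (sq_nonneg B) hW2])
  have hW40 : 0 ≤ W4 := by rw [hW4]; positivity
  have s4 : √EY4 ≤ 15 * B ^ 2 * √W4 := sqrt_b (by positivity) (by
    refine h4.trans ?_
    nlinarith [mul_nonneg (pow_nonneg hB 4) hW40])
  have hβ4 : β ^ 4 ≤ B ^ 4 := pow_le_pow_left₀ hβ0 hβB 4
  have s5 : √(2 * β ^ 4 * g4 + 2 * (B * wf) ^ 4) ≤ 3 / 2 * B ^ 2 * √W4 :=
    sqrt_b (by positivity) (by
      rw [hW4]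
      have h5 : β ^ 4 * g4 ≤ B ^ 4 * g4 := mul_le_mul_of_nonneg_right hβ4 hg4
      have h6 : 0 ≤ B ^ 4 * g4 := by positivity
      have h7 : 0 ≤ B ^ 4 * wf ^ 4 := by positivity
      nlinarith)
  set r := √rk with hr
  set w2 := √W2 with hw2
  set w4 := √W4 with hw4
  have hr0 : 0 ≤ r := Real.sqrt_nonneg _
  have hw20 : 0 ≤ w2 := Real.sqrt_nonneg _
  have hw40 : 0 ≤ w4 := Real.sqrt_nonneg _
  have k3 : EY3 ≤ 45 / 2 * (B ^ 3 * (w2 * w4)) := by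
    refine h3.trans ?_
    calc √EY2 * √EY4 ≤ (3 / 2 * B * w2) * (15 * B ^ 2 * w4) :=
          mul_le_mul s2 s4 (Real.sqrt_nonneg _) (by positivity)
      _ = _ := by ring
  have k1 : T1 ≤ 155446 * (B ^ 3 * (9 / 4 * (r * w4) + 9 * η ^ 2 * (w2 * w4))) := by
    refine hT1.trans ?_
    have a1 : 3 / 2 * (β * r) + 4 * η ^ 2 * √EY2 ≤ 3 / 2 * (B * r) + 6 * η ^ 2 * (B * w2) := by
      have a2 : β * r ≤ B * r := mul_le_mul_of_nonneg_right hβB hr0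
      have a3 : 4 * η ^ 2 * √EY2 ≤ 4 * η ^ 2 * (3 / 2 * B * w2) :=
        mul_le_mul_of_nonneg_left s2 (by positivity)
      linarith
    have a4 := mul_le_mul a1 s5 (Real.sqrt_nonneg _) (by positivity)
    have e : (3 / 2 * (B * r) + 6 * η ^ 2 * (B * w2)) * (3 / 2 * B ^ 2 * w4) =
        B ^ 3 * (9 / 4 * (r * w4) + 9 * η ^ 2 * (w2 * w4)) := by ring
    rw [e] at a4
    linarith
  have k5 : T3 ≤ B ^ 3 * (27 * (w2 * r) + 135 * (w2 * w4)) := by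
    refine hT3.trans ?_
    have a1 : √EY2 * r ≤ 3 / 2 * B * w2 * r := mul_le_mul_of_nonneg_right s2 hr0
    have a2 : 18 * B ^ 2 * (√EY2 * r) ≤ 18 * B ^ 2 * (3 / 2 * B * w2 * r) :=
      mul_le_mul_of_nonneg_left a1 (by positivity)
    nlinarith
  exact comb_fin hB hη hx hr0 hw20 hw40 k1 k3 k5

end gm

end Vale.Agent.P146.H586
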