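import Vale.Agent.P146.H586.NeG

set_option linter.all false

/-!
The near end, general Gibbs system: `c1^2 β^3 A √A ≤ 160 c3 + error`, `A = E Q^2 - √(26 q4 P(bad))`.
-/

open MeasureTheory ProbabilityTheory Filter Topology

namespace Vale.Agent.P146.H586

open Vale.Agent.P157.Lv Vale.Agent.P146.H196 Vale.Agent.P146.H646 Vale.Agent.P146.H161
  Vale.Agent.P146.H615 Vale.Agent.P146.H463

lemma rl1 (B q wf : ℝ) : (B * (q + wf)) ^ 2 ≤ 2 * B ^ 2 * (q ^ 2 + wf ^ 2) := by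
  have h : 2 * B ^ 2 * (q ^ 2 + wf ^ 2) - (B * (q + wf)) ^ 2 = (B * (q - wf)) ^ 2 := by ring
  have := sq_nonneg (B * (q - wf))
  linarith

lemma rl2 (q wf : ℝ) : (q + wf) ^ 4 ≤ 8 * (q ^ 4 + wf ^ 4) := by
  have h4 : (q + wf) ^ 2 ≤ 2 * (q ^ 2 + wf ^ 2) := by
    nlinarith [sq_nonneg (q - wf)]
  have h5 := pow_le_pow_left₀ (sq_nonneg _) h4 2
  nlinarith [sq_nonneg (q ^ 2 - wf ^ 2)]

lemma rl3 {B β η y r : ℝ} (hB : 0 ≤ B) (hβ0 : 0 ≤ β) (hβB : β ≤ B) (hη : 0 ≤ η)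
    (hη1 : η ≤ 1 / 2) (hy : 0 ≤ y) (hr0 : 0 ≤ r) (hr2 : r ≤ 2) :
    y * (3 / 2 * (β * r) + 4 * η ^ 2 * y + y) ^ 2 ≤ 18 * B ^ 2 * (y * r) + 6 * y ^ 3 := by
  have f2 : β * r ≤ B * r := mul_le_mul_of_nonneg_right hβB hr0
  have f3 : 3 / 2 * (β * r) + 4 * η ^ 2 * y + y ≤ 3 / 2 * (B * r) + 2 * y := by
    have h1 : η ^ 2 ≤ 1 / 4 := by nlinarith
    have h2 : η ^ 2 * y ≤ 1 / 4 * y := mul_le_mul_of_nonneg_right h1 hy
    linarith
  have f4 : 0 ≤ 3 / 2 * (β * r) + 4 * η ^ 2 * y + y := by positivity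
  have f5 := pow_le_pow_left₀ f4 f3 2
  obtain ⟨u, hu⟩ : ∃ u, u = B * r := ⟨_, rfl⟩
  have f6 : (3 / 2 * (B * r) + 2 * y) ^ 2 ≤ 9 * (B ^ 2 * r ^ 2) + 16 / 3 * y ^ 2 := by
    have e : B ^ 2 * r ^ 2 = u ^ 2 := by rw [hu]; ring
    rw [e, ← hu]
    nlinarith [sq_nonneg (9 * u - 4 * y)]
  have f7 : r ^ 2 ≤ 2 * r := by nlinarith
  have f8 : B ^ 2 * r ^ 2 ≤ B ^ 2 * (2 * r) := mul_le_mul_of_nonneg_left f7 (sq_nonneg _)
  have f9 : (3 / 2 * (β * r) + 4 * η ^ 2 * y + y) ^ 2 ≤ 18 * (B ^ 2 * r) + 6 * y ^ 2 := by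
    have := sq_nonneg y
    linarith
  calc y * (3 / 2 * (β * r) + 4 * η ^ 2 * y + y) ^ 2
      ≤ y * (18 * (B ^ 2 * r) + 6 * y ^ 2) := mul_le_mul_of_nonneg_left f9 hy
    _ = 18 * B ^ 2 * (y * r) + 6 * y ^ 3 := by ring

variable {ι : Type} [Fintype ι] [DecidableEq ι] {Ω : Type} [MeasurableSpace Ω]
  {m : Measure Ω} {E : ι → Ω → ℝ} {M0 : ℝ} {K K' R : Finset ι}
  {J : Type} [Fintype J] [DecidableEq J] {S : Finset J} {σ : J → Ω → ℝ} {s0 a : Ω → ℝ}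
  {x τ B β wf kp η b0 N c1 : ℝ}

/-- the fourth power of the overlap -/
lemma Q4_le (hG : GM m E M0) (hη : 0 ≤ η) (hη1 : η ≤ 1 / 2) (hs : ∀ j, Bd (σ j)) (ha : Bd a)
    (haη : ∀ ω, |a ω - 1| ≤ η) (hN : 0 < N) (z : ι → ℝ) :
    Qg m E x K a σ S N z ^ 4 ≤ 26 * q4g m E x K σ S N z := by
  have h1 := m2_sq_le hG hη x K ha hs haη S z
  have h0 : 0 ≤ m2 S (Mg m E x K a σ) z ^ 2 := sq_nonneg _
  have hQ := Q4g_nonneg (m := m) (E := E) (σ := σ) x K S z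
  have h2 := pow_le_pow_left₀ h0 h1 2
  rw [mul_pow, Real.sq_sqrt hQ] at h2
  have h3 : ((1 + η) ^ 4) ^ 2 ≤ 26 := by
    have h4 : (1 + η) ≤ 3 / 2 := by linarith
    have h5 : 0 ≤ 1 + η := by linarith
    calc ((1 + η) ^ 4) ^ 2 ≤ ((3 / 2 : ℝ) ^ 4) ^ 2 :=
          pow_le_pow_left₀ (by positivity) (pow_le_pow_left₀ h5 h4 4) 2
      _ ≤ 26 := by norm_num
  have h6 : (m2 S (Mg m E x K a σ) z ^ 2) ^ 2 ≤ 26 * Q4g m E x K σ S z :=
    h2.trans (mul_le_mul_of_nonneg_right h3 hQ)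
  unfold Qg q4g
  rw [div_pow, ← mul_div_assoc]
  apply div_le_div_of_nonneg_right _ (by positivity)
  calc m2 S (Mg m E x K a σ) z ^ 4 = (m2 S (Mg m E x K a σ) z ^ 2) ^ 2 := by ring
    _ ≤ _ := h6

/-- **The third level is at least `(E Q^2)^(3/2)`.** -/
theorem ne_gm (hG : GM m E M0) (hx0 : 0 ≤ x) (hx1 : x ≤ 1) (hη : 0 ≤ η) (hη1 : η ≤ 1 / 2)
    (hb0 : 0 ≤ b0) (hxb : x * b0 ≤ 1 / 4) (hkp : 0 < kp)
    (hKR : Disjoint K R) (hK : K ⊆ K') (hR : R ⊆ K')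
    (hs : ∀ j, Bd (σ j)) (hsa : ∀ j ω, |σ j ω| ≤ 1) (hs0 : Bd s0) (hs1 : ∀ ω, s0 ω ^ 2 = 1)
    (ha : Bd a) (haη : ∀ ω, |a ω - 1| ≤ η)
    (hN : 0 < N) (hSN : (S.card : ℝ) ≤ N) (hB : 0 ≤ B) (hβ0 : 0 ≤ β) (hβB : β ≤ B)
    (hwf : 0 ≤ wf) (cf : (ι → ℝ) → ι → ℝ)
    (hY : ∀ z ω, YS R (cf z) E ω =
      kp * (s0 ω * (β / N * ms S (Mg m E x K a σ) σ z ω + B * wf)))
    (hc : ∀ z, ∑ e ∈ R, cf z e ^ 2 = kp ^ 2 * Yf S (Mg m E x K a σ) (β / N) (B * wf) z)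
    (hb : ∀ ω, ∑ e ∈ R, E e ω ^ 2 ≤ b0 ^ 2) (hc1 : 0 ≤ c1) {A : ℝ}
    (hA : A ≤ ex (gg ι) (Zxm m 1 E x) (fun z => Qg m E x K a σ S N z ^ 2) -
      √(26 * ex (gg ι) (Zxm m 1 E x) (q4g m E x K σ S N)) *
        √(ex (gg ι) (Zxm m 1 E x) fun z =>
          if -c1 < cx (gg ι) K (Zxm m 1 E x) (fun y => k0 (avm m 1 E s0 y)) z then 1 else 0)) :
    c1 ^ 2 * β ^ 3 * (A * √A) ≤
      160 * ex (gg ι) (Zxm m 1 E x) (fun z => cx (gg ι) K (Zxm m 1 E x) (fun y =>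
        (cx (gg ι) K' (Zxm m 1 E x) (avm m 1 E (fun ω => a ω * s0 ω)) y -
          lc R (cf z) y) ^ 2) z) +
      B ^ 3 * (2 * 10 ^ 9 + 2200 * kp ^ 2 * (48 * b0 ^ 2 + 6) ^ 2) *
        (√(ex (gg ι) (Zxm m 1 E x) (rkg m E x K σ S N)) *
            √(ex (gg ι) (Zxm m 1 E x) (q4g m E x K σ S N) + wf ^ 4) +
          (η + x) ^ 2 *
            (√(ex (gg ι) (Zxm m 1 E x) (fun z => Qg m E x K a σ S N z ^ 2) + wf ^ 2) *
            √(ex (gg ι) (Zxm m 1 E x) (q4g m E x K σ S N) + wf ^ 4)) +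
          x ^ 2 * (√(ex (gg ι) (Zxm m 1 E x) (fun z => Qg m E x K a σ S N z ^ 2) + wf ^ 2) *
            √(ex (gg ι) (Zxm m 1 E x) (rkg m E x K σ S N)))) := by
  set w := Zxm m 1 E x with hwdef
  have hw : Wt (gg ι) w := hG.wt 1 x
  have hAv := av_avm hG 1
  set M := Mg m E x K a σ with hM
  have bM : ∀ j, BM (M j) := bm_Mg hG x K ha hs
  have dM : ∀ j, H646.Dep K (M j) := fun j => dep_Mg m E x K a σ j
  have bm2' : BM (m2 S M) := bm_m2 hAv hs bM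
  set Q := Qg m E x K a σ S N with hQdef
  have eQ : Q = fun z => N⁻¹ * m2 S M z := by
    funext z; rw [hQdef]; unfold Qg; rw [← hM]; field_simp
  have bQ : BM Q := by rw [eQ]; exact bcm _ bm2'
  have hQ0 : ∀ z, 0 ≤ Q z := fun z => by
    rw [eQ]; exact mul_nonneg (inv_nonneg.2 hN.le) (m2_nonneg z)
  have bRK : BM (RKg m E x K σ S) := bm_RKg hG x K hs S
  have hRK0 : ∀ z, 0 ≤ RKg m E x K σ S z := fun z => RKg_nonneg z S
  have bQ4 : BM (Q4g m E x K σ S) := bm_Q4g hG x K hs S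
  have hQ40 : ∀ z, 0 ≤ Q4g m E x K σ S z := fun z => Q4g_nonneg x K S z
  set rkz := rkg m E x K σ S N with hrkz
  have erk : rkz = fun z => (N ^ 2)⁻¹ * RKg m E x K σ S z := by
    funext z; rw [hrkz]; unfold rkg; field_simp
  have brk : BM rkz := by rw [erk]; exact bcm _ bRK
  set q4z := q4g m E x K σ S N with hq4z
  have eq4 : q4z = fun z => (N ^ 4)⁻¹ * Q4g m E x K σ S z := by
    funext z; rw [hq4z]; unfold q4g; field_simp
  have bq4 : BM q4z := by rw [eq4]; exact bcm _ bQ4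
  have hrk0 : ∀ z, 0 ≤ rkz z := fun z => by
    rw [erk]; exact mul_nonneg (by positivity) (hRK0 z)
  have hq40 : ∀ z, 0 ≤ q4z z := fun z => by
    rw [eq4]; exact mul_nonneg (by positivity) (hQ40 z)
  have hrk4 : ∀ z, rkz z ≤ 4 := fun z => by
    rw [erk]
    have h1 := RKg_le hG x K hs hsa S z
    have h2 : (S.card : ℝ) ^ 2 ≤ N ^ 2 := pow_le_pow_left₀ (Nat.cast_nonneg _) hSN 2
    show (N ^ 2)⁻¹ * RKg m E x K σ S z ≤ 4
    rw [inv_mul_le_iff₀ (by positivity)]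
    linarith
  -- the field
  set Y := Yf S M (β / N) (B * wf) with hYdef
  have hτ : 0 ≤ β / N := div_nonneg hβ0 hN.le
  have hv : 0 ≤ B * wf := mul_nonneg hB hwf
  have bY : BM Y := bm_Y hAv hs bM _ _
  have hY0 : ∀ z, 0 ≤ Y z := fun z => Y_nonneg (S := S) (M := M) hτ hv z
  have eY : ∀ z, Y z = β * Q z + B * wf := fun z => by
    rw [eQ]
    show β / N * m2 S M z + B * wf = β * (N⁻¹ * m2 S M z) + B * wf
    ring
  have hYB : ∀ z, Y z ≤ B * (Q z + wf) := fun z => by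
    rw [eY]
    have := mul_le_mul_of_nonneg_right hβB (hQ0 z)
    linarith
  have bY2 := bsq bY
  have bY3 : BM fun z => Y z ^ 3 := by
    have e : (fun z => Y z ^ 3) = fun z => Y z * Y z ^ 2 := by funext z; ring
    rw [e]; exact bY.mul bY2
  -- the Bessel bound
  have dl0 : ∀ z, 0 ≤ 3 / 2 * (β / N * √(RKg m E x K σ S z)) + 4 * η ^ 2 * Y z := fun z =>
    add_nonneg (by positivity) (mul_nonneg (by positivity) (hY0 z))
  have bdl : BM fun z => 3 / 2 * (β / N * √(RKg m E x K σ S z)) + 4 * η ^ 2 * Y z :=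
    (bcm _ (bcm _ (bm_sqrt bRK))).add (bcm _ bY)
  have bx4 : BM fun z => 8 * ((β / N) ^ 2 * √(Q4g m E x K σ S z) + (B * wf) ^ 2) :=
    bcm _ ((bcm _ (bm_sqrt bQ4)).add (BM.const _))
  have bes := bes_exx (K := K) (K' := K') (R := R) (M := M) (T := S) (s := σ) (s0 := s0) (a := a)
    (τ := β / N) (v := B * wf) (dl := fun z => 3 / 2 * (β / N * √(RKg m E x K σ S z)) +
      4 * η ^ 2 * Y z)
    (x4 := fun z => 8 * ((β / N) ^ 2 * √(Q4g m E x K σ S z) + (B * wf) ^ 2))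
    hG hx0 hx1 hη (by linarith) hb0 hxb hkp hτ hv hKR hK hR hs hs0 hs1 ha haη bM dM cf hY hc hb
    bdl bx4 dl0 (fun z => by positivity)
    (fun z => dl2_le hG hη hη1 hτ hv x K ha hs haη S z)
    (fun z => x4_le (a := a) hG hτ hv x K hs S z)
  rw [← hwdef, ← hYdef] at bes
  -- the lower bound
  set kb := cx (gg ι) K w (fun y => k0 (avm m 1 E s0 y)) with hkb
  have bkb : BM kb := hw.bm_cx K (bm_k0 hG hs0)
  set bad : (ι → ℝ) → ℝ := fun z => if -c1 < kb z then 1 else 0 with hbad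
  have mbad : BM bad := by
    refine ⟨Measurable.ite (measurableSet_lt measurable_const bkb.1) measurable_const
      measurable_const, 1, fun z => ?_⟩
    show |(if -c1 < kb z then (1 : ℝ) else 0)| ≤ 1
    split_ifs <;> simp
  have hbad2 : ∀ z, bad z ^ 2 = bad z := fun z => by
    show (if -c1 < kb z then (1 : ℝ) else 0) ^ 2 = if -c1 < kb z then (1 : ℝ) else 0
    split_ifs <;> simp
  have hbad0 : ∀ z, 0 ≤ bad z := fun z => by
    show 0 ≤ (if -c1 < kb z then (1 : ℝ) else 0)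
    split_ifs <;> norm_num
  have hbad1 : ∀ z, bad z ≤ 1 := fun z => by
    show (if -c1 < kb z then (1 : ℝ) else 0) ≤ 1
    split_ifs <;> norm_num
  set G : (ι → ℝ) → ℝ := fun z => 1 - bad z with hGd
  have bG : BM G := (BM.const 1).sub mbad
  have hG0 : ∀ z, 0 ≤ G z := fun z => by
    show 0 ≤ 1 - bad z
    linarith [hbad1 z]
  have hG1 : ∀ z, G z ≤ 1 := fun z => by
    show 1 - bad z ≤ 1
    linarith [hbad0 z]
  have bQ2 := bsq bQ
  have bQ3 : BM fun z => Q z ^ 3 := by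
    have e : (fun z => Q z ^ 3) = fun z => Q z * Q z ^ 2 := by funext z; ring
    rw [e]; exact bQ.mul bQ2
  have low : c1 ^ 2 * β ^ 3 * ex (gg ι) w (fun z => G z * Q z ^ 3) ≤
      ex (gg ι) w (fun z => Y z ^ 3 * kb z ^ 2) := by
    rw [← ex_cmul]
    refine ex_mono hw (bcm _ (bG.mul bQ3)) (bY3.mul (bsq bkb)) fun z => ?_
    by_cases hz : -c1 < kb z
    · have : G z = 0 := by
        show 1 - (if -c1 < kb z then (1 : ℝ) else 0) = 0
        rw [if_pos hz]; ring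
      rw [this]
      have : 0 ≤ Y z ^ 3 * kb z ^ 2 := mul_nonneg (pow_nonneg (hY0 z) 3) (sq_nonneg _)
      simpa using this
    · have e1 : G z = 1 := by
        show 1 - (if -c1 < kb z then (1 : ℝ) else 0) = 1
        rw [if_neg hz]; ring
      rw [e1, one_mul]
      have h2 : c1 ^ 2 ≤ kb z ^ 2 := by
        rw [not_lt] at hz
        nlinarith
      have h3 : (β * Q z) ^ 3 ≤ Y z ^ 3 :=
        pow_le_pow_left₀ (mul_nonneg hβ0 (hQ0 z)) (by rw [eY]; linarith) 3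
      calc c1 ^ 2 * β ^ 3 * Q z ^ 3 = (β * Q z) ^ 3 * c1 ^ 2 := by ring
        _ ≤ Y z ^ 3 * kb z ^ 2 :=
          mul_le_mul h3 h2 (sq_nonneg _) (pow_nonneg (hY0 z) 3)
  have jn := jen hw bQ bG hQ0 hG0 hG1
  have split : ex (gg ι) w (fun z => G z * Q z ^ 2) =
      ex (gg ι) w (fun z => Q z ^ 2) - ex (gg ι) w (fun z => bad z * Q z ^ 2) := by
    rw [← ex_sub hw bQ2 (mbad.mul bQ2)]
    congr 1
    funext z
    show (1 - bad z) * Q z ^ 2 = _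
    ring
  have q4 : ex (gg ι) w (fun z => Q z ^ 4) ≤ 26 * ex (gg ι) w q4z := by
    rw [← ex_cmul]
    have e : (fun z => Q z ^ 4) = fun z => Q z ^ 2 * Q z ^ 2 := by funext z; ring
    have bQ4' : BM fun z => Q z ^ 4 := by rw [e]; exact bQ2.mul bQ2
    exact ex_mono hw bQ4' (bcm 26 bq4) fun z => Q4_le hG hη hη1 hs ha haη hN z
  have bd := bad_le hw bQ mbad hbad2
  have hA1 : A ≤ ex (gg ι) w (fun z => G z * Q z ^ 2) := by
    rw [split]
    have h1 : √(ex (gg ι) w (fun z => Q z ^ 4)) ≤ √(26 * ex (gg ι) w q4z) :=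
      Real.sqrt_le_sqrt q4
    have h2 := mul_le_mul_of_nonneg_right h1 (Real.sqrt_nonneg (ex (gg ι) w bad))
    linarith
  have hA2 : A * √A ≤ ex (gg ι) w (fun z => G z * Q z ^ 3) := by
    rcases le_total A 0 with h0 | h0
    · rw [Real.sqrt_eq_zero_of_nonpos h0, mul_zero]
      exact ex_nonneg hw fun z => mul_nonneg (hG0 z) (pow_nonneg (hQ0 z) 3)
    · refine le_trans ?_ jn
      exact mul_le_mul hA1 (Real.sqrt_le_sqrt hA1) (Real.sqrt_nonneg _) (h0.trans hA1)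
  have hA3 : c1 ^ 2 * β ^ 3 * (A * √A) ≤ ex (gg ι) w (fun z => Y z ^ 3 * kb z ^ 2) :=
    (mul_le_mul_of_nonneg_left hA2 (by positivity)).trans low
  refine hA3.trans (bes.trans ?_)
  -- the errors
  have EY2 : ex (gg ι) w (fun z => Y z ^ 2) ≤
      2 * B ^ 2 * (ex (gg ι) w (fun z => Q z ^ 2) + wf ^ 2) := by
    have h1 := ex_mono hw bY2 (bcm (2 * B ^ 2) (bQ2.add (BM.const (wf ^ 2)))) fun z => by
      exact (pow_le_pow_left₀ (hY0 z) (hYB z) 2).trans (rl1 B (Q z) wf)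
    rw [ex_cmul, ex_add hw bQ2 (BM.const _), ex_const hw] at h1
    exact h1
  have bY4 : BM fun z => Y z ^ 4 := by
    have e : (fun z => Y z ^ 4) = fun z => Y z ^ 2 * Y z ^ 2 := by funext z; ring
    rw [e]; exact bY2.mul bY2
  have EY4 : ex (gg ι) w (fun z => Y z ^ 4) ≤ 208 * B ^ 4 * (ex (gg ι) w q4z + wf ^ 4) := by
    have h1 := ex_mono hw bY4 (bcm (208 * B ^ 4) (bq4.add (BM.const (wf ^ 4)))) fun z => by
      have h2 := pow_le_pow_left₀ (hY0 z) (hYB z) 4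
      have h3 : (Q z + wf) ^ 4 ≤ 8 * (Q z ^ 4 + wf ^ 4) := rl2 (Q z) wf
      have h4 : Q z ^ 4 ≤ 26 * q4z z := Q4_le hG hη hη1 hs ha haη hN z
      have h5 : (Q z + wf) ^ 4 ≤ 208 * (q4z z + wf ^ 4) := by
        have : 0 ≤ wf ^ 4 := by positivity
        linarith
      calc Y z ^ 4 ≤ (B * (Q z + wf)) ^ 4 := h2
        _ = B ^ 4 * (Q z + wf) ^ 4 := by ring
        _ ≤ B ^ 4 * (208 * (q4z z + wf ^ 4)) := mul_le_mul_of_nonneg_left h5 (by positivity)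
        _ = 208 * B ^ 4 * (q4z z + wf ^ 4) := by ring
    rw [ex_cmul, ex_add hw bq4 (BM.const _), ex_const hw] at h1
    exact h1
  have EY3 : ex (gg ι) w (fun z => Y z ^ 3) ≤
      √(ex (gg ι) w (fun z => Y z ^ 2)) * √(ex (gg ι) w (fun z => Y z ^ 4)) := by
    have h1 := abs_ex_mul_le hw bY bY2
    have e1 : (fun z => Y z * Y z ^ 2) = fun z => Y z ^ 3 := by funext z; ring
    have e2 : (fun z => (Y z ^ 2) ^ 2) = fun z => Y z ^ 4 := by funext z; ring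
    rw [e1, e2] at h1
    exact (le_abs_self _).trans h1
  have hNN : β / N * √(ex (gg ι) w (fun z => 1 * RKg m E x K σ S z)) =
      β * √(ex (gg ι) w rkz) := by
    have e1 : (fun z => 1 * RKg m E x K σ S z) = fun z => N ^ 2 * rkz z := by
      funext z
      rw [erk]
      show _ = N ^ 2 * ((N ^ 2)⁻¹ * RKg m E x K σ S z)
      field_simp
    rw [e1, ex_cmul, Real.sqrt_mul (sq_nonneg N), Real.sqrt_sq hN.le]
    field_simp
  have hQ4N : 2 * (β / N) ^ 4 * ex (gg ι) w (fun z => 1 * Q4g m E x K σ S z) =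
      2 * β ^ 4 * ex (gg ι) w q4z := by
    have e1 : (fun z => 1 * Q4g m E x K σ S z) = fun z => N ^ 4 * q4z z := by
      funext z
      rw [eq4]
      show _ = N ^ 4 * ((N ^ 4)⁻¹ * Q4g m E x K σ S z)
      field_simp
    rw [e1, ex_cmul]
    field_simp
  have T1 : ex (gg ι) w (fun z => (3 / 2 * (β / N * √(RKg m E x K σ S z)) + 4 * η ^ 2 * Y z) *
      (19208 * (8 * ((β / N) ^ 2 * √(Q4g m E x K σ S z) + (B * wf) ^ 2)) + 162 * Y z ^ 2)) ≤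
      155446 * ((3 / 2 * (β * √(ex (gg ι) w rkz)) +
        4 * η ^ 2 * √(ex (gg ι) w (fun z => Y z ^ 2))) *
      √(2 * β ^ 4 * ex (gg ι) w q4z + 2 * (B * wf) ^ 4)) := by
    have h1 := ex_prod_le (η := η) (τ := β / N) (v := B * wf) (a := a) (σ := σ) hG hτ x K ha hs S
      (φ := fun _ => 1) (BM.const 1) (fun _ => zero_le_one)
    rw [← hwdef, ← hM, ← hYdef, hNN, hQ4N, ex_const hw, mul_one] at h1
    have e5 : (fun z => 1 * Y z ^ 2) = fun z => Y z ^ 2 := by funext z; ring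
    rw [e5] at h1
    refine le_trans ?_ (mul_le_mul_of_nonneg_left h1 (by norm_num : (0 : ℝ) ≤ 155446))
    rw [← ex_cmul]
    refine ex_mono hw (bdl.mul ((bcm _ bx4).add (bcm _ bY2)))
      (bcm _ ((BM.const 1).mul (bdl.mul ((bcm _ (bm_sqrt bQ4)).add (BM.const _)))))
      fun z => ?_
    have h3 := y2_le hG hη hη1 hτ hv x K ha hs haη S z
    rw [← hM, ← hYdef] at h3
    have h4 := mul_le_mul_of_nonneg_left h3 (dl0 z)
    set dz := 3 / 2 * (β / N * √(RKg m E x K σ S z)) + 4 * η ^ 2 * Y z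
    set gz := (β / N) ^ 2 * √(Q4g m E x K σ S z) + (B * wf) ^ 2
    calc dz * (19208 * (8 * gz) + 162 * Y z ^ 2)
        = 153664 * (dz * gz) + 162 * (dz * Y z ^ 2) := by ring
      _ ≤ 153664 * (dz * gz) + 162 * (dz * (11 * gz)) := by linarith
      _ = 155446 * (1 * (dz * gz)) := by ring
  have T3 : ex (gg ι) w (fun z => Y z * (3 / 2 * (β / N * √(RKg m E x K σ S z)) +
      4 * η ^ 2 * Y z + Y z) ^ 2) ≤
      18 * B ^ 2 * (√(ex (gg ι) w (fun z => Y z ^ 2)) * √(ex (gg ι) w rkz)) +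
        6 * ex (gg ι) w (fun z => Y z ^ 3) := by
    have h1 := abs_ex_mul_le hw bY (bm_sqrt brk)
    have e1 : (fun z => √(rkz z) ^ 2) = rkz := by
      funext z; exact Real.sq_sqrt (hrk0 z)
    rw [e1] at h1
    have h2 := (le_abs_self _).trans h1
    have h3 := ex_mono hw (bY.mul (bsq (bdl.add bY)))
      ((bcm (18 * B ^ 2) (bY.mul (bm_sqrt brk))).add (bcm 6 bY3)) fun z => by
      show Y z * (3 / 2 * (β / N * √(RKg m E x K σ S z)) + 4 * η ^ 2 * Y z + Y z) ^ 2 ≤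
        18 * B ^ 2 * (Y z * √(rkz z)) + 6 * Y z ^ 3
      have hy := hY0 z
      have f1 : β / N * √(RKg m E x K σ S z) = β * √(rkz z) := by
        have e2 : RKg m E x K σ S z = N ^ 2 * rkz z := by
          rw [erk]
          show _ = N ^ 2 * ((N ^ 2)⁻¹ * RKg m E x K σ S z)
          field_simp
        rw [e2, Real.sqrt_mul (sq_nonneg N), Real.sqrt_sq hN.le]
        field_simp
      rw [f1]
      have hr0 : 0 ≤ √(rkz z) := Real.sqrt_nonneg _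
      have hr2 : √(rkz z) ≤ 2 := by
        rw [show (2 : ℝ) = √4 by rw [show (4 : ℝ) = 2 ^ 2 by norm_num, Real.sqrt_sq (by norm_num)]]
        exact Real.sqrt_le_sqrt (hrk4 z)
      exact rl3 hB hβ0 hβB hη hη1 hy hr0 hr2
    rw [ex_add hw (bcm _ (bY.mul (bm_sqrt brk))) (bcm 6 bY3), ex_cmul, ex_cmul] at h3
    have h4 : 18 * B ^ 2 * ex (gg ι) w (fun z => Y z * √(rkz z)) ≤
        18 * B ^ 2 * (√(ex (gg ι) w (fun z => Y z ^ 2)) * √(ex (gg ι) w rkz)) :=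
      mul_le_mul_of_nonneg_left h2 (by positivity)
    linarith
  have hq2 : 0 ≤ ex (gg ι) w (fun z => Q z ^ 2) + wf ^ 2 :=
    add_nonneg (ex_nonneg hw fun z => sq_nonneg _) (sq_nonneg _)
  have hg4 : 0 ≤ ex (gg ι) w q4z := ex_nonneg hw hq40
  have fin := comb_ne (b0 := b0) (kp := kp) (W2 := ex (gg ι) w (fun z => Q z ^ 2) + wf ^ 2)
    (W4 := ex (gg ι) w q4z + wf ^ 4) hB hβ0 hβB hη hx0 hg4 EY2 EY4 EY3 hq2 rfl T1 T3
  linarith

end Vale.Agent.P146.H586
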