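import Vale.Agent.P146.H586.KaD
import Vale.Agent.P146.H317.RowMid
import Vale.Agent.P146.H122.S3b
import Vale.Agent.P146.H122.S3c
import Vale.Agent.P146.H119.S3UpU
import Vale.Agent.P146.H529.S3UpQ

set_option linter.all false

/-!
# P146, S3: the upper bound of the relative entropy with a constant, eventually in the size and
the unit

`kaS`: `H586.S3.ka_ev` in the form `EV`, the middle regime included;
`kaCS_of`: `KaCS` from the slope, the number of the big overlaps, the second regime and the near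
end.
-/

open MeasureTheory ProbabilityTheory Filter Topology Set

namespace Vale.Agent.P146.S3

open Vale.Agent.P146.H418 Vale.Agent.P146.H122 Vale.Agent.P146.H586.S3

/-- **The upper bound of the relative entropy with a constant**, `EV`. -/
theorem kaS {b₁ A b C1 Ca : ℝ} (hb : 0 < b) (hA : 1 ≤ A) (hb₁ : 0 < b₁) (hCa : 1 ≤ Ca)
    (hC1 : 0 < C1) (hne : NeFinS b₁ A b) :
    EV fun n q => ∀ y V al s lam η : ℝ, KW (1 / 6) b₁ q A b n y V al s lam η →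
      (n : ℝ) ^ (-(80 * q)) * V ≤ A * s ^ 2 → al ≤ Ca * y ^ 2 →
      H317.BrP q b C1 n y V al s lam η → H122.RowUp2 q b n y V al s lam η →
      (lawOf n b y V al s lam η).KA ≤ CK b C1 (H317.C2c b Ca C1) * (n * y ^ 6) := by
  have hC2 : 1 ≤ H317.C2c b Ca C1 := by
    unfold H317.C2c
    have : 0 ≤ H317.cM b C1 * C1 := mul_nonneg (H317.cM_nonneg hC1) hC1.le
    linarith
  filter_upwards [apr_CC (a0 := 1 / 6) hb le_rfl hb₁ hA, apr_g (a0 := 1 / 6) hb le_rfl hb₁ hA,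
    apn_ev 10 hb hA hb₁, n7_fin (a0 := 1 / 6) hb hA le_rfl hb₁ hne,
    ev_rpow one_pos (H317.C2c b Ca C1),
    ev_log (show (0 : ℝ) < 1 / 1000 by norm_num) (Real.log C1), ev_q0,
    ev_qle (show 0 < b₁ / 100 by positivity)] with ⟨n, q⟩ g1 g2 g3 g5 g6 g7 hq hq1
  dsimp only at g1 g2 g3 g5 g6 g7 hq hq1 ⊢
  rw [one_mul] at g6
  intro y V al s lam η hK hs hal hbr hr2
  obtain ⟨hE, W, g4, hCC⟩ := g1 y V al s lam η hK
  obtain ⟨hw, hap⟩ := g3 y V al s lam η hK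
  have hB : BrC q b C1 n y V al s lam η := by
    intro T hT1 hT2 u hu0 hu1 m hm
    exact hbr T ⟨hT1, hT2⟩ u ⟨hu0, hu1⟩ m (hm.trans (Nat.le_succ _))
  exact ka_all hw hap ⟨hb, hA, hq, by linarith, le_rfl⟩ hE W g4 hCC (g2 y V al s lam η hK) hC2
    g6 hB (H317.row_mid_n hw hap hCa hal hC1 (by linarith) hbr) hr2
    fun T hT => g5 y V al s lam η hK hs T hT.1 hT.2

/-- **`KaCS`** from the slope, the number of the big overlaps, the second regime and the near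
end. -/
theorem kaCS_of {b : ℝ} (hb : 0 < b) {Ca C1 : ℝ} (hCa : 1 ≤ Ca) (hC1 : 0 < C1)
    (hsl : ∀ b₁ A : ℝ, 0 < b₁ → 1 ≤ A → EV fun n q => ∀ y V al s lam η : ℝ,
      KW (1 / 6) b₁ q A b n y V al s lam η → al ≤ Ca * y ^ 2)
    (hbr : ∀ b₁ A : ℝ, 0 < b₁ → 1 ≤ A → EV fun n q => ∀ y V al s lam η : ℝ,
      KW (1 / 6) b₁ q A b n y V al s lam η → al ≤ Ca * y ^ 2 → H317.BrP q b C1 n y V al s lam η)
    (hfar : ∀ b₁ A : ℝ, 0 < b₁ → 1 ≤ A → EV fun n q => ∀ y V al s lam η : ℝ,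
      KW (1 / 6) b₁ q A b n y V al s lam η → al ≤ Ca * y ^ 2 →
        s ^ 2 = (n : ℝ) ^ (-(80 * q)) * V → H122.RowUp2 q b n y V al s lam η)
    (hne : ∀ b₁ A : ℝ, 0 < b₁ → 1 ≤ A → NeFinS b₁ A b) :
    ∃ C : ℝ, 0 ≤ C ∧ ∀ b₁ A : ℝ, 0 < b₁ → 1 ≤ A → KaCS b₁ A b C := by
  have hC2 : 1 ≤ H317.C2c b Ca C1 := by
    unfold H317.C2c
    have : 0 ≤ H317.cM b C1 * C1 := mul_nonneg (H317.cM_nonneg hC1) hC1.le
    linarith
  refine ⟨CK b C1 (H317.C2c b Ca C1), ?_, ?_⟩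
  · unfold CK
    positivity
  intro b₁ A hb₁ hA
  filter_upwards [hsl b₁ A hb₁ hA, hbr b₁ A hb₁ hA, hfar b₁ A hb₁ hA,
    kaS hb hA hb₁ hCa hC1 (hne b₁ A hb₁ hA)] with ⟨n, q⟩ g1 g2 g3 g4
  dsimp only at g1 g2 g3 g4 ⊢
  intro y V al s lam η hK hs
  have hal := g1 y V al s lam η hK
  refine g4 y V al s lam η hK ?_ hal (g2 y V al s lam η hK hal) (g3 y V al s lam η hK hal hs)
  have h0 : 0 ≤ s ^ 2 := sq_nonneg s
  rw [← hs]
  nlinarith

end Vale.Agent.P146.S3
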