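import Vale.Agent.P146.H30.NeEnd
import Vale.Agent.P146.H463.Q4can
import Vale.Agent.P146.H320.TypS

set_option linter.all false

/-!
# P146, S3: the moments of the overlap from an upper law with a constant

`Tc b G n y W`: `Phi(2y, V) - Phi(y, V) ≤ G n y⁵` for `0 ≤ V ≤ W`.
`gn_c`: the gain of the amplitude law is at most `3 G n y⁶`.
`mom_c`, `momQ_c`, `q4_c`: moments of the overlap, no power of `n`.
-/

open MeasureTheory ProbabilityTheory Filter Topology Set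

namespace Vale.Agent.P146.H586.S3

open Vale.Agent.P157.Lv hiding Dep
open Vale.Agent.P146.H425 Vale.Agent.P146.H646 Vale.Agent.P146.H196
  Vale.Agent.P146.H475 Vale.Agent.P146.H325 Vale.Agent.P146.H317 Vale.Agent.P146.H615
  Vale.Agent.P146.H418 Vale.Agent.P146.H9 Vale.Agent.P146.H529 Vale.Agent.P146.H347
  Vale.Agent.P146.H412 Vale.Agent.P146.H516

/-- the upper law with the constant `G` at one scale -/
def Tc (b G : ℝ) (n : ℕ) (y W : ℝ) : Prop :=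
  ∀ V : ℝ, 0 ≤ V → V ≤ W → Phn n b (2 * y) V - Phn n b y V ≤ G * (n * y ^ 5)

/-- **The gain of the amplitude law.** -/
theorem gain_tc {n : ℕ} {LB LF : Type} [Fintype LB] [DecidableEq LB] [Fintype LF]
    [DecidableEq LF] {b : ℝ} {cB : LB → ℝ} {cF : LF → ℝ} {lam s η y V W a G : ℝ}
    (hn : 1 ≤ n) (hb : 0 < b) (hB : ∑ l, cB l ^ 2 = 1)
    (hV : V = ∑ l, cF l ^ 2 + s ^ 2) (hV1 : V ≤ 1) (hs : 0 < s) (hlam : 1 ≤ lam) (hη : 0 < η)
    (hη1 : η < 1) (hle : 1 ≤ lam * η) (hy : 0 < y) (hy1 : 2 * y ≤ 1)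
    (h : Tc b G n y W) (hVW : V + 3 * η * s ^ 2 ≤ W) (ha : SG n b y V a) :
    gain (muA (Xs n) lam η (cc n b s a)) 1 y (Sm (LB := LB) (LF := LF) b cB cF s η) ≤
      2 * (G * (n * y ^ 6)) + 5 * (1 + Real.log n) := by
  have hn1 : (1 : ℝ) ≤ n := by exact_mod_cast hn
  have hn0 : (0 : ℝ) < n := by linarith
  have hF0 : 0 ≤ ∑ l, cF l ^ 2 := Finset.sum_nonneg fun _ _ => sq_nonneg _
  have hs2 : 0 < s ^ 2 := by positivity
  have hV0 : 0 < V := by rw [hV]; positivity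
  have hsV : s ^ 2 ≤ 1 := by linarith
  have hlam0 : 0 < lam := by linarith
  have hc0 := cc_nonneg (s := s) ha hy hV0.le
  have hcn := cc_le (s := s) ha hy (by linarith) hV0 hsV
  have hc : cc n b s a = 2 * s ^ 2 * (y * (n / (2 * b) * (1 + a)) / y) := cc_eq hy.ne'
  have hp0 : 0 ≤ y * (n / (2 * b) * (1 + a)) := mul_nonneg hy.le (ha.nonneg hy.le hV0.le)
  have h1 := gain_sk (lam := lam) hB hV hs hlam0 hη hη1 hy hy1
    (hle.trans (mul_le_mul_of_nonneg_right (by linarith) hη.le))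
    (fun w hw => ha.lphi hy w hw) hp0 hc
    (fun w hw => h w hw.1 (hw.2.trans hVW))
  refine h1.trans ?_
  have e : 2 * (y * (G * (n * y ^ 5))) = 2 * (G * (n * y ^ 6)) := by ring
  rw [e]
  have h2 : Real.log (8 * η * cc n b s a + 4) ≤ 3 + Real.log n := by
    have h3 : 8 * η * cc n b s a + 4 ≤ 12 * n := by nlinarith
    have h4 : Real.log (8 * η * cc n b s a + 4) ≤ Real.log (12 * n) :=
      Real.log_le_log (by positivity) h3
    rw [Real.log_mul (by norm_num) hn0.ne'] at h4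
    have h5 : Real.log 12 ≤ 3 := by
      rw [Real.log_le_iff_le_exp (by norm_num)]
      have := Real.exp_one_gt_d9
      have e3 : Real.exp 3 = Real.exp 1 ^ 3 := by rw [← Real.exp_nat_mul]; norm_num
      rw [e3]
      have h6 : (2.7 : ℝ) ^ 3 ≤ Real.exp 1 ^ 3 := pow_le_pow_left₀ (by norm_num) (by linarith) 3
      norm_num at h6 ⊢
      linarith
    linarith
  have h7 : Real.log (4 * (lam + cc n b s a) / lam) ≤ 3 + Real.log n := by
    have h3 : 4 * (lam + cc n b s a) / lam ≤ 8 * n := by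
      rw [div_le_iff₀ hlam0]
      nlinarith
    have h4 : Real.log (4 * (lam + cc n b s a) / lam) ≤ Real.log (8 * n) :=
      Real.log_le_log (by positivity) h3
    rw [Real.log_mul (by norm_num) hn0.ne'] at h4
    have h5 : Real.log 8 ≤ 3 := by
      rw [Real.log_le_iff_le_exp (by norm_num)]
      have := Real.exp_one_gt_d9
      have e3 : Real.exp 3 = Real.exp 1 ^ 3 := by rw [← Real.exp_nat_mul]; norm_num
      rw [e3]
      have h6 : (2.7 : ℝ) ^ 3 ≤ Real.exp 1 ^ 3 := pow_le_pow_left₀ (by norm_num) (by linarith) 3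
      norm_num at h6 ⊢
      linarith
    linarith
  have hlog : 0 ≤ Real.log n := Real.log_nonneg hn1
  have h8 : y * (Real.log (4 * (lam + cc n b s a) / lam) + 3) ≤ 1 / 2 * (6 + Real.log n) := by
    have h9 : y * (Real.log (4 * (lam + cc n b s a) / lam) + 3) ≤ y * (6 + Real.log n) :=
      mul_le_mul_of_nonneg_left (by linarith) hy.le
    have h10 : y * (6 + Real.log n) ≤ 1 / 2 * (6 + Real.log n) :=
      mul_le_mul_of_nonneg_right (by linarith) (by linarith)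
    linarith
  linarith

/-- **The gain in canonical form**, uniformly in the shares and in `G ≥ 1`. -/
theorem gn_c {b e s0 : ℝ} (hb : 0 < b) (he : 0 < e) :
    ∀ᶠ n : ℕ in atTop, ∀ (vp s lam η y V a : ℝ), Par1 b s0 e n vp s lam η y V a →
      (1 : ℝ) ≤ n * y ^ 6 ∧ ∀ G : ℝ, 1 ≤ G → Tc b G n y (2 * V) →
      ∀ t ∈ Icc (0 : ℝ) 1, ∀ u ∈ Icc (0 : ℝ) 1,
      gn ⟨n, b, vp, s, lam, η, cc n b s a, y⟩ t u ≤ 3 * (G * (n * y ^ 6)) := by
  filter_upwards [H178.ev_log (show 0 < 6 * e by positivity) 5, eventually_ge_atTop 1]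
    with n g2 g3
  intro vp s lam η y V a h
  have hn1 : (1 : ℝ) ≤ n := by exact_mod_cast g3
  have hn0 : (0 : ℝ) < n := by linarith
  have hy0 : 0 < y := lt_of_lt_of_le (Real.rpow_pos_of_pos hn0 _) h.y0
  have hlog : 0 ≤ Real.log n := Real.log_nonneg hn1
  have h6 : (n : ℝ) ^ (6 * e) ≤ n * y ^ 6 := by
    have h6 := ypow g3 h.y0
    calc (n : ℝ) ^ (6 * e) = (n : ℝ) ^ (1 : ℝ) * (n : ℝ) ^ (-1 + 6 * e) := by
          rw [← Real.rpow_add hn0]
          congr 1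
          ring
      _ = n * (n : ℝ) ^ (-1 + 6 * e) := by rw [Real.rpow_one]
      _ ≤ n * y ^ 6 := by gcongr
  have h5 : 5 * (1 + Real.log n) ≤ n * y ^ 6 := g2.trans h6
  refine ⟨by linarith, ?_⟩
  intro G hG hT t ht u hu
  have hs2 : 0 < s ^ 2 := by
    have := h.s0'
    positivity
  have hB : ∑ l, H418.cb t l ^ 2 = 1 := sum_cb ht.1 ht.2
  have hF : V = ∑ l, cf vp u l ^ 2 + s ^ 2 := by rw [sum_cf h.vp0 hu.1 hu.2, h.hV]
  have hVW : V + 3 * η * s ^ 2 ≤ 2 * V := by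
    have h1 := mul_le_mul_of_nonneg_right h.η3 hs2.le
    have h2 := h.hV
    have h3 := h.vp0
    linarith
  have h1 := gain_tc (LB := Bool) (LF := Bool) (cB := H418.cb t) (cF := cf vp u) g3 hb hB hF
    h.V1 h.s0' h.lam1 h.η0 h.η1 h.lamη hy0 h.y1 hT hVW h.sg
  refine (show gn ⟨n, b, vp, s, lam, η, cc n b s a, y⟩ t u ≤ _ from h1).trans ?_
  have h7 : 1 * (n * y ^ 6) ≤ G * (n * y ^ 6) :=
    mul_le_mul_of_nonneg_right hG (by positivity)
  linarith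

/-- the numbers of one law at `1 - t`, from the gain `3 G n y⁶` -/
structure Mc (L : Law) (G : ℝ) : Prop where
  cc : ∀ t : ℝ, 0 ≤ t → t < 1 → ∀ u ∈ Icc (0 : ℝ) 1, ∀ (S : Finset (Fin L.n)) (p : ℕ),
    L.ex' t u (fun z => H412.CC L S t u z ^ p) ≤
      Cp p * (12 * (G * L.x ^ 4) / (L.b ^ 2 * (1 - t))) ^ p
  qq : ∀ t : ℝ, 0 ≤ t → t < 1 → ∀ u ∈ Icc (0 : ℝ) 1, ∀ (S : Finset (Fin L.n)) (p : ℕ),
    L.ex' t u (fun z => L.Q S t u z ^ (2 * p)) ≤
      (1 + L.η) ^ (4 * p) * (Cp p * (12 * (G * L.x ^ 4) / (L.b ^ 2 * (1 - t))) ^ p)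
  q4 : ∀ t : ℝ, 0 ≤ t → t < 1 → ∀ u ∈ Icc (0 : ℝ) 1, ∀ S : Finset (Fin L.n),
    L.ex' t u (H463.Q4g (muA (Xs L.n) L.lam L.η L.c)
      (Sm L.b (H418.cb t) (cf L.vp u) L.s L.η) L.x (H418.Kt L.n S) (H463.spR L.n) S) ≤
      (L.n : ℝ) ^ 4 * (129 * (G * L.x ^ 4) / (L.b ^ 2 * (1 - t))) ^ 2

theorem mc_of {L : Law} (hA : H320.Adm L) {G : ℝ} (hG : 1 ≤ G) (hx0 : 0 < L.x) (hx1 : L.x ≤ 1)
    (hyb : L.x ^ 2 * L.b ^ 2 ≤ 4) (h1 : (1 : ℝ) ≤ L.n * L.x ^ 6)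
    (hg : ∀ t ∈ Icc (0 : ℝ) 1, ∀ u ∈ Icc (0 : ℝ) 1, gn L t u ≤ 3 * (G * (L.n * L.x ^ 6))) :
    Mc L G := by
  have hn0 : (0 : ℝ) < L.n := by exact_mod_cast hA.n0
  have hb := hA.b0
  have hg1 : 1 ≤ 3 * (G * (L.n * L.x ^ 6)) := by nlinarith
  have hcc : ∀ t : ℝ, 0 ≤ t → t < 1 → ∀ u ∈ Icc (0 : ℝ) 1, ∀ (S : Finset (Fin L.n)) (p : ℕ),
      L.ex' t u (fun z => H412.CC L S t u z ^ p) ≤
        Cp p * (12 * (G * L.x ^ 4) / (L.b ^ 2 * (1 - t))) ^ p := by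
    intro t ht0 ht1 u hu S p
    have ht : 0 < 1 - t := by linarith
    have h3 := mom_CC (L := L) hA.lam0 hA.η0 hx0 hA.n0 hb.ne' ht0 ht1 hyb S u
      (hg t ⟨ht0, ht1.le⟩ u hu) hg1 p
    refine h3.trans (le_of_eq ?_)
    congr 2
    field_simp
    ring
  refine ⟨hcc, ?_, ?_⟩
  · intro t ht0 ht1 u hu S p
    refine (mom_Q hA.lam0 hA.η0 hA.n0 S t u p).trans ?_
    have := hA.η0
    exact mul_le_mul_of_nonneg_left (hcc t ht0 ht1 u hu S p) (by positivity)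
  · intro t ht0 ht1 u hu S
    have ht : 0 < 1 - t := by linarith
    have h3 := H463.q4_can (L := L) hA.lam0 hA.η0 hx0 hx1 hA.n0 hb.ne' hA.vp0 ht0 ht1 hu.1
      hu.2 hyb S (hg t ⟨ht0, ht1.le⟩ u hu) hg1
    refine h3.trans (le_of_eq ?_)
    congr 2
    field_simp
    ring

variable {a0 b₁ q A b : ℝ}

/-- **The numbers on the window of the data.** -/
theorem mc_kw (hq : 0 < q) (hb : 0 < b) (ha0 : a0 ≤ 1 / 6) (hb₁ : 100 * q < b₁) (hA : 1 ≤ A) :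
    ∀ᶠ n : ℕ in atTop, ∀ y V al s lam η : ℝ, KW a0 b₁ q A b n y V al s lam η →
      ∀ G : ℝ, 1 ≤ G → Tc b G n y (2 * V) →
      (∀ t ∈ Icc (0 : ℝ) 1, ∀ u ∈ Icc (0 : ℝ) 1,
        gn (lawOf n b y V al s lam η) t u ≤ 3 * (G * (n * y ^ 6))) ∧
      Mc (lawOf n b y V al s lam η) G := by
  filter_upwards [H30.kw_par1 hq hb ha0 hb₁ hA,
    gn_c (e := 999 * q) (s0 := q / 2) hb (by positivity), eventually_gt_atTop 0] with n h1 h2 hn
  intro y V al s lam η h G hG hT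
  obtain ⟨p1, p2, p3, -⟩ := h1 y V al s lam η h
  obtain ⟨k1, k2⟩ := h2 (V - s ^ 2) s lam η y V al p1
  have hg := k2 G hG hT
  refine ⟨hg, mc_of (L := lawOf n b y V al s lam η) ⟨?_, ?_, ?_, ?_, ?_, ?_, ?_⟩ hG ?_ ?_ p2 k1
    hg⟩
  all_goals first
    | exact h.l0
    | exact h.η0.le
    | exact hn
    | exact hb
    | exact h.y0.le
    | exact h.y0
    | exact p3
    | exact (by linarith [p1.y1, h.y0] : y ≤ 1)

end Vale.Agent.P146.H586.S3
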